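import Vale.Agent.P032X.H892.LtH
import Vale.Agent.P032X.H286.W73
import Vale.Agent.P032X.Cert.X3.A2.R0T
import Vale.Agent.P032X.Cert.X3.A2.R0Q000
import Vale.Agent.P032X.Cert.X3.A2.R0Q001
import Vale.Agent.P032X.Cert.X3.A2.R0Q002
import Vale.Agent.P032X.Cert.X3.A2.R0Q003
import Vale.Agent.P032X.Cert.X3.A2.R0Q004
import Vale.Agent.P032X.Cert.X3.A2.R0Q005
import Vale.Agent.P032X.Cert.X3.A2.R0Q006
import Vale.Agent.P032X.Cert.X3.A2.R0Q007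
import Vale.Agent.P032X.Cert.X3.A2.R0Q008
import Vale.Agent.P032X.Cert.X3.A2.R0Q009

set_option maxRecDepth 1000000

namespace Vale.Agent.P032X.Cert.X3.A2.R0H000

open Vale.Agent.P032.H820.K Vale.Agent.P032.H357.MK Vale.Agent.P032.H286.E Vale.Agent.P032.H61 Vale.Agent.P032X.Cert.X3.A2

noncomputable abbrev Fm : ℕ → List ℕ := Vale.Agent.P032.Fam.fam3 (Vale.Agent.P032.Fam.im0)

def CB : List ℕ := [0, 4, 8, 12, 16, 20, 24]

theorem eB : Vale.Agent.P032.Lt.eqLL (CB.map Fm) R0Q000.E = true := by decide +kernel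

def C0 : List ℕ := [0, 4, 8, 12, 16, 20, 24, 212993, 344065, 14646422758418]
theorem p0 : Pat 73 73 TBm TCm (C0.map Fm) R0Q000.P0 R0Q000.I0 := Vale.Agent.P032.Lt.pat_eq (E' := R0Q000.E0) (by decide +kernel) (pat_step (by decide +kernel) (q_cons (Vale.Agent.P032.Lt.q R0Q000.q0_0) (q_cons (Vale.Agent.P032.Lt.q R0Q000.q0_1) q_nil)))

theorem p1 : Pat 73 73 TBm TCm (CB.map Fm) R0Q000.P1 R0Q000.I1 := Vale.Agent.P032.Lt.pat_eq (E' := R0Q000.E) eB (pat_step (by decide +kernel) (q_cons (Vale.Agent.P032.Lt.q R0Q000.q1_0) (q_cons (Vale.Agent.P032.Lt.q R0Q000.q1_1) (q_cons (Vale.Agent.P032.Lt.q R0Q000.q1_2) (q_cons (Vale.Agent.P032.Lt.q R0Q000.q1_3) (q_cons (Vale.Agent.P032.Lt.q R0Q000.q1_4) (q_cons (Vale.Agent.P032.Lt.q R0Q000.q1_5) (q_cons (Vale.Agent.P032.Lt.q R0Q000.q1_6) (q_cons (Vale.Agent.P032.Lt.q R0Q000.q1_7) (q_cons (Vale.Agent.P032.Lt.q R0Q000.q1_8) (q_cons (Vale.Agent.P032.Lt.q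 R0Q000.q1_9) (q_cons (Vale.Agent.P032.Lt.q R0Q000.q1_10) (q_cons (Vale.Agent.P032.Lt.q R0Q000.q1_11) (q_cons (Vale.Agent.P032.Lt.q R0Q000.q1_12) (q_cons (Vale.Agent.P032.Lt.q R0Q000.q1_13) (q_cons (Vale.Agent.P032.Lt.q R0Q000.q1_14) (q_cons (Vale.Agent.P032.Lt.q R0Q000.q1_15) q_nil)))))))))))))))))

def C2 : List ℕ := [0, 4, 8, 12, 16, 20, 24, 355329, 737281, 741377, 23373660121110, 24275583195142, 24275585292294, 24278404913158]
theorem p2 : Pat 73 73 TBm TCm (C2.map Fm) R0Q000.P2 R0Q000.I2 := Vale.Agent.P032.Lt.pat_eq (E' := R0Q000.E2) (by decide +kernel) (pat_step (by decide +kernel) (q_cons (Vale.Agent.P032.Lt.q R0Q000.q2_0) (q_cons (Vale.Agent.P032.Lt.q R0Q000.q2_1) (q_cons (Vale.Agent.P032.Lt.q R0Q000.q2_2) (q_cons (Vale.Agent.P032.Lt.q R0Q000.q2_3) (q_cons (Vale.Agent.P032.Lt.q R0Q000.q2_4) (q_cons (Vale.Agent.P032.Lt.q R0Q000.q2_5) (q_cons (Vale.Agent.P032.Lt.q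 R0Q000.q2_6) (q_cons (Vale.Agent.P032.Lt.q R0Q000.q2_7) (q_cons (Vale.Agent.P032.Lt.q R0Q000.q2_8) (q_cons (Vale.Agent.P032.Lt.q R0Q000.q2_9) (q_cons (Vale.Agent.P032.Lt.q R0Q000.q2_10) (q_cons (Vale.Agent.P032.Lt.q R0Q000.q2_11) (q_cons (Vale.Agent.P032.Lt.q R0Q000.q2_12) q_nil))))))))))))))

def C3 : List ℕ := [0, 4, 8, 12, 16, 20, 24, 214017, 220161, 355329, 476161, 607233, 9599256450098, 9599325656114, 9719540700210, 9719542797362, 13924867327010, 14105297896482, 14105297902602, 14109056916490, 14109057047562, 14650137991174, 14650139957254, 14650205100038, 18506031520778]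
theorem p3 : Pat 73 73 TBm TCm (C3.map Fm) R0Q000.P3 R0Q000.I3 := Vale.Agent.P032.Lt.pat_eq (E' := R0Q000.E3) (by decide +kernel) (pat_step (by decide +kernel) (q_cons (Vale.Agent.P032.Lt.q R0Q000.q3_0) (q_cons (Vale.Agent.P032.Lt.q R0Q000.q3_1) (q_cons (Vale.Agent.P032.Lt.q R0Q000.q3_2) (q_cons (Vale.Agent.P032.Lt.q R0Q000.q3_3) (q_cons (Vale.Agent.P032.Lt.q R0Q000.q3_4) (q_cons (Vale.Agent.P032.Lt.q R0Q000.q3_5) (q_cons (Vale.Agent.P032.Lt.q R0Q000.q3_6) (q_cons (Vale.Agent.P032.Lt.q R0Q000.q3_7) (q_cons (Vale.Agent.P032.Lt.q R0Q000.q3_8) (q_cons (Vale.Agent.P032.Lt.q R0Q000.q3_9) (q_cons (Vale.Agent.P032.Lt.q R0Q000.q3_10) (q_cons (Vale.Agent.P032.Lt.q R0Q000.q3_11) (q_cons (Vale.Agent.P032.Lt.q R0Q000.q3_12) (q_cons (Vale.Agent.P032.Lt.q R0Q000.q3_13) (q_cons (Vale.Agent.P032.Lt.q R0Q000.q3_14) (q_cons (Vale.Agent.P032.Lt.q R0Q000.q3_15) (q_cons (Vale.Agent.P032.Lt.q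 R0Q000.q3_16) (q_cons (Vale.Agent.P032.Lt.q R0Q000.q3_17) (q_cons (Vale.Agent.P032.Lt.q R0Q000.q3_18) (q_cons (Vale.Agent.P032.Lt.q R0Q000.q3_19) (q_cons (Vale.Agent.P032.Lt.q R0Q000.q3_20) (q_cons (Vale.Agent.P032.Lt.q R0Q000.q3_21) (q_cons (Vale.Agent.P032.Lt.q R0Q000.q3_22) (q_cons (Vale.Agent.P032.Lt.q R0Q000.q3_23) (q_cons (Vale.Agent.P032.Lt.q R0Q000.q3_24) (q_cons (Vale.Agent.P032.Lt.q R0Q000.q3_25) (q_cons (Vale.Agent.P032.Lt.q R0Q000.q3_26) (q_cons (Vale.Agent.P032.Lt.q R0Q000.q3_27) (q_cons (Vale.Agent.P032.Lt.q R0Q000.q3_28) (q_cons (Vale.Agent.P032.Lt.q R0Q000.q3_29) (q_cons (Vale.Agent.P032.Lt.q R0Q000.q3_30) (q_cons (Vale.Agent.P032.Lt.q R0Q000.q3_31) (q_cons (Vale.Agent.P032.Lt.q R0Q000.q3_32) (q_cons (Vale.Agent.P032.Lt.q R0Q000.q3_33) (q_cons (Vale.Agent.P032.Lt.q R0Q000.q3_34) (q_cons (Vale.Agent.P032.Lt.q R0Q000.q3_35) (q_cons (Vale.Agent.P032.Lt.q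 R0Q000.q3_36) q_nil))))))))))))))))))))))))))))))))))))))

theorem p4 : Pat 73 73 TBm TCm (CB.map Fm) R0Q000.P4 R0Q000.I4 := Vale.Agent.P032.Lt.pat_eq (E' := R0Q000.E) eB (pat_step (by decide +kernel) (q_cons (Vale.Agent.P032.Lt.q R0Q000.q4_0) q_nil))

theorem p5 : Pat 73 73 TBm TCm (CB.map Fm) R0Q000.P5 R0Q000.I5 := Vale.Agent.P032.Lt.pat_eq (E' := R0Q000.E) eB (pat_step (by decide +kernel) (q_cons (Vale.Agent.P032.Lt.q R0Q000.q5_0) (q_cons (Vale.Agent.P032.Lt.q R0Q000.q5_1) (q_cons (Vale.Agent.P032.Lt.q R0Q000.q5_2) (q_cons (Vale.Agent.P032.Lt.q R0Q000.q5_3) (q_cons (Vale.Agent.P032.Lt.q R0Q000.q5_4) (q_cons (Vale.Agent.P032.Lt.q R0Q000.q5_5) (q_cons (Vale.Agent.P032.Lt.q R0Q000.q5_6) (q_cons (Vale.Agent.P032.Lt.q R0Q000.q5_7) (q_cons (Vale.Agent.P032.Lt.q R0Q000.q5_8) (q_cons (Vale.Agent.P032.Lt.q R0Q000.q5_9) (q_cons (Vale.Agent.P032.Lt.q R0Q000.q5_10) (q_cons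 (Vale.Agent.P032.Lt.q R0Q000.q5_11) (q_cons (Vale.Agent.P032.Lt.q R0Q000.q5_12) (q_cons (Vale.Agent.P032.Lt.q R0Q000.q5_13) (q_cons (Vale.Agent.P032.Lt.q R0Q000.q5_14) (q_cons (Vale.Agent.P032.Lt.q R0Q000.q5_15) (q_cons (Vale.Agent.P032.Lt.q R0Q000.q5_16) (q_cons (Vale.Agent.P032.Lt.q R0Q000.q5_17) (q_cons (Vale.Agent.P032.Lt.q R0Q000.q5_18) (q_cons (Vale.Agent.P032.Lt.q R0Q000.q5_19) q_nil)))))))))))))))))))))

theorem p6 : Pat 73 73 TBm TCm (CB.map Fm) R0Q000.P6 R0Q000.I6 := Vale.Agent.P032.Lt.pat_eq (E' := R0Q000.E) eB (pat_step (by decide +kernel) (q_cons (Vale.Agent.P032.Lt.q R0Q000.q6_0) (q_cons (Vale.Agent.P032.Lt.q R0Q000.q6_1) q_nil)))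

theorem p7 : Pat 73 73 TBm TCm (CB.map Fm) R0Q000.P7 R0Q000.I7 := Vale.Agent.P032.Lt.pat_eq (E' := R0Q000.E) eB (pat_step (by decide +kernel) (q_cons (Vale.Agent.P032.Lt.q R0Q000.q7_0) (q_cons (Vale.Agent.P032.Lt.q R0Q000.q7_1) (q_cons (Vale.Agent.P032.Lt.q R0Q000.q7_2) (q_cons (Vale.Agent.P032.Lt.q R0Q000.q7_3) (q_cons (Vale.Agent.P032.Lt.q R0Q000.q7_4) (q_cons (Vale.Agent.P032.Lt.q R0Q000.q7_5) (q_cons (Vale.Agent.P032.Lt.q R0Q000.q7_6) q_nil))))))))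

def C8 : List ℕ := [0, 4, 8, 12, 16, 20, 24, 224257, 344065, 617473, 9719540700210, 14405945612294, 18513488466994]
theorem p8 : Pat 73 73 TBm TCm (C8.map Fm) R0Q000.P8 R0Q000.I8 := Vale.Agent.P032.Lt.pat_eq (E' := R0Q000.E8) (by decide +kernel) (pat_step (by decide +kernel) (q_cons (Vale.Agent.P032.Lt.q R0Q000.q8_0) (q_cons (Vale.Agent.P032.Lt.q R0Q000.q8_1) (q_cons (Vale.Agent.P032.Lt.q R0Q000.q8_2) (q_cons (Vale.Agent.P032.Lt.q R0Q000.q8_3) (q_cons (Vale.Agent.P032.Lt.q R0Q000.q8_4) (q_cons (Vale.Agent.P032.Lt.q R0Q000.q8_5) (q_cons (Vale.Agent.P032.Lt.q R0Q000.q8_6) (q_cons (Vale.Agent.P032.Lt.q R0Q000.q8_7) q_nil)))))))))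

theorem p9 : Pat 73 73 TBm TCm (CB.map Fm) R0Q000.P9 R0Q000.I9 := Vale.Agent.P032.Lt.pat_eq (E' := R0Q000.E) eB (pat_step (by decide +kernel) (q_cons (Vale.Agent.P032.Lt.q R0Q000.q9_0) (q_cons (Vale.Agent.P032.Lt.q R0Q000.q9_1) (q_cons (Vale.Agent.P032.Lt.q R0Q000.q9_2) (q_cons (Vale.Agent.P032.Lt.q R0Q000.q9_3) (q_cons (Vale.Agent.P032.Lt.q R0Q000.q9_4) (q_cons (Vale.Agent.P032.Lt.q R0Q000.q9_5) (q_cons (Vale.Agent.P032.Lt.q R0Q000.q9_6) (q_cons (Vale.Agent.P032.Lt.q R0Q000.q9_7) (q_cons (Vale.Agent.P032.Lt.q R0Q000.q9_8) q_nil))))))))))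

def C10 : List ℕ := [0, 4, 8, 12, 16, 20, 24, 355329, 9098494170162, 9098496267314, 9098561279026, 9102253052978]
theorem p10 : Pat 73 73 TBm TCm (C10.map Fm) R0Q000.P10 R0Q000.I10 := Vale.Agent.P032.Lt.pat_eq (E' := R0Q000.E10) (by decide +kernel) (pat_step (by decide +kernel) (q_cons (Vale.Agent.P032.Lt.q R0Q000.q10_0) (q_cons (Vale.Agent.P032.Lt.q R0Q000.q10_1) (q_cons (Vale.Agent.P032.Lt.q R0Q000.q10_2) (q_cons (Vale.Agent.P032.Lt.q R0Q000.q10_3) (q_cons (Vale.Agent.P032.Lt.q R0Q000.q10_4) (q_cons (Vale.Agent.P032.Lt.q R0Q000.q10_5) (q_cons (Vale.Agent.P032.Lt.q R0Q000.q10_6) (q_cons (Vale.Agent.P032.Lt.q R0Q000.q10_7) (q_cons (Vale.Agent.P032.Lt.q R0Q000.q10_8) (q_cons (Vale.Agent.P032.Lt.q R0Q000.q10_9) (q_cons (Vale.Agent.P032.Lt.q R0Q000.q10_10) (q_cons (Vale.Agent.P032.Lt.q R0Q000.q10_11) (q_cons (Vale.Agent.P032.Lt.q R0Q000.q10_12) (q_cons (Vale.Agent.P032.Lt.q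 R0Q000.q10_13) (q_cons (Vale.Agent.P032.Lt.q R0Q000.q10_14) (q_cons (Vale.Agent.P032.Lt.q R0Q000.q10_15) (q_cons (Vale.Agent.P032.Lt.q R0Q000.q10_16) q_nil))))))))))))))))))

theorem p11 : Pat 73 73 TBm TCm (CB.map Fm) R0Q000.P11 R0Q000.I11 := Vale.Agent.P032.Lt.pat_eq (E' := R0Q000.E) eB (pat_step (by decide +kernel) (q_cons (Vale.Agent.P032.Lt.q R0Q000.q11_0) (q_cons (Vale.Agent.P032.Lt.q R0Q000.q11_1) (q_cons (Vale.Agent.P032.Lt.q R0Q000.q11_2) q_nil))))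

theorem p12 : Pat 73 73 TBm TCm (CB.map Fm) R0Q000.P12 R0Q000.I12 := Vale.Agent.P032.Lt.pat_eq (E' := R0Q000.E) eB (pat_step (by decide +kernel) (q_cons (Vale.Agent.P032.Lt.q R0Q000.q12_0) (q_cons (Vale.Agent.P032.Lt.q R0Q000.q12_1) (q_cons (Vale.Agent.P032.Lt.q R0Q000.q12_2) (q_cons (Vale.Agent.P032.Lt.q R0Q000.q12_3) (q_cons (Vale.Agent.P032.Lt.q R0Q000.q12_4) (q_cons (Vale.Agent.P032.Lt.q R0Q000.q12_5) (q_cons (Vale.Agent.P032.Lt.q R0Q000.q12_6) (q_cons (Vale.Agent.P032.Lt.q R0Q000.q12_7) q_nil)))))))))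

def C13 : List ℕ := [0, 4, 8, 12, 16, 20, 24, 214017, 216065, 347137, 478209, 606209, 737281, 9595564155922, 9595610293266, 13924824212498]
theorem p13 : Pat 73 73 TBm TCm (C13.map Fm) R0Q000.P13 R0Q000.I13 := Vale.Agent.P032.Lt.pat_eq (E' := R0Q000.E13) (by decide +kernel) (pat_step (by decide +kernel) (q_cons (Vale.Agent.P032.Lt.q R0Q000.q13_0) (q_cons (Vale.Agent.P032.Lt.q R0Q000.q13_1) (q_cons (Vale.Agent.P032.Lt.q R0Q000.q13_2) (q_cons (Vale.Agent.P032.Lt.q R0Q000.q13_3) (q_cons (Vale.Agent.P032.Lt.q R0Q000.q13_4) (q_cons (Vale.Agent.P032.Lt.q R0Q000.q13_5) (q_cons (Vale.Agent.P032.Lt.q R0Q000.q13_6) (q_cons (Vale.Agent.P032.Lt.q R0Q000.q13_7) (q_cons (Vale.Agent.P032.Lt.q R0Q000.q13_8) (q_cons (Vale.Agent.P032.Lt.q R0Q000.q13_9) (q_cons (Vale.Agent.P032.Lt.q R0Q000.q13_10) (q_cons (Vale.Agent.P032.Lt.q R0Q000.q13_11) (q_cons (Vale.Agent.P032.Lt.q R0Q000.q13_12)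 (q_cons (Vale.Agent.P032.Lt.q R0Q000.q13_13) (q_cons (Vale.Agent.P032.Lt.q R0Q000.q13_14) (q_cons (Vale.Agent.P032.Lt.q R0Q000.q13_15) (q_cons (Vale.Agent.P032.Lt.q R0Q000.q13_16) q_nil))))))))))))))))))

theorem p14 : Pat 73 73 TBm TCm (CB.map Fm) R0Q000.P14 R0Q000.I14 := Vale.Agent.P032.Lt.pat_eq (E' := R0Q000.E) eB (pat_step (by decide +kernel) (q_cons (Vale.Agent.P032.Lt.q R0Q000.q14_0) (q_cons (Vale.Agent.P032.Lt.q R0Q000.q14_1) (q_cons (Vale.Agent.P032.Lt.q R0Q000.q14_2) (q_cons (Vale.Agent.P032.Lt.q R0Q000.q14_3) (q_cons (Vale.Agent.P032.Lt.q R0Q000.q14_4) (q_cons (Vale.Agent.P032.Lt.q R0Q000.q14_5) q_nil)))))))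

theorem p15 : Pat 73 73 TBm TCm (CB.map Fm) R0Q000.P15 R0Q000.I15 := Vale.Agent.P032.Lt.pat_eq (E' := R0Q000.E) eB (pat_step (by decide +kernel) (q_cons (Vale.Agent.P032.Lt.q R0Q000.q15_0) (q_cons (Vale.Agent.P032.Lt.q R0Q000.q15_1) (q_cons (Vale.Agent.P032.Lt.q R0Q000.q15_2) (q_cons (Vale.Agent.P032.Lt.q R0Q000.q15_3) (q_cons (Vale.Agent.P032.Lt.q R0Q000.q15_4) (q_cons (Vale.Agent.P032.Lt.q R0Q000.q15_5) q_nil)))))))

def C16 : List ℕ := [0, 4, 8, 12, 16, 20, 24, 220161, 344065, 738305, 4772044295210, 13924867327010, 13928626471970, 14671752288262, 14671752419334, 14671754254342, 14671819397126, 14671821363206, 14672691288070, 14672692992006, 14672693254150, 14672758396934, 14672760363014, 23786068204554]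
theorem p16 : Pat 73 73 TBm TCm (C16.map Fm) R0Q000.P16 R0Q000.I16 := Vale.Agent.P032.Lt.pat_eq (E' := R0Q000.E16) (by decide +kernel) (pat_step (by decide +kernel) (q_cons (Vale.Agent.P032.Lt.q R0Q000.q16_0) (q_cons (Vale.Agent.P032.Lt.q R0Q000.q16_1) (q_cons (Vale.Agent.P032.Lt.q R0Q000.q16_2) (q_cons (Vale.Agent.P032.Lt.q R0Q000.q16_3) (q_cons (Vale.Agent.P032.Lt.q R0Q000.q16_4) (q_cons (Vale.Agent.P032.Lt.q R0Q000.q16_5) (q_cons (Vale.Agent.P032.Lt.q R0Q000.q16_6) (q_cons (Vale.Agent.P032.Lt.q R0Q000.q16_7) (q_cons (Vale.Agent.P032.Lt.q R0Q000.q16_8) (q_cons (Vale.Agent.P032.Lt.q R0Q000.q16_9) (q_cons (Vale.Agent.P032.Lt.q R0Q000.q16_10) (q_cons (Vale.Agent.P032.Lt.q R0Q000.q16_11) (q_cons (Vale.Agent.P032.Lt.q R0Q000.q16_12) (q_cons (Vale.Agent.P032.Lt.q R0Q000.q16_13) q_nil)))))))))))))))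

def C17 : List ℕ := [0, 4, 8, 12, 16, 20, 24, 84993, 91137, 212993, 349185, 355329, 476161, 606209, 737281, 9169895123994, 9169958038554]
theorem p17 : Pat 73 73 TBm TCm (C17.map Fm) R0Q000.P17 R0Q000.I17 := Vale.Agent.P032.Lt.pat_eq (E' := R0Q000.E17) (by decide +kernel) (pat_step (by decide +kernel) (q_cons (Vale.Agent.P032.Lt.q R0Q000.q17_0) (q_cons (Vale.Agent.P032.Lt.q R0Q000.q17_1) (q_cons (Vale.Agent.P032.Lt.q R0Q000.q17_2) (q_cons (Vale.Agent.P032.Lt.q R0Q000.q17_3) (q_cons (Vale.Agent.P032.Lt.q R0Q000.q17_4) (q_cons (Vale.Agent.P032.Lt.q R0Q000.q17_5) q_nil)))))))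

def C18 : List ℕ := [0, 4, 8, 12, 16, 20, 24, 84993, 214017, 216065, 347137, 475137, 478209, 606209, 609281, 737281, 9169987134482, 9599275981834, 13928628446226, 14582526469138, 19332747843590, 24275583457286, 24278404519942]
theorem p18 : Pat 73 73 TBm TCm (C18.map Fm) R0Q001.P18 R0Q001.I18 := Vale.Agent.P032.Lt.pat_eq (E' := R0Q001.E18) (by decide +kernel) (pat_step (by decide +kernel) (q_cons (Vale.Agent.P032.Lt.q R0Q001.q18_0) (q_cons (Vale.Agent.P032.Lt.q R0Q001.q18_1) (q_cons (Vale.Agent.P032.Lt.q R0Q001.q18_2) q_nil))))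

def C19 : List ℕ := [0, 4, 8, 12, 16, 20, 24, 216065, 478209, 609281, 13921101505554, 18310558082066]
theorem p19 : Pat 73 73 TBm TCm (C19.map Fm) R0Q001.P19 R0Q001.I19 := Vale.Agent.P032.Lt.pat_eq (E' := R0Q001.E19) (by decide +kernel) (pat_step (by decide +kernel) (q_cons (Vale.Agent.P032.Lt.q R0Q001.q19_0) q_nil))

def C20 : List ℕ := [0, 4, 8, 12, 16, 20, 24, 737281, 23931717638150, 23931719473158, 23931719735302, 23931782387718, 23931782649862, 23932657686534, 23932657948678, 23932720601094, 23932720863238]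
theorem p20 : Pat 73 73 TBm TCm (C20.map Fm) R0Q001.P20 R0Q001.I20 := Vale.Agent.P032.Lt.pat_eq (E' := R0Q001.E20) (by decide +kernel) (pat_step (by decide +kernel) (q_cons (Vale.Agent.P032.Lt.q R0Q001.q20_0) (q_cons (Vale.Agent.P032.Lt.q R0Q001.q20_1) (q_cons (Vale.Agent.P032.Lt.q R0Q001.q20_2) (q_cons (Vale.Agent.P032.Lt.q R0Q001.q20_3) (q_cons (Vale.Agent.P032.Lt.q R0Q001.q20_4) (q_cons (Vale.Agent.P032.Lt.q R0Q001.q20_5) (q_cons (Vale.Agent.P032.Lt.q R0Q001.q20_6) (q_cons (Vale.Agent.P032.Lt.q R0Q001.q20_7) (q_cons (Vale.Agent.P032.Lt.q R0Q001.q20_8) (q_cons (Vale.Agent.P032.Lt.q R0Q001.q20_9) (q_cons (Vale.Agent.P032.Lt.q R0Q001.q20_10) (q_cons (Vale.Agent.P032.Lt.q R0Q001.q20_11) (q_cons (Vale.Agent.P032.Lt.q R0Q001.q20_12) (q_cons (Vale.Agent.P032.Lt.q R0Q001.q20_13) (q_cons (Vale.Agent.P032.Lt.q R0Q001.q20_14) q_nil))))))))))))))))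

def C21 : List ℕ := [0, 4, 8, 12, 16, 20, 24, 475137, 737281, 23729709864966, 23729722447878, 23729776973830, 23729785362438]
theorem p21 : Pat 73 73 TBm TCm (C21.map Fm) R0Q001.P21 R0Q001.I21 := Vale.Agent.P032.Lt.pat_eq (E' := R0Q001.E21) (by decide +kernel) (pat_step (by decide +kernel) (q_cons (Vale.Agent.P032.Lt.q R0Q001.q21_0) (q_cons (Vale.Agent.P032.Lt.q R0Q001.q21_1) (q_cons (Vale.Agent.P032.Lt.q R0Q001.q21_2) (q_cons (Vale.Agent.P032.Lt.q R0Q001.q21_3) (q_cons (Vale.Agent.P032.Lt.q R0Q001.q21_4) (q_cons (Vale.Agent.P032.Lt.q R0Q001.q21_5) q_nil)))))))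

def C22 : List ℕ := [0, 4, 8, 12, 16, 20, 24, 216065, 606209, 737281, 9595562058770]
theorem p22 : Pat 73 73 TBm TCm (C22.map Fm) R0Q001.P22 R0Q001.I22 := Vale.Agent.P032.Lt.pat_eq (E' := R0Q001.E22) (by decide +kernel) (pat_step (by decide +kernel) (q_cons (Vale.Agent.P032.Lt.q R0Q001.q22_0) (q_cons (Vale.Agent.P032.Lt.q R0Q001.q22_1) (q_cons (Vale.Agent.P032.Lt.q R0Q001.q22_2) (q_cons (Vale.Agent.P032.Lt.q R0Q001.q22_3) (q_cons (Vale.Agent.P032.Lt.q R0Q001.q22_4) q_nil))))))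

def C23 : List ℕ := [0, 4, 8, 12, 16, 20, 24, 347137, 475137, 737281]
theorem p23 : Pat 73 73 TBm TCm (C23.map Fm) R0Q001.P23 R0Q001.I23 := Vale.Agent.P032.Lt.pat_eq (E' := R0Q001.E23) (by decide +kernel) (pat_step (by decide +kernel) (q_cons (Vale.Agent.P032.Lt.q R0Q001.q23_0) (q_cons (Vale.Agent.P032.Lt.q R0Q001.q23_1) (q_cons (Vale.Agent.P032.Lt.q R0Q001.q23_2) (q_cons (Vale.Agent.P032.Lt.q R0Q001.q23_3) (q_cons (Vale.Agent.P032.Lt.q R0Q001.q23_4) (q_cons (Vale.Agent.P032.Lt.q R0Q001.q23_5) (q_cons (Vale.Agent.P032.Lt.q R0Q001.q23_6) (q_cons (Vale.Agent.P032.Lt.q R0Q001.q23_7) (q_cons (Vale.Agent.P032.Lt.q R0Q001.q23_8) q_nil))))))))))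

def C24 : List ℕ := [0, 4, 8, 12, 16, 20, 24, 89089, 606209, 9169891705890]
theorem p24 : Pat 73 73 TBm TCm (C24.map Fm) R0Q001.P24 R0Q001.I24 := Vale.Agent.P032.Lt.pat_eq (E' := R0Q001.E24) (by decide +kernel) (pat_step (by decide +kernel) (q_cons (Vale.Agent.P032.Lt.q R0Q001.q24_0) (q_cons (Vale.Agent.P032.Lt.q R0Q001.q24_1) (q_cons (Vale.Agent.P032.Lt.q R0Q001.q24_2) (q_cons (Vale.Agent.P032.Lt.q R0Q001.q24_3) (q_cons (Vale.Agent.P032.Lt.q R0Q001.q24_4) (q_cons (Vale.Agent.P032.Lt.q R0Q001.q24_5) (q_cons (Vale.Agent.P032.Lt.q R0Q001.q24_6) (q_cons (Vale.Agent.P032.Lt.q R0Q001.q24_7) (q_cons (Vale.Agent.P032.Lt.q R0Q001.q24_8) (q_cons (Vale.Agent.P032.Lt.q R0Q001.q24_9) (q_cons (Vale.Agent.P032.Lt.q R0Q001.q24_10) (q_cons (Vale.Agent.P032.Lt.q R0Q001.q24_11) q_nil)))))))))))))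

def C25 : List ℕ := [0, 4, 8, 12, 16, 20, 24, 606209, 737281, 13367694154762, 13514333051914]
theorem p25 : Pat 73 73 TBm TCm (C25.map Fm) R0Q001.P25 R0Q001.I25 := Vale.Agent.P032.Lt.pat_eq (E' := R0Q001.E25) (by decide +kernel) (pat_step (by decide +kernel) (q_cons (Vale.Agent.P032.Lt.q R0Q001.q25_0) (q_cons (Vale.Agent.P032.Lt.q R0Q001.q25_1) (q_cons (Vale.Agent.P032.Lt.q R0Q001.q25_2) (q_cons (Vale.Agent.P032.Lt.q R0Q001.q25_3) (q_cons (Vale.Agent.P032.Lt.q R0Q001.q25_4) (q_cons (Vale.Agent.P032.Lt.q R0Q001.q25_5) (q_cons (Vale.Agent.P032.Lt.q R0Q001.q25_6) q_nil))))))))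

def C26 : List ℕ := [0, 4, 8, 12, 16, 20, 24, 212993, 606209, 737281]
theorem p26 : Pat 73 73 TBm TCm (C26.map Fm) R0Q001.P26 R0Q001.I26 := Vale.Agent.P032.Lt.pat_eq (E' := R0Q001.E26) (by decide +kernel) (pat_step (by decide +kernel) (q_cons (Vale.Agent.P032.Lt.q R0Q001.q26_0) (q_cons (Vale.Agent.P032.Lt.q R0Q001.q26_1) q_nil)))

def C27 : List ℕ := [0, 4, 8, 12, 16, 20, 24, 216065, 344065, 347137, 349185, 475137, 611329, 737281, 740353, 9647235886106, 9664147317778, 14650169972742, 18941915786266, 24284054643730]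
theorem p27 : Pat 73 73 TBm TCm (C27.map Fm) R0Q001.P27 R0Q001.I27 := Vale.Agent.P032.Lt.pat_eq (E' := R0Q001.E27) (by decide +kernel) (pat_step (by decide +kernel) (q_cons (Vale.Agent.P032.Lt.q R0Q001.q27_0) (q_cons (Vale.Agent.P032.Lt.q R0Q001.q27_1) (q_cons (Vale.Agent.P032.Lt.q R0Q001.q27_2) (q_cons (Vale.Agent.P032.Lt.q R0Q001.q27_3) (q_cons (Vale.Agent.P032.Lt.q R0Q001.q27_4) q_nil))))))

def C28 : List ℕ := [0, 4, 8, 12, 16, 20, 24, 82945, 84993, 87041, 214017, 216065, 218113, 476161, 478209, 606209, 737281, 9046880117778, 9169958038554, 9595517885450, 13376227859466]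
theorem p28 : Pat 73 73 TBm TCm (C28.map Fm) R0Q001.P28 R0Q001.I28 := Vale.Agent.P032.Lt.pat_eq (E' := R0Q001.E28) (by decide +kernel) (pat_step (by decide +kernel) (q_cons (Vale.Agent.P032.Lt.q R0Q001.q28_0) q_nil))

theorem p29 : Pat 73 73 TBm TCm (CB.map Fm) R0Q001.P29 R0Q001.I29 := Vale.Agent.P032.Lt.pat_eq (E' := R0Q001.E) eB (pat_step (by decide +kernel) (q_cons (Vale.Agent.P032.Lt.q R0Q001.q29_0) (q_cons (Vale.Agent.P032.Lt.q R0Q001.q29_1) (q_cons (Vale.Agent.P032.Lt.q R0Q001.q29_2) (q_cons (Vale.Agent.P032.Lt.q R0Q001.q29_3) (q_cons (Vale.Agent.P032.Lt.q R0Q001.q29_4) (q_cons (Vale.Agent.P032.Lt.q R0Q001.q29_5) (q_cons (Vale.Agent.P032.Lt.q R0Q001.q29_6) (q_cons (Vale.Agent.P032.Lt.q R0Q001.q29_7) (q_cons (Vale.Agent.P032.Lt.q R0Q001.q29_8) (q_cons (Vale.Agent.P032.Lt.q R0Q001.q29_9) (q_cons (Vale.Agent.P032.Lt.q R0Q001.q29_10) (q_cons (Vale.Agent.P032.Lt.q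 R0Q001.q29_11) (q_cons (Vale.Agent.P032.Lt.q R0Q001.q29_12) (q_cons (Vale.Agent.P032.Lt.q R0Q001.q29_13) q_nil)))))))))))))))

def C30 : List ℕ := [0, 4, 8, 12, 16, 20, 24, 81921, 89089, 212993, 216065, 475137, 737281, 9177521144866]
theorem p30 : Pat 73 73 TBm TCm (C30.map Fm) R0Q001.P30 R0Q001.I30 := Vale.Agent.P032.Lt.pat_eq (E' := R0Q001.E30) (by decide +kernel) (pat_step (by decide +kernel) (q_cons (Vale.Agent.P032.Lt.q R0Q001.q30_0) (q_cons (Vale.Agent.P032.Lt.q R0Q001.q30_1) (q_cons (Vale.Agent.P032.Lt.q R0Q001.q30_2) q_nil))))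

def C31 : List ℕ := [0, 4, 8, 12, 16, 20, 24, 82945, 89089, 216065, 476161, 478209, 609281, 9049653593122, 9170004952098, 13376227859466, 13556633263114, 17962898775050]
theorem p31 : Pat 73 73 TBm TCm (C31.map Fm) R0Q001.P31 R0Q001.I31 := Vale.Agent.P032.Lt.pat_eq (E' := R0Q001.E31) (by decide +kernel) (pat_step (by decide +kernel) (q_cons (Vale.Agent.P032.Lt.q R0Q001.q31_0) (q_cons (Vale.Agent.P032.Lt.q R0Q001.q31_1) (q_cons (Vale.Agent.P032.Lt.q R0Q001.q31_2) (q_cons (Vale.Agent.P032.Lt.q R0Q001.q31_3) (q_cons (Vale.Agent.P032.Lt.q R0Q001.q31_4) (q_cons (Vale.Agent.P032.Lt.q R0Q001.q31_5) (q_cons (Vale.Agent.P032.Lt.q R0Q001.q31_6) (q_cons (Vale.Agent.P032.Lt.q R0Q001.q31_7) (q_cons (Vale.Agent.P032.Lt.q R0Q001.q31_8) (q_cons (Vale.Agent.P032.Lt.q R0Q001.q31_9) (q_cons (Vale.Agent.P032.Lt.q R0Q001.q31_10) (q_cons (Vale.Agent.P032.Lt.q R0Q001.q31_11) (q_cons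 (Vale.Agent.P032.Lt.q R0Q001.q31_12) (q_cons (Vale.Agent.P032.Lt.q R0Q001.q31_13) (q_cons (Vale.Agent.P032.Lt.q R0Q001.q31_14) (q_cons (Vale.Agent.P032.Lt.q R0Q001.q31_15) (q_cons (Vale.Agent.P032.Lt.q R0Q001.q31_16) (q_cons (Vale.Agent.P032.Lt.q R0Q001.q31_17) (q_cons (Vale.Agent.P032.Lt.q R0Q001.q31_18) (q_cons (Vale.Agent.P032.Lt.q R0Q001.q31_19) q_nil)))))))))))))))))))))

def C32 : List ℕ := [0, 4, 8, 12, 16, 20, 24, 91137, 475137, 606209, 737281, 24278467434502, 24338546644998, 24338555033606, 24338613753862, 24338622142470]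
theorem p32 : Pat 73 73 TBm TCm (C32.map Fm) R0Q001.P32 R0Q001.I32 := Vale.Agent.P032.Lt.pat_eq (E' := R0Q001.E32) (by decide +kernel) (pat_step (by decide +kernel) (q_cons (Vale.Agent.P032.Lt.q R0Q001.q32_0) (q_cons (Vale.Agent.P032.Lt.q R0Q001.q32_1) (q_cons (Vale.Agent.P032.Lt.q R0Q001.q32_2) (q_cons (Vale.Agent.P032.Lt.q R0Q001.q32_3) (q_cons (Vale.Agent.P032.Lt.q R0Q001.q32_4) (q_cons (Vale.Agent.P032.Lt.q R0Q001.q32_5) q_nil)))))))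

def C33 : List ℕ := [0, 4, 8, 12, 16, 20, 24, 82945, 214017, 218113, 220161, 349185, 476161, 480257, 482305, 486401, 607233, 738305, 4771999079434, 9591783123994, 13491732438026, 13916437693474, 13921134396450, 14041344070706, 22835299834890]
theorem p33 : Pat 73 73 TBm TCm (C33.map Fm) R0Q001.P33 R0Q001.I33 := Vale.Agent.P032.Lt.pat_eq (E' := R0Q001.E33) (by decide +kernel) (pat_step (by decide +kernel) (q_cons (Vale.Agent.P032.Lt.q R0Q001.q33_0) (q_cons (Vale.Agent.P032.Lt.q R0Q001.q33_1) (q_cons (Vale.Agent.P032.Lt.q R0Q001.q33_2) (q_cons (Vale.Agent.P032.Lt.q R0Q001.q33_3) (q_cons (Vale.Agent.P032.Lt.q R0Q001.q33_4) (q_cons (Vale.Agent.P032.Lt.q R0Q001.q33_5) q_nil)))))))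

theorem p34 : Pat 73 73 TBm TCm (CB.map Fm) R0Q001.P34 R0Q001.I34 := Vale.Agent.P032.Lt.pat_eq (E' := R0Q001.E) eB (pat_step (by decide +kernel) (q_cons (Vale.Agent.P032.Lt.q R0Q001.q34_0) (q_cons (Vale.Agent.P032.Lt.q R0Q001.q34_1) (q_cons (Vale.Agent.P032.Lt.q R0Q001.q34_2) (q_cons (Vale.Agent.P032.Lt.q R0Q001.q34_3) (q_cons (Vale.Agent.P032.Lt.q R0Q001.q34_4) (q_cons (Vale.Agent.P032.Lt.q R0Q001.q34_5) (q_cons (Vale.Agent.P032.Lt.q R0Q001.q34_6) (q_cons (Vale.Agent.P032.Lt.q R0Q001.q34_7) (q_cons (Vale.Agent.P032.Lt.q R0Q001.q34_8) (q_cons (Vale.Agent.P032.Lt.q R0Q001.q34_9) (q_cons (Vale.Agent.P032.Lt.q R0Q001.q34_10) (q_cons (Vale.Agent.P032.Lt.q R0Q001.q34_11) q_nil)))))))))))))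

def C35 : List ℕ := [0, 4, 8, 12, 16, 20, 24, 82945, 212993, 347137, 475137, 478209, 737281, 741377, 4701623378962, 14582526469138, 23373658155030, 23376478038038, 23376478300182]
theorem p35 : Pat 73 73 TBm TCm (C35.map Fm) R0Q001.P35 R0Q001.I35 := Vale.Agent.P032.Lt.pat_eq (E' := R0Q001.E35) (by decide +kernel) (pat_step (by decide +kernel) (q_cons (Vale.Agent.P032.Lt.q R0Q001.q35_0) (q_cons (Vale.Agent.P032.Lt.q R0Q001.q35_1) (q_cons (Vale.Agent.P032.Lt.q R0Q001.q35_2) (q_cons (Vale.Agent.P032.Lt.q R0Q001.q35_3) (q_cons (Vale.Agent.P032.Lt.q R0Q001.q35_4) (q_cons (Vale.Agent.P032.Lt.q R0Q001.q35_5) (q_cons (Vale.Agent.P032.Lt.q R0Q001.q35_6) (q_cons (Vale.Agent.P032.Lt.q R0Q001.q35_7) (q_cons (Vale.Agent.P032.Lt.q R0Q001.q35_8) (q_cons (Vale.Agent.P032.Lt.q R0Q001.q35_9) (q_cons (Vale.Agent.P032.Lt.q R0Q001.q35_10) (q_cons (Vale.Agent.P032.Lt.q R0Q001.q35_11)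 (q_cons (Vale.Agent.P032.Lt.q R0Q001.q35_12) (q_cons (Vale.Agent.P032.Lt.q R0Q001.q35_13) (q_cons (Vale.Agent.P032.Lt.q R0Q001.q35_14) (q_cons (Vale.Agent.P032.Lt.q R0Q001.q35_15) (q_cons (Vale.Agent.P032.Lt.q R0Q001.q35_16) (q_cons (Vale.Agent.P032.Lt.q R0Q001.q35_17) (q_cons (Vale.Agent.P032.Lt.q R0Q001.q35_18) (q_cons (Vale.Agent.P032.Lt.q R0Q001.q35_19) (q_cons (Vale.Agent.P032.Lt.q R0Q001.q35_20) (q_cons (Vale.Agent.P032.Lt.q R0Q001.q35_21) (q_cons (Vale.Agent.P032.Lt.q R0Q001.q35_22) (q_cons (Vale.Agent.P032.Lt.q R0Q001.q35_23) (q_cons (Vale.Agent.P032.Lt.q R0Q001.q35_24) (q_cons (Vale.Agent.P032.Lt.q R0Q001.q35_25) (q_cons (Vale.Agent.P032.Lt.q R0Q001.q35_26) (q_cons (Vale.Agent.P032.Lt.q R0Q001.q35_27) (q_cons (Vale.Agent.P032.Lt.q R0Q001.q35_28) (q_cons (Vale.Agent.P032.Lt.q R0Q001.q35_29) q_nil)))))))))))))))))))))))))))))))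

def C36 : List ℕ := [0, 4, 8, 12, 16, 20, 24, 81921, 87041, 92161, 214017, 218113, 344065, 349185, 351233, 480257, 607233, 738305, 9169997884442, 9175608542242, 13574456037422, 13928651516954, 14582602230810, 22715105762314, 24338506931210]
theorem p36 : Pat 73 73 TBm TCm (C36.map Fm) R0Q002.P36 R0Q002.I36 := Vale.Agent.P032.Lt.pat_eq (E' := R0Q002.E36) (by decide +kernel) (pat_step (by decide +kernel) (q_cons (Vale.Agent.P032.Lt.q R0Q002.q36_0) (q_cons (Vale.Agent.P032.Lt.q R0Q002.q36_1) (q_cons (Vale.Agent.P032.Lt.q R0Q002.q36_2) (q_cons (Vale.Agent.P032.Lt.q R0Q002.q36_3) (q_cons (Vale.Agent.P032.Lt.q R0Q002.q36_4) (q_cons (Vale.Agent.P032.Lt.q R0Q002.q36_5) (q_cons (Vale.Agent.P032.Lt.q R0Q002.q36_6) (q_cons (Vale.Agent.P032.Lt.q R0Q002.q36_7) (q_cons (Vale.Agent.P032.Lt.q R0Q002.q36_8) (q_cons (Vale.Agent.P032.Lt.q R0Q002.q36_9) q_nil)))))))))))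

def C37 : List ℕ := [0, 4, 8, 12, 16, 20, 24, 212993, 349185, 355329, 606209, 737281, 4701626131474, 9169895123994, 9169896959002, 24278404519942]
theorem p37 : Pat 73 73 TBm TCm (C37.map Fm) R0Q002.P37 R0Q002.I37 := Vale.Agent.P032.Lt.pat_eq (E' := R0Q002.E37) (by decide +kernel) (pat_step (by decide +kernel) (q_cons (Vale.Agent.P032.Lt.q R0Q002.q37_0) (q_cons (Vale.Agent.P032.Lt.q R0Q002.q37_1) (q_cons (Vale.Agent.P032.Lt.q R0Q002.q37_2) (q_cons (Vale.Agent.P032.Lt.q R0Q002.q37_3) (q_cons (Vale.Agent.P032.Lt.q R0Q002.q37_4) q_nil))))))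

def C38 : List ℕ := [0, 4, 8, 12, 16, 20, 24, 475137, 737281, 741377, 23729709864966, 23789864572934, 23789872961542]
theorem p38 : Pat 73 73 TBm TCm (C38.map Fm) R0Q002.P38 R0Q002.I38 := Vale.Agent.P032.Lt.pat_eq (E' := R0Q002.E38) (by decide +kernel) (pat_step (by decide +kernel) (q_cons (Vale.Agent.P032.Lt.q R0Q002.q38_0) (q_cons (Vale.Agent.P032.Lt.q R0Q002.q38_1) (q_cons (Vale.Agent.P032.Lt.q R0Q002.q38_2) (q_cons (Vale.Agent.P032.Lt.q R0Q002.q38_3) (q_cons (Vale.Agent.P032.Lt.q R0Q002.q38_4) (q_cons (Vale.Agent.P032.Lt.q R0Q002.q38_5) (q_cons (Vale.Agent.P032.Lt.q R0Q002.q38_6) (q_cons (Vale.Agent.P032.Lt.q R0Q002.q38_7) q_nil)))))))))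

def C39 : List ℕ := [0, 4, 8, 12, 16, 20, 24, 347137, 353281, 606209, 737281, 9115399572522, 9170004952098, 22218023322658, 24278383548422, 24278391937030, 24278459045894, 24338546644998, 24338555033606, 24338605365254, 24338613753862]
theorem p39 : Pat 73 73 TBm TCm (C39.map Fm) R0Q002.P39 R0Q002.I39 := Vale.Agent.P032.Lt.pat_eq (E' := R0Q002.E39) (by decide +kernel) (pat_step (by decide +kernel) (q_cons (Vale.Agent.P032.Lt.q R0Q002.q39_0) (q_cons (Vale.Agent.P032.Lt.q R0Q002.q39_1) (q_cons (Vale.Agent.P032.Lt.q R0Q002.q39_2) (q_cons (Vale.Agent.P032.Lt.q R0Q002.q39_3) (q_cons (Vale.Agent.P032.Lt.q R0Q002.q39_4) (q_cons (Vale.Agent.P032.Lt.q R0Q002.q39_5) (q_cons (Vale.Agent.P032.Lt.q R0Q002.q39_6) (q_cons (Vale.Agent.P032.Lt.q R0Q002.q39_7) (q_cons (Vale.Agent.P032.Lt.q R0Q002.q39_8) (q_cons (Vale.Agent.P032.Lt.q R0Q002.q39_9) (q_cons (Vale.Agent.P032.Lt.q R0Q002.q39_10)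 (q_cons (Vale.Agent.P032.Lt.q R0Q002.q39_11) (q_cons (Vale.Agent.P032.Lt.q R0Q002.q39_12) (q_cons (Vale.Agent.P032.Lt.q R0Q002.q39_13) (q_cons (Vale.Agent.P032.Lt.q R0Q002.q39_14) (q_cons (Vale.Agent.P032.Lt.q R0Q002.q39_15) (q_cons (Vale.Agent.P032.Lt.q R0Q002.q39_16) (q_cons (Vale.Agent.P032.Lt.q R0Q002.q39_17) (q_cons (Vale.Agent.P032.Lt.q R0Q002.q39_18) (q_cons (Vale.Agent.P032.Lt.q R0Q002.q39_19) (q_cons (Vale.Agent.P032.Lt.q R0Q002.q39_20) (q_cons (Vale.Agent.P032.Lt.q R0Q002.q39_21) q_nil)))))))))))))))))))))))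

theorem p40 : Pat 73 73 TBm TCm (CB.map Fm) R0Q002.P40 R0Q002.I40 := Vale.Agent.P032.Lt.pat_eq (E' := R0Q002.E) eB (pat_step (by decide +kernel) (q_cons (Vale.Agent.P032.Lt.q R0Q002.q40_0) (q_cons (Vale.Agent.P032.Lt.q R0Q002.q40_1) (q_cons (Vale.Agent.P032.Lt.q R0Q002.q40_2) (q_cons (Vale.Agent.P032.Lt.q R0Q002.q40_3) (q_cons (Vale.Agent.P032.Lt.q R0Q002.q40_4) (q_cons (Vale.Agent.P032.Lt.q R0Q002.q40_5) (q_cons (Vale.Agent.P032.Lt.q R0Q002.q40_6) (q_cons (Vale.Agent.P032.Lt.q R0Q002.q40_7) (q_cons (Vale.Agent.P032.Lt.q R0Q002.q40_8) (q_cons (Vale.Agent.P032.Lt.q R0Q002.q40_9) (q_cons (Vale.Agent.P032.Lt.q R0Q002.q40_10) (q_cons (Vale.Agent.P032.Lt.q R0Q002.q40_11) (q_cons (Vale.Agent.P032.Lt.q R0Q002.q40_12) (q_cons (Vale.Agent.P032.Lt.q R0Q002.q40_13) (q_cons (Vale.Agent.P032.Lt.q R0Q002.q40_14) (q_cons (Vale.Agent.P032.Lt.q R0Q002.q40_15) (q_cons (Vale.Agent.P032.Lt.q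 R0Q002.q40_16) (q_cons (Vale.Agent.P032.Lt.q R0Q002.q40_17) (q_cons (Vale.Agent.P032.Lt.q R0Q002.q40_18) (q_cons (Vale.Agent.P032.Lt.q R0Q002.q40_19) (q_cons (Vale.Agent.P032.Lt.q R0Q002.q40_20) (q_cons (Vale.Agent.P032.Lt.q R0Q002.q40_21) (q_cons (Vale.Agent.P032.Lt.q R0Q002.q40_22) (q_cons (Vale.Agent.P032.Lt.q R0Q002.q40_23) (q_cons (Vale.Agent.P032.Lt.q R0Q002.q40_24) (q_cons (Vale.Agent.P032.Lt.q R0Q002.q40_25) (q_cons (Vale.Agent.P032.Lt.q R0Q002.q40_26) (q_cons (Vale.Agent.P032.Lt.q R0Q002.q40_27) q_nil)))))))))))))))))))))))))))))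

def C41 : List ℕ := [0, 4, 8, 12, 16, 20, 24, 89089, 91137, 351233, 353281, 355329, 737281, 9046881422378, 9177521144866, 14397490549810, 24413695989766]
theorem p41 : Pat 73 73 TBm TCm (C41.map Fm) R0Q002.P41 R0Q002.I41 := Vale.Agent.P032.Lt.pat_eq (E' := R0Q002.E41) (by decide +kernel) (pat_step (by decide +kernel) (q_cons (Vale.Agent.P032.Lt.q R0Q002.q41_0) q_nil))

theorem p42 : Pat 73 73 TBm TCm (CB.map Fm) R0Q002.P42 R0Q002.I42 := Vale.Agent.P032.Lt.pat_eq (E' := R0Q002.E) eB (pat_step (by decide +kernel) (q_cons (Vale.Agent.P032.Lt.q R0Q002.q42_0) (q_cons (Vale.Agent.P032.Lt.q R0Q002.q42_1) (q_cons (Vale.Agent.P032.Lt.q R0Q002.q42_2) q_nil))))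

def C43 : List ℕ := [0, 4, 8, 12, 16, 20, 24, 347137, 353281, 478209, 737281, 9046818507818, 14577830028306, 14582526469138, 23373656844310, 23376476203030, 23725951113222, 23729709864966, 23729722447878, 23729776973830, 23786114209798, 23786172930054, 23789864572934, 23789872961542, 23789940070406]
theorem p43 : Pat 73 73 TBm TCm (C43.map Fm) R0Q002.P43 R0Q002.I43 := Vale.Agent.P032.Lt.pat_eq (E' := R0Q002.E43) (by decide +kernel) (pat_step (by decide +kernel) (q_cons (Vale.Agent.P032.Lt.q R0Q002.q43_0) (q_cons (Vale.Agent.P032.Lt.q R0Q002.q43_1) (q_cons (Vale.Agent.P032.Lt.q R0Q002.q43_2) (q_cons (Vale.Agent.P032.Lt.q R0Q002.q43_3) (q_cons (Vale.Agent.P032.Lt.q R0Q002.q43_4) (q_cons (Vale.Agent.P032.Lt.q R0Q002.q43_5) q_nil)))))))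

def C44 : List ℕ := [0, 4, 8, 12, 16, 20, 24, 224257, 344065, 475137, 486401, 617473, 748545, 18506038989874, 19602464265266, 22715031442482, 23811456717874, 24352668734514]
theorem p44 : Pat 73 73 TBm TCm (C44.map Fm) R0Q002.P44 R0Q002.I44 := Vale.Agent.P032.Lt.pat_eq (E' := R0Q002.E44) (by decide +kernel) (pat_step (by decide +kernel) (q_cons (Vale.Agent.P032.Lt.q R0Q002.q44_0) q_nil))

theorem p45 : Pat 73 73 TBm TCm (CB.map Fm) R0Q002.P45 R0Q002.I45 := Vale.Agent.P032.Lt.pat_eq (E' := R0Q002.E) eB (pat_step (by decide +kernel) (q_cons (Vale.Agent.P032.Lt.q R0Q002.q45_0) (q_cons (Vale.Agent.P032.Lt.q R0Q002.q45_1) (q_cons (Vale.Agent.P032.Lt.q R0Q002.q45_2) (q_cons (Vale.Agent.P032.Lt.q R0Q002.q45_3) (q_cons (Vale.Agent.P032.Lt.q R0Q002.q45_4) (q_cons (Vale.Agent.P032.Lt.q R0Q002.q45_5) (q_cons (Vale.Agent.P032.Lt.q R0Q002.q45_6) (q_cons (Vale.Agent.P032.Lt.q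 R0Q002.q45_7) (q_cons (Vale.Agent.P032.Lt.q R0Q002.q45_8) (q_cons (Vale.Agent.P032.Lt.q R0Q002.q45_9) (q_cons (Vale.Agent.P032.Lt.q R0Q002.q45_10) (q_cons (Vale.Agent.P032.Lt.q R0Q002.q45_11) (q_cons (Vale.Agent.P032.Lt.q R0Q002.q45_12) (q_cons (Vale.Agent.P032.Lt.q R0Q002.q45_13) (q_cons (Vale.Agent.P032.Lt.q R0Q002.q45_14) (q_cons (Vale.Agent.P032.Lt.q R0Q002.q45_15) (q_cons (Vale.Agent.P032.Lt.q R0Q002.q45_16) (q_cons (Vale.Agent.P032.Lt.q R0Q002.q45_17) (q_cons (Vale.Agent.P032.Lt.q R0Q002.q45_18) (q_cons (Vale.Agent.P032.Lt.q R0Q002.q45_19) (q_cons (Vale.Agent.P032.Lt.q R0Q002.q45_20) (q_cons (Vale.Agent.P032.Lt.q R0Q002.q45_21) (q_cons (Vale.Agent.P032.Lt.q R0Q002.q45_22) (q_cons (Vale.Agent.P032.Lt.q R0Q002.q45_23) (q_cons (Vale.Agent.P032.Lt.q R0Q002.q45_24) (q_cons (Vale.Agent.P032.Lt.q R0Q002.q45_25) (q_cons (Vale.Agent.P032.Lt.q R0Q002.q45_26) (q_cons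 (Vale.Agent.P032.Lt.q R0Q002.q45_27) (q_cons (Vale.Agent.P032.Lt.q R0Q002.q45_28) (q_cons (Vale.Agent.P032.Lt.q R0Q002.q45_29) (q_cons (Vale.Agent.P032.Lt.q R0Q002.q45_30) (q_cons (Vale.Agent.P032.Lt.q R0Q002.q45_31) (q_cons (Vale.Agent.P032.Lt.q R0Q002.q45_32) q_nil))))))))))))))))))))))))))))))))))

theorem p46 : Pat 73 73 TBm TCm (CB.map Fm) R0Q002.P46 R0Q002.I46 := Vale.Agent.P032.Lt.pat_eq (E' := R0Q002.E) eB (pat_step (by decide +kernel) (q_cons (Vale.Agent.P032.Lt.q R0Q002.q46_0) (q_cons (Vale.Agent.P032.Lt.q R0Q002.q46_1) (q_cons (Vale.Agent.P032.Lt.q R0Q002.q46_2) (q_cons (Vale.Agent.P032.Lt.q R0Q002.q46_3) (q_cons (Vale.Agent.P032.Lt.q R0Q002.q46_4) (q_cons (Vale.Agent.P032.Lt.q R0Q002.q46_5) (q_cons (Vale.Agent.P032.Lt.q R0Q002.q46_6) (q_cons (Vale.Agent.P032.Lt.q R0Q002.q46_7) (q_cons (Vale.Agent.P032.Lt.q R0Q002.q46_8) (q_cons (Vale.Agent.P032.Lt.q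 R0Q002.q46_9) (q_cons (Vale.Agent.P032.Lt.q R0Q002.q46_10) (q_cons (Vale.Agent.P032.Lt.q R0Q002.q46_11) (q_cons (Vale.Agent.P032.Lt.q R0Q002.q46_12) (q_cons (Vale.Agent.P032.Lt.q R0Q002.q46_13) (q_cons (Vale.Agent.P032.Lt.q R0Q002.q46_14) (q_cons (Vale.Agent.P032.Lt.q R0Q002.q46_15) (q_cons (Vale.Agent.P032.Lt.q R0Q002.q46_16) (q_cons (Vale.Agent.P032.Lt.q R0Q002.q46_17) (q_cons (Vale.Agent.P032.Lt.q R0Q002.q46_18) (q_cons (Vale.Agent.P032.Lt.q R0Q002.q46_19) (q_cons (Vale.Agent.P032.Lt.q R0Q002.q46_20) (q_cons (Vale.Agent.P032.Lt.q R0Q002.q46_21) q_nil)))))))))))))))))))))))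

theorem p47 : Pat 73 73 TBm TCm (CB.map Fm) R0Q003.P47 R0Q003.I47 := Vale.Agent.P032.Lt.pat_eq (E' := R0Q003.E) eB (pat_step (by decide +kernel) (q_cons (Vale.Agent.P032.Lt.q R0Q003.q47_0) (q_cons (Vale.Agent.P032.Lt.q R0Q003.q47_1) (q_cons (Vale.Agent.P032.Lt.q R0Q003.q47_2) (q_cons (Vale.Agent.P032.Lt.q R0Q003.q47_3) (q_cons (Vale.Agent.P032.Lt.q R0Q003.q47_4) (q_cons (Vale.Agent.P032.Lt.q R0Q003.q47_5) (q_cons (Vale.Agent.P032.Lt.q R0Q003.q47_6) (q_cons (Vale.Agent.P032.Lt.q R0Q003.q47_7) (q_cons (Vale.Agent.P032.Lt.q R0Q003.q47_8) (q_cons (Vale.Agent.P032.Lt.q R0Q003.q47_9) q_nil)))))))))))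

theorem p48 : Pat 73 73 TBm TCm (CB.map Fm) R0Q003.P48 R0Q003.I48 := Vale.Agent.P032.Lt.pat_eq (E' := R0Q003.E) eB (pat_step (by decide +kernel) (q_cons (Vale.Agent.P032.Lt.q R0Q003.q48_0) q_nil))

def C49 : List ℕ := [0, 4, 8, 12, 16, 20, 24, 606209, 737281, 740353, 23742918124562, 24275583457286, 24275585292294, 24275585554438, 24278402816006]
theorem p49 : Pat 73 73 TBm TCm (C49.map Fm) R0Q003.P49 R0Q003.I49 := Vale.Agent.P032.Lt.pat_eq (E' := R0Q003.E49) (by decide +kernel) (pat_step (by decide +kernel) (q_cons (Vale.Agent.P032.Lt.q R0Q003.q49_0) (q_cons (Vale.Agent.P032.Lt.q R0Q003.q49_1) (q_cons (Vale.Agent.P032.Lt.q R0Q003.q49_2) (q_cons (Vale.Agent.P032.Lt.q R0Q003.q49_3) (q_cons (Vale.Agent.P032.Lt.q R0Q003.q49_4) (q_cons (Vale.Agent.P032.Lt.q R0Q003.q49_5) (q_cons (Vale.Agent.P032.Lt.q R0Q003.q49_6) q_nil))))))))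

def C50 : List ℕ := [0, 4, 8, 12, 16, 20, 24, 214017, 216065, 222209, 347137, 478209, 609281, 9595610293266, 9599365631018, 9715869244426, 9719532440618, 14105242199058, 18391432651794]
theorem p50 : Pat 73 73 TBm TCm (C50.map Fm) R0Q003.P50 R0Q003.I50 := Vale.Agent.P032.Lt.pat_eq (E' := R0Q003.E50) (by decide +kernel) (pat_step (by decide +kernel) (q_cons (Vale.Agent.P032.Lt.q R0Q003.q50_0) (q_cons (Vale.Agent.P032.Lt.q R0Q003.q50_1) (q_cons (Vale.Agent.P032.Lt.q R0Q003.q50_2) (q_cons (Vale.Agent.P032.Lt.q R0Q003.q50_3) (q_cons (Vale.Agent.P032.Lt.q R0Q003.q50_4) (q_cons (Vale.Agent.P032.Lt.q R0Q003.q50_5) (q_cons (Vale.Agent.P032.Lt.q R0Q003.q50_6) (q_cons (Vale.Agent.P032.Lt.q R0Q003.q50_7) (q_cons (Vale.Agent.P032.Lt.q R0Q003.q50_8) (q_cons (Vale.Agent.P032.Lt.q R0Q003.q50_9) (q_cons (Vale.Agent.P032.Lt.q R0Q003.q50_10) (q_cons (Vale.Agent.P032.Lt.q R0Q003.q50_11)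 (q_cons (Vale.Agent.P032.Lt.q R0Q003.q50_12) (q_cons (Vale.Agent.P032.Lt.q R0Q003.q50_13) (q_cons (Vale.Agent.P032.Lt.q R0Q003.q50_14) (q_cons (Vale.Agent.P032.Lt.q R0Q003.q50_15) (q_cons (Vale.Agent.P032.Lt.q R0Q003.q50_16) q_nil))))))))))))))))))

def C51 : List ℕ := [0, 4, 8, 12, 16, 20, 24, 216065, 347137, 478209, 606209, 609281, 737281, 9595608196114, 14105242199058]
theorem p51 : Pat 73 73 TBm TCm (C51.map Fm) R0Q003.P51 R0Q003.I51 := Vale.Agent.P032.Lt.pat_eq (E' := R0Q003.E51) (by decide +kernel) (pat_step (by decide +kernel) (q_cons (Vale.Agent.P032.Lt.q R0Q003.q51_0) (q_cons (Vale.Agent.P032.Lt.q R0Q003.q51_1) (q_cons (Vale.Agent.P032.Lt.q R0Q003.q51_2) (q_cons (Vale.Agent.P032.Lt.q R0Q003.q51_3) (q_cons (Vale.Agent.P032.Lt.q R0Q003.q51_4) (q_cons (Vale.Agent.P032.Lt.q R0Q003.q51_5) (q_cons (Vale.Agent.P032.Lt.q R0Q003.q51_6) (q_cons (Vale.Agent.P032.Lt.q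 R0Q003.q51_7) (q_cons (Vale.Agent.P032.Lt.q R0Q003.q51_8) (q_cons (Vale.Agent.P032.Lt.q R0Q003.q51_9) (q_cons (Vale.Agent.P032.Lt.q R0Q003.q51_10) (q_cons (Vale.Agent.P032.Lt.q R0Q003.q51_11) (q_cons (Vale.Agent.P032.Lt.q R0Q003.q51_12) (q_cons (Vale.Agent.P032.Lt.q R0Q003.q51_13) (q_cons (Vale.Agent.P032.Lt.q R0Q003.q51_14) (q_cons (Vale.Agent.P032.Lt.q R0Q003.q51_15) (q_cons (Vale.Agent.P032.Lt.q R0Q003.q51_16) (q_cons (Vale.Agent.P032.Lt.q R0Q003.q51_17) (q_cons (Vale.Agent.P032.Lt.q R0Q003.q51_18) (q_cons (Vale.Agent.P032.Lt.q R0Q003.q51_19) (q_cons (Vale.Agent.P032.Lt.q R0Q003.q51_20) (q_cons (Vale.Agent.P032.Lt.q R0Q003.q51_21) (q_cons (Vale.Agent.P032.Lt.q R0Q003.q51_22) q_nil))))))))))))))))))))))))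

def C52 : List ℕ := [0, 4, 8, 12, 16, 20, 24, 347137, 475137, 23729709864966, 23729785362438, 23789931681798]
theorem p52 : Pat 73 73 TBm TCm (C52.map Fm) R0Q003.P52 R0Q003.I52 := Vale.Agent.P032.Lt.pat_eq (E' := R0Q003.E52) (by decide +kernel) (pat_step (by decide +kernel) (q_cons (Vale.Agent.P032.Lt.q R0Q003.q52_0) (q_cons (Vale.Agent.P032.Lt.q R0Q003.q52_1) (q_cons (Vale.Agent.P032.Lt.q R0Q003.q52_2) (q_cons (Vale.Agent.P032.Lt.q R0Q003.q52_3) (q_cons (Vale.Agent.P032.Lt.q R0Q003.q52_4) (q_cons (Vale.Agent.P032.Lt.q R0Q003.q52_5) (q_cons (Vale.Agent.P032.Lt.q R0Q003.q52_6) (q_cons (Vale.Agent.P032.Lt.q R0Q003.q52_7) q_nil)))))))))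

def C53 : List ℕ := [0, 4, 8, 12, 16, 20, 24, 82945, 87041, 218113, 224257, 344065, 345089, 349185, 480257, 482305, 486401, 607233, 611329, 613377, 742401, 4770128155698, 9599324482586, 9715782997042, 9715784832050, 14577800009734, 14577867118598, 14582496843782, 14582563952646, 17962917387274, 19355285804082, 19388226290722, 19594014321690, 22285714418714, 23923281849370, 24404318841882, 24404322380826]
theorem p53 : Pat 73 73 TBm TCm (C53.map Fm) R0Q003.P53 R0Q003.I53 := Vale.Agent.P032.Lt.pat_eq (E' := R0Q003.E53) (by decide +kernel) (pat_step (by decide +kernel) (q_cons (Vale.Agent.P032.Lt.q R0Q003.q53_0) (q_cons (Vale.Agent.P032.Lt.q R0Q003.q53_1) (q_cons (Vale.Agent.P032.Lt.q R0Q003.q53_2) (q_cons (Vale.Agent.P032.Lt.q R0Q003.q53_3) (q_cons (Vale.Agent.P032.Lt.q R0Q003.q53_4) (q_cons (Vale.Agent.P032.Lt.q R0Q003.q53_5) (q_cons (Vale.Agent.P032.Lt.q R0Q003.q53_6)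 (q_cons (Vale.Agent.P032.Lt.q R0Q003.q53_7) (q_cons (Vale.Agent.P032.Lt.q R0Q003.q53_8) (q_cons (Vale.Agent.P032.Lt.q R0Q003.q53_9) (q_cons (Vale.Agent.P032.Lt.q R0Q003.q53_10) (q_cons (Vale.Agent.P032.Lt.q R0Q003.q53_11) (q_cons (Vale.Agent.P032.Lt.q R0Q003.q53_12) (q_cons (Vale.Agent.P032.Lt.q R0Q003.q53_13) (q_cons (Vale.Agent.P032.Lt.q R0Q003.q53_14) (q_cons (Vale.Agent.P032.Lt.q R0Q003.q53_15) (q_cons (Vale.Agent.P032.Lt.q R0Q003.q53_16) (q_cons (Vale.Agent.P032.Lt.q R0Q003.q53_17) (q_cons (Vale.Agent.P032.Lt.q R0Q003.q53_18) (q_cons (Vale.Agent.P032.Lt.q R0Q003.q53_19) (q_cons (Vale.Agent.P032.Lt.q R0Q003.q53_20) q_nil))))))))))))))))))))))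

def C54 : List ℕ := [0, 4, 8, 12, 16, 20, 24, 349185, 606209, 611329, 737281, 9587108441114]
theorem p54 : Pat 73 73 TBm TCm (C54.map Fm) R0Q003.P54 R0Q003.I54 := Vale.Agent.P032.Lt.pat_eq (E' := R0Q003.E54) (by decide +kernel) (pat_step (by decide +kernel) (q_cons (Vale.Agent.P032.Lt.q R0Q003.q54_0) (q_cons (Vale.Agent.P032.Lt.q R0Q003.q54_1) (q_cons (Vale.Agent.P032.Lt.q R0Q003.q54_2) (q_cons (Vale.Agent.P032.Lt.q R0Q003.q54_3) (q_cons (Vale.Agent.P032.Lt.q R0Q003.q54_4) q_nil))))))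

def C55 : List ℕ := [0, 4, 8, 12, 16, 20, 24, 606209, 737281, 24278383548422, 24278391937030, 24278404519942, 24338546644998, 24338555033606, 24338613753862]
theorem p55 : Pat 73 73 TBm TCm (C55.map Fm) R0Q003.P55 R0Q003.I55 := Vale.Agent.P032.Lt.pat_eq (E' := R0Q003.E55) (by decide +kernel) (pat_step (by decide +kernel) (q_cons (Vale.Agent.P032.Lt.q R0Q003.q55_0) (q_cons (Vale.Agent.P032.Lt.q R0Q003.q55_1) (q_cons (Vale.Agent.P032.Lt.q R0Q003.q55_2) (q_cons (Vale.Agent.P032.Lt.q R0Q003.q55_3) (q_cons (Vale.Agent.P032.Lt.q R0Q003.q55_4) (q_cons (Vale.Agent.P032.Lt.q R0Q003.q55_5) (q_cons (Vale.Agent.P032.Lt.q R0Q003.q55_6) (q_cons (Vale.Agent.P032.Lt.q R0Q003.q55_7) (q_cons (Vale.Agent.P032.Lt.q R0Q003.q55_8) (q_cons (Vale.Agent.P032.Lt.q R0Q003.q55_9) (q_cons (Vale.Agent.P032.Lt.q R0Q003.q55_10) (q_cons (Vale.Agent.P032.Lt.q R0Q003.q55_11) (q_cons (Vale.Agent.P032.Lt.q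 R0Q003.q55_12) (q_cons (Vale.Agent.P032.Lt.q R0Q003.q55_13) (q_cons (Vale.Agent.P032.Lt.q R0Q003.q55_14) (q_cons (Vale.Agent.P032.Lt.q R0Q003.q55_15) (q_cons (Vale.Agent.P032.Lt.q R0Q003.q55_16) q_nil))))))))))))))))))

theorem p56 : Pat 73 73 TBm TCm (CB.map Fm) R0Q003.P56 R0Q003.I56 := Vale.Agent.P032.Lt.pat_eq (E' := R0Q003.E) eB (pat_step (by decide +kernel) (q_cons (Vale.Agent.P032.Lt.q R0Q003.q56_0) (q_cons (Vale.Agent.P032.Lt.q R0Q003.q56_1) (q_cons (Vale.Agent.P032.Lt.q R0Q003.q56_2) (q_cons (Vale.Agent.P032.Lt.q R0Q003.q56_3) (q_cons (Vale.Agent.P032.Lt.q R0Q003.q56_4) q_nil))))))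

theorem p57 : Pat 73 73 TBm TCm (CB.map Fm) R0Q003.P57 R0Q003.I57 := Vale.Agent.P032.Lt.pat_eq (E' := R0Q003.E) eB (pat_step (by decide +kernel) (q_cons (Vale.Agent.P032.Lt.q R0Q003.q57_0) (q_cons (Vale.Agent.P032.Lt.q R0Q003.q57_1) (q_cons (Vale.Agent.P032.Lt.q R0Q003.q57_2) (q_cons (Vale.Agent.P032.Lt.q R0Q003.q57_3) (q_cons (Vale.Agent.P032.Lt.q R0Q003.q57_4) (q_cons (Vale.Agent.P032.Lt.q R0Q003.q57_5) (q_cons (Vale.Agent.P032.Lt.q R0Q003.q57_6) (q_cons (Vale.Agent.P032.Lt.q R0Q003.q57_7) (q_cons (Vale.Agent.P032.Lt.q R0Q003.q57_8) (q_cons (Vale.Agent.P032.Lt.q R0Q003.q57_9) q_nil)))))))))))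

theorem p58 : Pat 73 73 TBm TCm (CB.map Fm) R0Q003.P58 R0Q003.I58 := Vale.Agent.P032.Lt.pat_eq (E' := R0Q003.E) eB (pat_step (by decide +kernel) (q_cons (Vale.Agent.P032.Lt.q R0Q003.q58_0) (q_cons (Vale.Agent.P032.Lt.q R0Q003.q58_1) (q_cons (Vale.Agent.P032.Lt.q R0Q003.q58_2) q_nil))))

def C59 : List ℕ := [0, 4, 8, 12, 16, 20, 24, 218113, 222209, 224257, 606209, 18513526215730]
theorem p59 : Pat 73 73 TBm TCm (C59.map Fm) R0Q003.P59 R0Q003.I59 := Vale.Agent.P032.Lt.pat_eq (E' := R0Q003.E59) (by decide +kernel) (pat_step (by decide +kernel) (q_cons (Vale.Agent.P032.Lt.q R0Q003.q59_0) (q_cons (Vale.Agent.P032.Lt.q R0Q003.q59_1) (q_cons (Vale.Agent.P032.Lt.q R0Q003.q59_2) (q_cons (Vale.Agent.P032.Lt.q R0Q003.q59_3) (q_cons (Vale.Agent.P032.Lt.q R0Q003.q59_4) (q_cons (Vale.Agent.P032.Lt.q R0Q003.q59_5) (q_cons (Vale.Agent.P032.Lt.q R0Q003.q59_6) (q_cons (Vale.Agent.P032.Lt.q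 R0Q003.q59_7) (q_cons (Vale.Agent.P032.Lt.q R0Q003.q59_8) (q_cons (Vale.Agent.P032.Lt.q R0Q003.q59_9) (q_cons (Vale.Agent.P032.Lt.q R0Q003.q59_10) (q_cons (Vale.Agent.P032.Lt.q R0Q003.q59_11) (q_cons (Vale.Agent.P032.Lt.q R0Q003.q59_12) (q_cons (Vale.Agent.P032.Lt.q R0Q003.q59_13) (q_cons (Vale.Agent.P032.Lt.q R0Q003.q59_14) (q_cons (Vale.Agent.P032.Lt.q R0Q003.q59_15) q_nil)))))))))))))))))

theorem p60 : Pat 73 73 TBm TCm (CB.map Fm) R0Q004.P60 R0Q004.I60 := Vale.Agent.P032.Lt.pat_eq (E' := R0Q004.E) eB (pat_step (by decide +kernel) (q_cons (Vale.Agent.P032.Lt.q R0Q004.q60_0) (q_cons (Vale.Agent.P032.Lt.q R0Q004.q60_1) (q_cons (Vale.Agent.P032.Lt.q R0Q004.q60_2) (q_cons (Vale.Agent.P032.Lt.q R0Q004.q60_3) (q_cons (Vale.Agent.P032.Lt.q R0Q004.q60_4) (q_cons (Vale.Agent.P032.Lt.q R0Q004.q60_5) (q_cons (Vale.Agent.P032.Lt.q R0Q004.q60_6) (q_cons (Vale.Agent.P032.Lt.q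 R0Q004.q60_7) (q_cons (Vale.Agent.P032.Lt.q R0Q004.q60_8) (q_cons (Vale.Agent.P032.Lt.q R0Q004.q60_9) (q_cons (Vale.Agent.P032.Lt.q R0Q004.q60_10) (q_cons (Vale.Agent.P032.Lt.q R0Q004.q60_11) (q_cons (Vale.Agent.P032.Lt.q R0Q004.q60_12) (q_cons (Vale.Agent.P032.Lt.q R0Q004.q60_13) (q_cons (Vale.Agent.P032.Lt.q R0Q004.q60_14) (q_cons (Vale.Agent.P032.Lt.q R0Q004.q60_15) (q_cons (Vale.Agent.P032.Lt.q R0Q004.q60_16) (q_cons (Vale.Agent.P032.Lt.q R0Q004.q60_17) (q_cons (Vale.Agent.P032.Lt.q R0Q004.q60_18) (q_cons (Vale.Agent.P032.Lt.q R0Q004.q60_19) (q_cons (Vale.Agent.P032.Lt.q R0Q004.q60_20) (q_cons (Vale.Agent.P032.Lt.q R0Q004.q60_21) (q_cons (Vale.Agent.P032.Lt.q R0Q004.q60_22) (q_cons (Vale.Agent.P032.Lt.q R0Q004.q60_23) (q_cons (Vale.Agent.P032.Lt.q R0Q004.q60_24) (q_cons (Vale.Agent.P032.Lt.q R0Q004.q60_25) (q_cons (Vale.Agent.P032.Lt.q R0Q004.q60_26) (q_cons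 (Vale.Agent.P032.Lt.q R0Q004.q60_27) (q_cons (Vale.Agent.P032.Lt.q R0Q004.q60_28) q_nil))))))))))))))))))))))))))))))

theorem p61 : Pat 73 73 TBm TCm (CB.map Fm) R0Q004.P61 R0Q004.I61 := Vale.Agent.P032.Lt.pat_eq (E' := R0Q004.E) eB (pat_step (by decide +kernel) (q_cons (Vale.Agent.P032.Lt.q R0Q004.q61_0) (q_cons (Vale.Agent.P032.Lt.q R0Q004.q61_1) (q_cons (Vale.Agent.P032.Lt.q R0Q004.q61_2) (q_cons (Vale.Agent.P032.Lt.q R0Q004.q61_3) (q_cons (Vale.Agent.P032.Lt.q R0Q004.q61_4) (q_cons (Vale.Agent.P032.Lt.q R0Q004.q61_5) (q_cons (Vale.Agent.P032.Lt.q R0Q004.q61_6) (q_cons (Vale.Agent.P032.Lt.q R0Q004.q61_7) (q_cons (Vale.Agent.P032.Lt.q R0Q004.q61_8) q_nil))))))))))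

def C62 : List ℕ := [0, 4, 8, 12, 16, 20, 24, 82945, 475137, 737281, 23729776973830, 23729785362438]
theorem p62 : Pat 73 73 TBm TCm (C62.map Fm) R0Q004.P62 R0Q004.I62 := Vale.Agent.P032.Lt.pat_eq (E' := R0Q004.E62) (by decide +kernel) (pat_step (by decide +kernel) (q_cons (Vale.Agent.P032.Lt.q R0Q004.q62_0) (q_cons (Vale.Agent.P032.Lt.q R0Q004.q62_1) (q_cons (Vale.Agent.P032.Lt.q R0Q004.q62_2) (q_cons (Vale.Agent.P032.Lt.q R0Q004.q62_3) (q_cons (Vale.Agent.P032.Lt.q R0Q004.q62_4) (q_cons (Vale.Agent.P032.Lt.q R0Q004.q62_5) (q_cons (Vale.Agent.P032.Lt.q R0Q004.q62_6) (q_cons (Vale.Agent.P032.Lt.q R0Q004.q62_7) (q_cons (Vale.Agent.P032.Lt.q R0Q004.q62_8) (q_cons (Vale.Agent.P032.Lt.q R0Q004.q62_9) q_nil)))))))))))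

def C63 : List ℕ := [0, 4, 8, 12, 16, 20, 24, 84993, 89089, 347137, 478209, 609281, 611329, 9115465376786, 9177407898658, 17774098474002, 18310634892314]
theorem p63 : Pat 73 73 TBm TCm (C63.map Fm) R0Q004.P63 R0Q004.I63 := Vale.Agent.P032.Lt.pat_eq (E' := R0Q004.E63) (by decide +kernel) (pat_step (by decide +kernel) (q_cons (Vale.Agent.P032.Lt.q R0Q004.q63_0) (q_cons (Vale.Agent.P032.Lt.q R0Q004.q63_1) (q_cons (Vale.Agent.P032.Lt.q R0Q004.q63_2) (q_cons (Vale.Agent.P032.Lt.q R0Q004.q63_3) (q_cons (Vale.Agent.P032.Lt.q R0Q004.q63_4) (q_cons (Vale.Agent.P032.Lt.q R0Q004.q63_5) (q_cons (Vale.Agent.P032.Lt.q R0Q004.q63_6) q_nil))))))))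

theorem p64 : Pat 73 73 TBm TCm (CB.map Fm) R0Q004.P64 R0Q004.I64 := Vale.Agent.P032.Lt.pat_eq (E' := R0Q004.E) eB (pat_step (by decide +kernel) (q_cons (Vale.Agent.P032.Lt.q R0Q004.q64_0) (q_cons (Vale.Agent.P032.Lt.q R0Q004.q64_1) (q_cons (Vale.Agent.P032.Lt.q R0Q004.q64_2) (q_cons (Vale.Agent.P032.Lt.q R0Q004.q64_3) (q_cons (Vale.Agent.P032.Lt.q R0Q004.q64_4) (q_cons (Vale.Agent.P032.Lt.q R0Q004.q64_5) (q_cons (Vale.Agent.P032.Lt.q R0Q004.q64_6) (q_cons (Vale.Agent.P032.Lt.q R0Q004.q64_7) (q_cons (Vale.Agent.P032.Lt.q R0Q004.q64_8) (q_cons (Vale.Agent.P032.Lt.q R0Q004.q64_9) (q_cons (Vale.Agent.P032.Lt.q R0Q004.q64_10) (q_cons (Vale.Agent.P032.Lt.q R0Q004.q64_11) (q_cons (Vale.Agent.P032.Lt.q R0Q004.q64_12) (q_cons (Vale.Agent.P032.Lt.q R0Q004.q64_13) (q_cons (Vale.Agent.P032.Lt.q R0Q004.q64_14) (q_cons (Vale.Agent.P032.Lt.q R0Q004.q64_15) (q_cons (Vale.Agent.P032.Lt.q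 R0Q004.q64_16) (q_cons (Vale.Agent.P032.Lt.q R0Q004.q64_17) (q_cons (Vale.Agent.P032.Lt.q R0Q004.q64_18) (q_cons (Vale.Agent.P032.Lt.q R0Q004.q64_19) (q_cons (Vale.Agent.P032.Lt.q R0Q004.q64_20) (q_cons (Vale.Agent.P032.Lt.q R0Q004.q64_21) q_nil)))))))))))))))))))))))

theorem p65 : Pat 73 73 TBm TCm (CB.map Fm) R0Q004.P65 R0Q004.I65 := Vale.Agent.P032.Lt.pat_eq (E' := R0Q004.E) eB (pat_step (by decide +kernel) (q_cons (Vale.Agent.P032.Lt.q R0Q004.q65_0) (q_cons (Vale.Agent.P032.Lt.q R0Q004.q65_1) (q_cons (Vale.Agent.P032.Lt.q R0Q004.q65_2) (q_cons (Vale.Agent.P032.Lt.q R0Q004.q65_3) (q_cons (Vale.Agent.P032.Lt.q R0Q004.q65_4) (q_cons (Vale.Agent.P032.Lt.q R0Q004.q65_5) (q_cons (Vale.Agent.P032.Lt.q R0Q004.q65_6) (q_cons (Vale.Agent.P032.Lt.q R0Q004.q65_7) (q_cons (Vale.Agent.P032.Lt.q R0Q004.q65_8) (q_cons (Vale.Agent.P032.Lt.q R0Q004.q65_9) (q_cons (Vale.Agent.P032.Lt.q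 R0Q004.q65_10) (q_cons (Vale.Agent.P032.Lt.q R0Q004.q65_11) (q_cons (Vale.Agent.P032.Lt.q R0Q004.q65_12) (q_cons (Vale.Agent.P032.Lt.q R0Q004.q65_13) (q_cons (Vale.Agent.P032.Lt.q R0Q004.q65_14) (q_cons (Vale.Agent.P032.Lt.q R0Q004.q65_15) (q_cons (Vale.Agent.P032.Lt.q R0Q004.q65_16) (q_cons (Vale.Agent.P032.Lt.q R0Q004.q65_17) (q_cons (Vale.Agent.P032.Lt.q R0Q004.q65_18) (q_cons (Vale.Agent.P032.Lt.q R0Q004.q65_19) (q_cons (Vale.Agent.P032.Lt.q R0Q004.q65_20) (q_cons (Vale.Agent.P032.Lt.q R0Q004.q65_21) (q_cons (Vale.Agent.P032.Lt.q R0Q004.q65_22) (q_cons (Vale.Agent.P032.Lt.q R0Q004.q65_23) (q_cons (Vale.Agent.P032.Lt.q R0Q004.q65_24) (q_cons (Vale.Agent.P032.Lt.q R0Q004.q65_25) (q_cons (Vale.Agent.P032.Lt.q R0Q004.q65_26) (q_cons (Vale.Agent.P032.Lt.q R0Q004.q65_27) (q_cons (Vale.Agent.P032.Lt.q R0Q004.q65_28) q_nil))))))))))))))))))))))))))))))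

def C66 : List ℕ := [0, 4, 8, 12, 16, 20, 24, 214017, 218113, 345089, 475137, 607233, 738305, 4770193035310, 9175597140006, 9599322119178, 9666900218930, 22707524557834, 22767624739850, 24352630594570]
theorem p66 : Pat 73 73 TBm TCm (C66.map Fm) R0Q004.P66 R0Q004.I66 := Vale.Agent.P032.Lt.pat_eq (E' := R0Q004.E66) (by decide +kernel) (pat_step (by decide +kernel) (q_cons (Vale.Agent.P032.Lt.q R0Q004.q66_0) (q_cons (Vale.Agent.P032.Lt.q R0Q004.q66_1) (q_cons (Vale.Agent.P032.Lt.q R0Q004.q66_2) q_nil))))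

def C67 : List ℕ := [0, 4, 8, 12, 16, 20, 24, 84993, 214017, 216065, 349185, 475137, 737281, 4718538744850, 9599255274514, 9724212243482, 13928603016202, 23811526711302, 23812465186822, 23812465580038, 23812467283974]
theorem p67 : Pat 73 73 TBm TCm (C67.map Fm) R0Q004.P67 R0Q004.I67 := Vale.Agent.P032.Lt.pat_eq (E' := R0Q004.E67) (by decide +kernel) (pat_step (by decide +kernel) (q_cons (Vale.Agent.P032.Lt.q R0Q004.q67_0) q_nil))

def C68 : List ℕ := [0, 4, 8, 12, 16, 20, 24, 82945, 89089, 91137, 347137, 349185, 353281, 355329, 606209, 737281, 9046818507818, 9169958038554, 9177407898658, 9177521144866, 24412753713158, 24412755810310, 24412756072454, 24413694285830, 24413695989766]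
theorem p68 : Pat 73 73 TBm TCm (C68.map Fm) R0Q004.P68 R0Q004.I68 := Vale.Agent.P032.Lt.pat_eq (E' := R0Q004.E68) (by decide +kernel) (pat_step (by decide +kernel) (q_cons (Vale.Agent.P032.Lt.q R0Q004.q68_0) (q_cons (Vale.Agent.P032.Lt.q R0Q004.q68_1) (q_cons (Vale.Agent.P032.Lt.q R0Q004.q68_2) (q_cons (Vale.Agent.P032.Lt.q R0Q004.q68_3) (q_cons (Vale.Agent.P032.Lt.q R0Q004.q68_4) (q_cons (Vale.Agent.P032.Lt.q R0Q004.q68_5) (q_cons (Vale.Agent.P032.Lt.q R0Q004.q68_6) (q_cons (Vale.Agent.P032.Lt.q R0Q004.q68_7) (q_cons (Vale.Agent.P032.Lt.q R0Q004.q68_8) q_nil))))))))))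

def C69 : List ℕ := [0, 4, 8, 12, 16, 20, 24, 82945, 349185, 355329, 9169958038554]
theorem p69 : Pat 73 73 TBm TCm (C69.map Fm) R0Q004.P69 R0Q004.I69 := Vale.Agent.P032.Lt.pat_eq (E' := R0Q004.E69) (by decide +kernel) (pat_step (by decide +kernel) (q_cons (Vale.Agent.P032.Lt.q R0Q004.q69_0) (q_cons (Vale.Agent.P032.Lt.q R0Q004.q69_1) (q_cons (Vale.Agent.P032.Lt.q R0Q004.q69_2) (q_cons (Vale.Agent.P032.Lt.q R0Q004.q69_3) (q_cons (Vale.Agent.P032.Lt.q R0Q004.q69_4) q_nil))))))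

def C70 : List ℕ := [0, 4, 8, 12, 16, 20, 24, 212993, 344065, 475137, 484353, 606209, 737281, 13916380023850, 18806684996658, 24338542450694]
theorem p70 : Pat 73 73 TBm TCm (C70.map Fm) R0Q004.P70 R0Q004.I70 := Vale.Agent.P032.Lt.pat_eq (E' := R0Q004.E70) (by decide +kernel) (pat_step (by decide +kernel) (q_cons (Vale.Agent.P032.Lt.q R0Q004.q70_0) q_nil))

def C71 : List ℕ := [0, 4, 8, 12, 16, 20, 24, 82945, 212993, 344065, 345089, 738305, 22163606297610, 23188597988362]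
theorem p71 : Pat 73 73 TBm TCm (C71.map Fm) R0Q004.P71 R0Q004.I71 := Vale.Agent.P032.Lt.pat_eq (E' := R0Q004.E71) (by decide +kernel) (pat_step (by decide +kernel) (q_cons (Vale.Agent.P032.Lt.q R0Q004.q71_0) (q_cons (Vale.Agent.P032.Lt.q R0Q004.q71_1) q_nil)))

def C72 : List ℕ := [0, 4, 8, 12, 16, 20, 24, 347137, 353281, 606209, 737281, 24278391937030, 24278400325638, 24278404519942, 24278459045894, 24338546644998, 24338555033606, 24338613753862]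
theorem p72 : Pat 73 73 TBm TCm (C72.map Fm) R0Q004.P72 R0Q004.I72 := Vale.Agent.P032.Lt.pat_eq (E' := R0Q004.E72) (by decide +kernel) (pat_step (by decide +kernel) (q_cons (Vale.Agent.P032.Lt.q R0Q004.q72_0) (q_cons (Vale.Agent.P032.Lt.q R0Q004.q72_1) (q_cons (Vale.Agent.P032.Lt.q R0Q004.q72_2) (q_cons (Vale.Agent.P032.Lt.q R0Q004.q72_3) (q_cons (Vale.Agent.P032.Lt.q R0Q004.q72_4) (q_cons (Vale.Agent.P032.Lt.q R0Q004.q72_5) (q_cons (Vale.Agent.P032.Lt.q R0Q004.q72_6) (q_cons (Vale.Agent.P032.Lt.q R0Q004.q72_7) (q_cons (Vale.Agent.P032.Lt.q R0Q004.q72_8) (q_cons (Vale.Agent.P032.Lt.q R0Q004.q72_9) (q_cons (Vale.Agent.P032.Lt.q R0Q004.q72_10) (q_cons (Vale.Agent.P032.Lt.q R0Q004.q72_11) (q_cons (Vale.Agent.P032.Lt.q R0Q004.q72_12) (q_cons (Vale.Agent.P032.Lt.q R0Q004.q72_13) (q_cons (Vale.Agent.P032.Lt.q R0Q004.q72_14) (q_cons (Vale.Agent.P032.Lt.q R0Q004.q72_15)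 (q_cons (Vale.Agent.P032.Lt.q R0Q004.q72_16) (q_cons (Vale.Agent.P032.Lt.q R0Q004.q72_17) (q_cons (Vale.Agent.P032.Lt.q R0Q004.q72_18) q_nil))))))))))))))))))))

def C73 : List ℕ := [0, 4, 8, 12, 16, 20, 24, 222209, 606209, 615425, 737281, 18513479814186, 24278391937030, 24278450657286, 24338546644998, 24338555033606, 24338605365254, 24338613753862]
theorem p73 : Pat 73 73 TBm TCm (C73.map Fm) R0Q004.P73 R0Q004.I73 := Vale.Agent.P032.Lt.pat_eq (E' := R0Q004.E73) (by decide +kernel) (pat_step (by decide +kernel) (q_cons (Vale.Agent.P032.Lt.q R0Q004.q73_0) (q_cons (Vale.Agent.P032.Lt.q R0Q004.q73_1) (q_cons (Vale.Agent.P032.Lt.q R0Q004.q73_2) (q_cons (Vale.Agent.P032.Lt.q R0Q004.q73_3) (q_cons (Vale.Agent.P032.Lt.q R0Q004.q73_4) (q_cons (Vale.Agent.P032.Lt.q R0Q004.q73_5) (q_cons (Vale.Agent.P032.Lt.q R0Q004.q73_6) (q_cons (Vale.Agent.P032.Lt.q R0Q004.q73_7) (q_cons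 (Vale.Agent.P032.Lt.q R0Q004.q73_8) (q_cons (Vale.Agent.P032.Lt.q R0Q004.q73_9) (q_cons (Vale.Agent.P032.Lt.q R0Q004.q73_10) (q_cons (Vale.Agent.P032.Lt.q R0Q004.q73_11) (q_cons (Vale.Agent.P032.Lt.q R0Q004.q73_12) (q_cons (Vale.Agent.P032.Lt.q R0Q004.q73_13) (q_cons (Vale.Agent.P032.Lt.q R0Q004.q73_14) (q_cons (Vale.Agent.P032.Lt.q R0Q004.q73_15) (q_cons (Vale.Agent.P032.Lt.q R0Q004.q73_16) (q_cons (Vale.Agent.P032.Lt.q R0Q004.q73_17) (q_cons (Vale.Agent.P032.Lt.q R0Q004.q73_18) (q_cons (Vale.Agent.P032.Lt.q R0Q004.q73_19) q_nil)))))))))))))))))))))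

def C74 : List ℕ := [0, 4, 8, 12, 16, 20, 24, 82945, 84993, 214017, 345089, 347137, 478209, 606209, 609281, 737281, 4641415453706, 9038397400082, 9117390562322, 9599275981834, 13379046431754, 18911912223762, 24278404651014, 24338555033606]
theorem p74 : Pat 73 73 TBm TCm (C74.map Fm) R0Q005.P74 R0Q005.I74 := Vale.Agent.P032.Lt.pat_eq (E' := R0Q005.E74) (by decide +kernel) (pat_step (by decide +kernel) (q_cons (Vale.Agent.P032.Lt.q R0Q005.q74_0) q_nil))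

def C75 : List ℕ := [0, 4, 8, 12, 16, 20, 24, 214017, 344065, 475137, 476161, 737281, 738305, 22835299834890, 23931723799562]
theorem p75 : Pat 73 73 TBm TCm (C75.map Fm) R0Q005.P75 R0Q005.I75 := Vale.Agent.P032.Lt.pat_eq (E' := R0Q005.E75) (by decide +kernel) (pat_step (by decide +kernel) (q_cons (Vale.Agent.P032.Lt.q R0Q005.q75_0) (q_cons (Vale.Agent.P032.Lt.q R0Q005.q75_1) (q_cons (Vale.Agent.P032.Lt.q R0Q005.q75_2) (q_cons (Vale.Agent.P032.Lt.q R0Q005.q75_3) (q_cons (Vale.Agent.P032.Lt.q R0Q005.q75_4) (q_cons (Vale.Agent.P032.Lt.q R0Q005.q75_5) (q_cons (Vale.Agent.P032.Lt.q R0Q005.q75_6) (q_cons (Vale.Agent.P032.Lt.q R0Q005.q75_7) (q_cons (Vale.Agent.P032.Lt.q R0Q005.q75_8) (q_cons (Vale.Agent.P032.Lt.q R0Q005.q75_9) q_nil)))))))))))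

def C76 : List ℕ := [0, 4, 8, 12, 16, 20, 24, 82945, 475137, 737281]
theorem p76 : Pat 73 73 TBm TCm (C76.map Fm) R0Q005.P76 R0Q005.I76 := Vale.Agent.P032.Lt.pat_eq (E' := R0Q005.E76) (by decide +kernel) (pat_step (by decide +kernel) (q_cons (Vale.Agent.P032.Lt.q R0Q005.q76_0) (q_cons (Vale.Agent.P032.Lt.q R0Q005.q76_1) (q_cons (Vale.Agent.P032.Lt.q R0Q005.q76_2) (q_cons (Vale.Agent.P032.Lt.q R0Q005.q76_3) (q_cons (Vale.Agent.P032.Lt.q R0Q005.q76_4) (q_cons (Vale.Agent.P032.Lt.q R0Q005.q76_5) (q_cons (Vale.Agent.P032.Lt.q R0Q005.q76_6) (q_cons (Vale.Agent.P032.Lt.q R0Q005.q76_7) (q_cons (Vale.Agent.P032.Lt.q R0Q005.q76_8) (q_cons (Vale.Agent.P032.Lt.q R0Q005.q76_9) (q_cons (Vale.Agent.P032.Lt.q R0Q005.q76_10) (q_cons (Vale.Agent.P032.Lt.q R0Q005.q76_11) (q_cons (Vale.Agent.P032.Lt.q R0Q005.q76_12) (q_cons (Vale.Agent.P032.Lt.q R0Q005.q76_13) (q_cons (Vale.Agent.P032.Lt.q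 R0Q005.q76_14) (q_cons (Vale.Agent.P032.Lt.q R0Q005.q76_15) (q_cons (Vale.Agent.P032.Lt.q R0Q005.q76_16) (q_cons (Vale.Agent.P032.Lt.q R0Q005.q76_17) (q_cons (Vale.Agent.P032.Lt.q R0Q005.q76_18) (q_cons (Vale.Agent.P032.Lt.q R0Q005.q76_19) (q_cons (Vale.Agent.P032.Lt.q R0Q005.q76_20) (q_cons (Vale.Agent.P032.Lt.q R0Q005.q76_21) (q_cons (Vale.Agent.P032.Lt.q R0Q005.q76_22) (q_cons (Vale.Agent.P032.Lt.q R0Q005.q76_23) (q_cons (Vale.Agent.P032.Lt.q R0Q005.q76_24) (q_cons (Vale.Agent.P032.Lt.q R0Q005.q76_25) (q_cons (Vale.Agent.P032.Lt.q R0Q005.q76_26) (q_cons (Vale.Agent.P032.Lt.q R0Q005.q76_27) (q_cons (Vale.Agent.P032.Lt.q R0Q005.q76_28) (q_cons (Vale.Agent.P032.Lt.q R0Q005.q76_29) (q_cons (Vale.Agent.P032.Lt.q R0Q005.q76_30) q_nil))))))))))))))))))))))))))))))))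

theorem p77 : Pat 73 73 TBm TCm (CB.map Fm) R0Q005.P77 R0Q005.I77 := Vale.Agent.P032.Lt.pat_eq (E' := R0Q005.E) eB (pat_step (by decide +kernel) (q_cons (Vale.Agent.P032.Lt.q R0Q005.q77_0) (q_cons (Vale.Agent.P032.Lt.q R0Q005.q77_1) (q_cons (Vale.Agent.P032.Lt.q R0Q005.q77_2) (q_cons (Vale.Agent.P032.Lt.q R0Q005.q77_3) (q_cons (Vale.Agent.P032.Lt.q R0Q005.q77_4) q_nil))))))

theorem p78 : Pat 73 73 TBm TCm (CB.map Fm) R0Q005.P78 R0Q005.I78 := Vale.Agent.P032.Lt.pat_eq (E' := R0Q005.E) eB (pat_step (by decide +kernel) (q_cons (Vale.Agent.P032.Lt.q R0Q005.q78_0) (q_cons (Vale.Agent.P032.Lt.q R0Q005.q78_1) (q_cons (Vale.Agent.P032.Lt.q R0Q005.q78_2) (q_cons (Vale.Agent.P032.Lt.q R0Q005.q78_3) (q_cons (Vale.Agent.P032.Lt.q R0Q005.q78_4) (q_cons (Vale.Agent.P032.Lt.q R0Q005.q78_5) (q_cons (Vale.Agent.P032.Lt.q R0Q005.q78_6) (q_cons (Vale.Agent.P032.Lt.q R0Q005.q78_7)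 (q_cons (Vale.Agent.P032.Lt.q R0Q005.q78_8) (q_cons (Vale.Agent.P032.Lt.q R0Q005.q78_9) q_nil)))))))))))

def C79 : List ℕ := [0, 4, 8, 12, 16, 20, 24, 220161, 475137, 737281, 9724275934242]
theorem p79 : Pat 73 73 TBm TCm (C79.map Fm) R0Q005.P79 R0Q005.I79 := Vale.Agent.P032.Lt.pat_eq (E' := R0Q005.E79) (by decide +kernel) (pat_step (by decide +kernel) (q_cons (Vale.Agent.P032.Lt.q R0Q005.q79_0) (q_cons (Vale.Agent.P032.Lt.q R0Q005.q79_1) (q_cons (Vale.Agent.P032.Lt.q R0Q005.q79_2) q_nil))))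

def C80 : List ℕ := [0, 4, 8, 12, 16, 20, 24, 84993, 347137, 475137, 737281, 9115398267922]
theorem p80 : Pat 73 73 TBm TCm (C80.map Fm) R0Q005.P80 R0Q005.I80 := Vale.Agent.P032.Lt.pat_eq (E' := R0Q005.E80) (by decide +kernel) (pat_step (by decide +kernel) (q_cons (Vale.Agent.P032.Lt.q R0Q005.q80_0) (q_cons (Vale.Agent.P032.Lt.q R0Q005.q80_1) (q_cons (Vale.Agent.P032.Lt.q R0Q005.q80_2) (q_cons (Vale.Agent.P032.Lt.q R0Q005.q80_3) q_nil)))))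

def C81 : List ℕ := [0, 4, 8, 12, 16, 20, 24, 87041, 212993, 214017, 344065, 349185, 475137, 476161, 607233, 737281, 9117348883482, 14109056916490, 18506031520778, 18911862156314]
theorem p81 : Pat 73 73 TBm TCm (C81.map Fm) R0Q005.P81 R0Q005.I81 := Vale.Agent.P032.Lt.pat_eq (E' := R0Q005.E81) (by decide +kernel) (pat_step (by decide +kernel) (q_cons (Vale.Agent.P032.Lt.q R0Q005.q81_0) (q_cons (Vale.Agent.P032.Lt.q R0Q005.q81_1) q_nil)))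

def C82 : List ℕ := [0, 4, 8, 12, 16, 20, 24, 82945, 89089, 355329, 475137, 737281, 742401, 745473, 22157985279002, 23729701476358, 23729709864966, 23729768585222, 23729776973830, 23729785362438, 23789864572934, 23789872961542, 23789923293190, 23789931681798, 23789940070406]
theorem p82 : Pat 73 73 TBm TCm (C82.map Fm) R0Q005.P82 R0Q005.I82 := Vale.Agent.P032.Lt.pat_eq (E' := R0Q005.E82) (by decide +kernel) (pat_step (by decide +kernel) (q_cons (Vale.Agent.P032.Lt.q R0Q005.q82_0) (q_cons (Vale.Agent.P032.Lt.q R0Q005.q82_1) (q_cons (Vale.Agent.P032.Lt.q R0Q005.q82_2) (q_cons (Vale.Agent.P032.Lt.q R0Q005.q82_3) (q_cons (Vale.Agent.P032.Lt.q R0Q005.q82_4) (q_cons (Vale.Agent.P032.Lt.q R0Q005.q82_5) (q_cons (Vale.Agent.P032.Lt.q R0Q005.q82_6) (q_cons (Vale.Agent.P032.Lt.q R0Q005.q82_7) (q_cons (Vale.Agent.P032.Lt.q R0Q005.q82_8) (q_cons (Vale.Agent.P032.Lt.q R0Q005.q82_9)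 (q_cons (Vale.Agent.P032.Lt.q R0Q005.q82_10) (q_cons (Vale.Agent.P032.Lt.q R0Q005.q82_11) (q_cons (Vale.Agent.P032.Lt.q R0Q005.q82_12) (q_cons (Vale.Agent.P032.Lt.q R0Q005.q82_13) (q_cons (Vale.Agent.P032.Lt.q R0Q005.q82_14) (q_cons (Vale.Agent.P032.Lt.q R0Q005.q82_15) (q_cons (Vale.Agent.P032.Lt.q R0Q005.q82_16) (q_cons (Vale.Agent.P032.Lt.q R0Q005.q82_17) (q_cons (Vale.Agent.P032.Lt.q R0Q005.q82_18) q_nil))))))))))))))))))))

theorem p83 : Pat 73 73 TBm TCm (CB.map Fm) R0Q005.P83 R0Q005.I83 := Vale.Agent.P032.Lt.pat_eq (E' := R0Q005.E) eB (pat_step (by decide +kernel) (q_cons (Vale.Agent.P032.Lt.q R0Q005.q83_0) q_nil))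

def C84 : List ℕ := [0, 4, 8, 12, 16, 20, 24, 91137, 347137, 353281, 480257, 486401, 609281, 737281, 9115399572522, 9115403766826, 9115466681386, 9595564018730, 13487966213170, 18911853503506, 23725961598982, 23725963696134, 23729722578950, 24278391937030, 24278404519942, 24278450657286, 24278459045894, 24278467434502, 24338546644998, 24338555033606, 24338613753862, 24338622142470]
theorem p84 : Pat 73 73 TBm TCm (C84.map Fm) R0Q005.P84 R0Q005.I84 := Vale.Agent.P032.Lt.pat_eq (E' := R0Q005.E84) (by decide +kernel) (pat_step (by decide +kernel) (q_cons (Vale.Agent.P032.Lt.q R0Q005.q84_0) (q_cons (Vale.Agent.P032.Lt.q R0Q005.q84_1) (q_cons (Vale.Agent.P032.Lt.q R0Q005.q84_2) (q_cons (Vale.Agent.P032.Lt.q R0Q005.q84_3) (q_cons (Vale.Agent.P032.Lt.q R0Q005.q84_4) (q_cons (Vale.Agent.P032.Lt.q R0Q005.q84_5) (q_cons (Vale.Agent.P032.Lt.q R0Q005.q84_6) (q_cons (Vale.Agent.P032.Lt.q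 R0Q005.q84_7) (q_cons (Vale.Agent.P032.Lt.q R0Q005.q84_8) (q_cons (Vale.Agent.P032.Lt.q R0Q005.q84_9) (q_cons (Vale.Agent.P032.Lt.q R0Q005.q84_10) (q_cons (Vale.Agent.P032.Lt.q R0Q005.q84_11) (q_cons (Vale.Agent.P032.Lt.q R0Q005.q84_12) (q_cons (Vale.Agent.P032.Lt.q R0Q005.q84_13) (q_cons (Vale.Agent.P032.Lt.q R0Q005.q84_14) (q_cons (Vale.Agent.P032.Lt.q R0Q005.q84_15) (q_cons (Vale.Agent.P032.Lt.q R0Q005.q84_16) (q_cons (Vale.Agent.P032.Lt.q R0Q005.q84_17) (q_cons (Vale.Agent.P032.Lt.q R0Q005.q84_18) (q_cons (Vale.Agent.P032.Lt.q R0Q005.q84_19) (q_cons (Vale.Agent.P032.Lt.q R0Q005.q84_20) q_nil))))))))))))))))))))))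

def C85 : List ℕ := [0, 4, 8, 12, 16, 20, 24, 91137, 347137, 348161, 353281, 611329, 617473, 737281, 741377, 9046818507818, 9046881422378, 17817351967794, 23373660121110, 23729701476358, 23729709864966, 23729722447878, 23729768585222, 23729776973830, 23789864572934, 23789872961542, 23789931681798, 23789940070406]
theorem p85 : Pat 73 73 TBm TCm (C85.map Fm) R0Q005.P85 R0Q005.I85 := Vale.Agent.P032.Lt.pat_eq (E' := R0Q005.E85) (by decide +kernel) (pat_step (by decide +kernel) (q_cons (Vale.Agent.P032.Lt.q R0Q005.q85_0) (q_cons (Vale.Agent.P032.Lt.q R0Q005.q85_1) (q_cons (Vale.Agent.P032.Lt.q R0Q005.q85_2) (q_cons (Vale.Agent.P032.Lt.q R0Q005.q85_3) (q_cons (Vale.Agent.P032.Lt.q R0Q005.q85_4) (q_cons (Vale.Agent.P032.Lt.q R0Q005.q85_5) (q_cons (Vale.Agent.P032.Lt.q R0Q005.q85_6) (q_cons (Vale.Agent.P032.Lt.q R0Q005.q85_7) (q_cons (Vale.Agent.P032.Lt.q R0Q005.q85_8)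 (q_cons (Vale.Agent.P032.Lt.q R0Q005.q85_9) (q_cons (Vale.Agent.P032.Lt.q R0Q005.q85_10) (q_cons (Vale.Agent.P032.Lt.q R0Q005.q85_11) q_nil)))))))))))))

def C86 : List ℕ := [0, 4, 8, 12, 16, 20, 24, 82945, 475137, 737281, 23729709864966, 23729776973830, 23729785362438]
theorem p86 : Pat 73 73 TBm TCm (C86.map Fm) R0Q005.P86 R0Q005.I86 := Vale.Agent.P032.Lt.pat_eq (E' := R0Q005.E86) (by decide +kernel) (pat_step (by decide +kernel) (q_cons (Vale.Agent.P032.Lt.q R0Q005.q86_0) (q_cons (Vale.Agent.P032.Lt.q R0Q005.q86_1) (q_cons (Vale.Agent.P032.Lt.q R0Q005.q86_2) (q_cons (Vale.Agent.P032.Lt.q R0Q005.q86_3) (q_cons (Vale.Agent.P032.Lt.q R0Q005.q86_4) (q_cons (Vale.Agent.P032.Lt.q R0Q005.q86_5) (q_cons (Vale.Agent.P032.Lt.q R0Q005.q86_6) (q_cons (Vale.Agent.P032.Lt.q R0Q005.q86_7) (q_cons (Vale.Agent.P032.Lt.q R0Q005.q86_8) (q_cons (Vale.Agent.P032.Lt.q R0Q005.q86_9)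 (q_cons (Vale.Agent.P032.Lt.q R0Q005.q86_10) q_nil))))))))))))

def C87 : List ℕ := [0, 4, 8, 12, 16, 20, 24, 81921, 212993, 344065, 482305, 613377, 738305, 4778564999174, 4779503081478, 4779505047558, 9042123118598, 9167087949830, 9175535540230, 9177414588422, 13491775161378, 14036697039906, 18365961159714, 18370657993762, 18370660090914, 23744727702538, 24285960690698, 24285990050826]
theorem p87 : Pat 73 73 TBm TCm (C87.map Fm) R0Q006.P87 R0Q006.I87 := Vale.Agent.P032.Lt.pat_eq (E' := R0Q006.E87) (by decide +kernel) (pat_step (by decide +kernel) (q_cons (Vale.Agent.P032.Lt.q R0Q006.q87_0) (q_cons (Vale.Agent.P032.Lt.q R0Q006.q87_1) (q_cons (Vale.Agent.P032.Lt.q R0Q006.q87_2) (q_cons (Vale.Agent.P032.Lt.q R0Q006.q87_3) (q_cons (Vale.Agent.P032.Lt.q R0Q006.q87_4) (q_cons (Vale.Agent.P032.Lt.q R0Q006.q87_5) (q_cons (Vale.Agent.P032.Lt.q R0Q006.q87_6) (q_cons (Vale.Agent.P032.Lt.q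 R0Q006.q87_7) (q_cons (Vale.Agent.P032.Lt.q R0Q006.q87_8) (q_cons (Vale.Agent.P032.Lt.q R0Q006.q87_9) (q_cons (Vale.Agent.P032.Lt.q R0Q006.q87_10) (q_cons (Vale.Agent.P032.Lt.q R0Q006.q87_11) (q_cons (Vale.Agent.P032.Lt.q R0Q006.q87_12) (q_cons (Vale.Agent.P032.Lt.q R0Q006.q87_13) (q_cons (Vale.Agent.P032.Lt.q R0Q006.q87_14) (q_cons (Vale.Agent.P032.Lt.q R0Q006.q87_15) (q_cons (Vale.Agent.P032.Lt.q R0Q006.q87_16) (q_cons (Vale.Agent.P032.Lt.q R0Q006.q87_17) (q_cons (Vale.Agent.P032.Lt.q R0Q006.q87_18) (q_cons (Vale.Agent.P032.Lt.q R0Q006.q87_19) (q_cons (Vale.Agent.P032.Lt.q R0Q006.q87_20) (q_cons (Vale.Agent.P032.Lt.q R0Q006.q87_21) (q_cons (Vale.Agent.P032.Lt.q R0Q006.q87_22) q_nil))))))))))))))))))))))))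

def C88 : List ℕ := [0, 4, 8, 12, 16, 20, 24, 349185, 9169895123994, 9169958038554, 19061206641690]
theorem p88 : Pat 73 73 TBm TCm (C88.map Fm) R0Q006.P88 R0Q006.I88 := Vale.Agent.P032.Lt.pat_eq (E' := R0Q006.E88) (by decide +kernel) (pat_step (by decide +kernel) (q_cons (Vale.Agent.P032.Lt.q R0Q006.q88_0) (q_cons (Vale.Agent.P032.Lt.q R0Q006.q88_1) (q_cons (Vale.Agent.P032.Lt.q R0Q006.q88_2) (q_cons (Vale.Agent.P032.Lt.q R0Q006.q88_3) (q_cons (Vale.Agent.P032.Lt.q R0Q006.q88_4) (q_cons (Vale.Agent.P032.Lt.q R0Q006.q88_5) (q_cons (Vale.Agent.P032.Lt.q R0Q006.q88_6) (q_cons (Vale.Agent.P032.Lt.q R0Q006.q88_7) (q_cons (Vale.Agent.P032.Lt.q R0Q006.q88_8) (q_cons (Vale.Agent.P032.Lt.q R0Q006.q88_9) q_nil)))))))))))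

def C89 : List ℕ := [0, 4, 8, 12, 16, 20, 24, 82945, 89089, 475137, 737281, 9177407898658, 13573439970314]
theorem p89 : Pat 73 73 TBm TCm (C89.map Fm) R0Q006.P89 R0Q006.I89 := Vale.Agent.P032.Lt.pat_eq (E' := R0Q006.E89) (by decide +kernel) (pat_step (by decide +kernel) (q_cons (Vale.Agent.P032.Lt.q R0Q006.q89_0) (q_cons (Vale.Agent.P032.Lt.q R0Q006.q89_1) (q_cons (Vale.Agent.P032.Lt.q R0Q006.q89_2) (q_cons (Vale.Agent.P032.Lt.q R0Q006.q89_3) (q_cons (Vale.Agent.P032.Lt.q R0Q006.q89_4) (q_cons (Vale.Agent.P032.Lt.q R0Q006.q89_5) (q_cons (Vale.Agent.P032.Lt.q R0Q006.q89_6) (q_cons (Vale.Agent.P032.Lt.q R0Q006.q89_7) (q_cons (Vale.Agent.P032.Lt.q R0Q006.q89_8) (q_cons (Vale.Agent.P032.Lt.q R0Q006.q89_9) (q_cons (Vale.Agent.P032.Lt.q R0Q006.q89_10) (q_cons (Vale.Agent.P032.Lt.q R0Q006.q89_11) (q_cons (Vale.Agent.P032.Lt.q R0Q006.q89_12) (q_cons (Vale.Agent.P032.Lt.q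 R0Q006.q89_13) (q_cons (Vale.Agent.P032.Lt.q R0Q006.q89_14) (q_cons (Vale.Agent.P032.Lt.q R0Q006.q89_15) (q_cons (Vale.Agent.P032.Lt.q R0Q006.q89_16) (q_cons (Vale.Agent.P032.Lt.q R0Q006.q89_17) q_nil)))))))))))))))))))

def C90 : List ℕ := [0, 4, 8, 12, 16, 20, 24, 82945, 84993, 212993, 216065, 347137, 475137, 607233, 737281, 17774140152842, 23932659652614]
theorem p90 : Pat 73 73 TBm TCm (C90.map Fm) R0Q006.P90 R0Q006.I90 := Vale.Agent.P032.Lt.pat_eq (E' := R0Q006.E90) (by decide +kernel) (pat_step (by decide +kernel) (q_cons (Vale.Agent.P032.Lt.q R0Q006.q90_0) (q_cons (Vale.Agent.P032.Lt.q R0Q006.q90_1) (q_cons (Vale.Agent.P032.Lt.q R0Q006.q90_2) (q_cons (Vale.Agent.P032.Lt.q R0Q006.q90_3) (q_cons (Vale.Agent.P032.Lt.q R0Q006.q90_4) (q_cons (Vale.Agent.P032.Lt.q R0Q006.q90_5) (q_cons (Vale.Agent.P032.Lt.q R0Q006.q90_6) (q_cons (Vale.Agent.P032.Lt.q R0Q006.q90_7)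 (q_cons (Vale.Agent.P032.Lt.q R0Q006.q90_8) (q_cons (Vale.Agent.P032.Lt.q R0Q006.q90_9) q_nil)))))))))))

def C91 : List ℕ := [0, 4, 8, 12, 16, 20, 24, 214017, 353281, 475137, 737281, 9046818507818, 14062015437834, 14122124008458, 23729701476358, 23729709864966, 23729722447878, 23729785362438, 23789864572934, 23789872961542, 23789923293190, 23789931681798, 23789940070406]
theorem p91 : Pat 73 73 TBm TCm (C91.map Fm) R0Q006.P91 R0Q006.I91 := Vale.Agent.P032.Lt.pat_eq (E' := R0Q006.E91) (by decide +kernel) (pat_step (by decide +kernel) (q_cons (Vale.Agent.P032.Lt.q R0Q006.q91_0) (q_cons (Vale.Agent.P032.Lt.q R0Q006.q91_1) (q_cons (Vale.Agent.P032.Lt.q R0Q006.q91_2) (q_cons (Vale.Agent.P032.Lt.q R0Q006.q91_3) (q_cons (Vale.Agent.P032.Lt.q R0Q006.q91_4) (q_cons (Vale.Agent.P032.Lt.q R0Q006.q91_5) (q_cons (Vale.Agent.P032.Lt.q R0Q006.q91_6) (q_cons (Vale.Agent.P032.Lt.q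 R0Q006.q91_7) (q_cons (Vale.Agent.P032.Lt.q R0Q006.q91_8) (q_cons (Vale.Agent.P032.Lt.q R0Q006.q91_9) (q_cons (Vale.Agent.P032.Lt.q R0Q006.q91_10) (q_cons (Vale.Agent.P032.Lt.q R0Q006.q91_11) (q_cons (Vale.Agent.P032.Lt.q R0Q006.q91_12) (q_cons (Vale.Agent.P032.Lt.q R0Q006.q91_13) q_nil)))))))))))))))

def C92 : List ℕ := [0, 4, 8, 12, 16, 20, 24, 212993, 19044335051794]
theorem p92 : Pat 73 73 TBm TCm (C92.map Fm) R0Q006.P92 R0Q006.I92 := Vale.Agent.P032.Lt.pat_eq (E' := R0Q006.E92) (by decide +kernel) (pat_step (by decide +kernel) (q_cons (Vale.Agent.P032.Lt.q R0Q006.q92_0) (q_cons (Vale.Agent.P032.Lt.q R0Q006.q92_1) (q_cons (Vale.Agent.P032.Lt.q R0Q006.q92_2) (q_cons (Vale.Agent.P032.Lt.q R0Q006.q92_3) (q_cons (Vale.Agent.P032.Lt.q R0Q006.q92_4) (q_cons (Vale.Agent.P032.Lt.q R0Q006.q92_5) (q_cons (Vale.Agent.P032.Lt.q R0Q006.q92_6) (q_cons (Vale.Agent.P032.Lt.q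 R0Q006.q92_7) q_nil)))))))))

def C93 : List ℕ := [0, 4, 8, 12, 16, 20, 24, 216065, 347137, 478209, 606209, 740353, 17842660662282, 22165492818962, 24278391937030, 24278467434502, 24338546644998, 24338555033606, 24338613753862]
theorem p93 : Pat 73 73 TBm TCm (C93.map Fm) R0Q006.P93 R0Q006.I93 := Vale.Agent.P032.Lt.pat_eq (E' := R0Q006.E93) (by decide +kernel) (pat_step (by decide +kernel) (q_cons (Vale.Agent.P032.Lt.q R0Q006.q93_0) (q_cons (Vale.Agent.P032.Lt.q R0Q006.q93_1) (q_cons (Vale.Agent.P032.Lt.q R0Q006.q93_2) (q_cons (Vale.Agent.P032.Lt.q R0Q006.q93_3) (q_cons (Vale.Agent.P032.Lt.q R0Q006.q93_4) (q_cons (Vale.Agent.P032.Lt.q R0Q006.q93_5) (q_cons (Vale.Agent.P032.Lt.q R0Q006.q93_6) (q_cons (Vale.Agent.P032.Lt.q R0Q006.q93_7) (q_cons (Vale.Agent.P032.Lt.q R0Q006.q93_8) q_nil))))))))))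

def C94 : List ℕ := [0, 4, 8, 12, 16, 20, 24, 212993, 347137, 353281, 355329, 475137, 737281, 9046818507818]
theorem p94 : Pat 73 73 TBm TCm (C94.map Fm) R0Q006.P94 R0Q006.I94 := Vale.Agent.P032.Lt.pat_eq (E' := R0Q006.E94) (by decide +kernel) (pat_step (by decide +kernel) (q_cons (Vale.Agent.P032.Lt.q R0Q006.q94_0) (q_cons (Vale.Agent.P032.Lt.q R0Q006.q94_1) (q_cons (Vale.Agent.P032.Lt.q R0Q006.q94_2) (q_cons (Vale.Agent.P032.Lt.q R0Q006.q94_3) (q_cons (Vale.Agent.P032.Lt.q R0Q006.q94_4) (q_cons (Vale.Agent.P032.Lt.q R0Q006.q94_5) (q_cons (Vale.Agent.P032.Lt.q R0Q006.q94_6) (q_cons (Vale.Agent.P032.Lt.q R0Q006.q94_7) (q_cons (Vale.Agent.P032.Lt.q R0Q006.q94_8) (q_cons (Vale.Agent.P032.Lt.q R0Q006.q94_9) (q_cons (Vale.Agent.P032.Lt.q R0Q006.q94_10) (q_cons (Vale.Agent.P032.Lt.q R0Q006.q94_11) (q_cons (Vale.Agent.P032.Lt.q R0Q006.q94_12) (q_cons (Vale.Agent.P032.Lt.q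 R0Q006.q94_13) (q_cons (Vale.Agent.P032.Lt.q R0Q006.q94_14) (q_cons (Vale.Agent.P032.Lt.q R0Q006.q94_15) (q_cons (Vale.Agent.P032.Lt.q R0Q006.q94_16) (q_cons (Vale.Agent.P032.Lt.q R0Q006.q94_17) (q_cons (Vale.Agent.P032.Lt.q R0Q006.q94_18) (q_cons (Vale.Agent.P032.Lt.q R0Q006.q94_19) (q_cons (Vale.Agent.P032.Lt.q R0Q006.q94_20) (q_cons (Vale.Agent.P032.Lt.q R0Q006.q94_21) (q_cons (Vale.Agent.P032.Lt.q R0Q006.q94_22) q_nil))))))))))))))))))))))))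

def C95 : List ℕ := [0, 4, 8, 12, 16, 20, 24, 737281, 741377, 23373656844310, 23373658941462]
theorem p95 : Pat 73 73 TBm TCm (C95.map Fm) R0Q006.P95 R0Q006.I95 := Vale.Agent.P032.Lt.pat_eq (E' := R0Q006.E95) (by decide +kernel) (pat_step (by decide +kernel) (q_cons (Vale.Agent.P032.Lt.q R0Q006.q95_0) (q_cons (Vale.Agent.P032.Lt.q R0Q006.q95_1) (q_cons (Vale.Agent.P032.Lt.q R0Q006.q95_2) (q_cons (Vale.Agent.P032.Lt.q R0Q006.q95_3) (q_cons (Vale.Agent.P032.Lt.q R0Q006.q95_4) (q_cons (Vale.Agent.P032.Lt.q R0Q006.q95_5) (q_cons (Vale.Agent.P032.Lt.q R0Q006.q95_6) (q_cons (Vale.Agent.P032.Lt.q R0Q006.q95_7) (q_cons (Vale.Agent.P032.Lt.q R0Q006.q95_8) (q_cons (Vale.Agent.P032.Lt.q R0Q006.q95_9) (q_cons (Vale.Agent.P032.Lt.q R0Q006.q95_10) (q_cons (Vale.Agent.P032.Lt.q R0Q006.q95_11) (q_cons (Vale.Agent.P032.Lt.q R0Q006.q95_12) (q_cons (Vale.Agent.P032.Lt.q R0Q006.q95_13)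 (q_cons (Vale.Agent.P032.Lt.q R0Q006.q95_14) q_nil))))))))))))))))

theorem p96 : Pat 73 73 TBm TCm (CB.map Fm) R0Q007.P96 R0Q007.I96 := Vale.Agent.P032.Lt.pat_eq (E' := R0Q007.E) eB (pat_step (by decide +kernel) (q_cons (Vale.Agent.P032.Lt.q R0Q007.q96_0) (q_cons (Vale.Agent.P032.Lt.q R0Q007.q96_1) (q_cons (Vale.Agent.P032.Lt.q R0Q007.q96_2) (q_cons (Vale.Agent.P032.Lt.q R0Q007.q96_3) (q_cons (Vale.Agent.P032.Lt.q R0Q007.q96_4) (q_cons (Vale.Agent.P032.Lt.q R0Q007.q96_5) (q_cons (Vale.Agent.P032.Lt.q R0Q007.q96_6) (q_cons (Vale.Agent.P032.Lt.q R0Q007.q96_7) (q_cons (Vale.Agent.P032.Lt.q R0Q007.q96_8) (q_cons (Vale.Agent.P032.Lt.q R0Q007.q96_9) (q_cons (Vale.Agent.P032.Lt.q R0Q007.q96_10) (q_cons (Vale.Agent.P032.Lt.q R0Q007.q96_11) (q_cons (Vale.Agent.P032.Lt.q R0Q007.q96_12) (q_cons (Vale.Agent.P032.Lt.q R0Q007.q96_13) (q_cons (Vale.Agent.P032.Lt.q R0Q007.q96_14)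 (q_cons (Vale.Agent.P032.Lt.q R0Q007.q96_15) (q_cons (Vale.Agent.P032.Lt.q R0Q007.q96_16) (q_cons (Vale.Agent.P032.Lt.q R0Q007.q96_17) (q_cons (Vale.Agent.P032.Lt.q R0Q007.q96_18) (q_cons (Vale.Agent.P032.Lt.q R0Q007.q96_19) (q_cons (Vale.Agent.P032.Lt.q R0Q007.q96_20) (q_cons (Vale.Agent.P032.Lt.q R0Q007.q96_21) (q_cons (Vale.Agent.P032.Lt.q R0Q007.q96_22) (q_cons (Vale.Agent.P032.Lt.q R0Q007.q96_23) (q_cons (Vale.Agent.P032.Lt.q R0Q007.q96_24) (q_cons (Vale.Agent.P032.Lt.q R0Q007.q96_25) (q_cons (Vale.Agent.P032.Lt.q R0Q007.q96_26) (q_cons (Vale.Agent.P032.Lt.q R0Q007.q96_27) (q_cons (Vale.Agent.P032.Lt.q R0Q007.q96_28) (q_cons (Vale.Agent.P032.Lt.q R0Q007.q96_29) (q_cons (Vale.Agent.P032.Lt.q R0Q007.q96_30) (q_cons (Vale.Agent.P032.Lt.q R0Q007.q96_31) (q_cons (Vale.Agent.P032.Lt.q R0Q007.q96_32) (q_cons (Vale.Agent.P032.Lt.q R0Q007.q96_33) q_nil)))))))))))))))))))))))))))))))))))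

def C97 : List ℕ := [0, 4, 8, 12, 16, 20, 24, 741377, 24352710944790]
theorem p97 : Pat 73 73 TBm TCm (C97.map Fm) R0Q007.P97 R0Q007.I97 := Vale.Agent.P032.Lt.pat_eq (E' := R0Q007.E97) (by decide +kernel) (pat_step (by decide +kernel) (q_cons (Vale.Agent.P032.Lt.q R0Q007.q97_0) (q_cons (Vale.Agent.P032.Lt.q R0Q007.q97_1) (q_cons (Vale.Agent.P032.Lt.q R0Q007.q97_2) (q_cons (Vale.Agent.P032.Lt.q R0Q007.q97_3) (q_cons (Vale.Agent.P032.Lt.q R0Q007.q97_4) (q_cons (Vale.Agent.P032.Lt.q R0Q007.q97_5) (q_cons (Vale.Agent.P032.Lt.q R0Q007.q97_6) (q_cons (Vale.Agent.P032.Lt.q R0Q007.q97_7) (q_cons (Vale.Agent.P032.Lt.q R0Q007.q97_8) (q_cons (Vale.Agent.P032.Lt.q R0Q007.q97_9) (q_cons (Vale.Agent.P032.Lt.q R0Q007.q97_10) (q_cons (Vale.Agent.P032.Lt.q R0Q007.q97_11) q_nil)))))))))))))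

def C98 : List ℕ := [0, 4, 8, 12, 16, 20, 24, 214017, 344065, 476161, 607233, 738305, 4701588375590, 18325554813962, 22715078499338, 23786135313418, 23789894458378, 23812443036682, 23932664372234, 24338576137226]
theorem p98 : Pat 73 73 TBm TCm (C98.map Fm) R0Q007.P98 R0Q007.I98 := Vale.Agent.P032.Lt.pat_eq (E' := R0Q007.E98) (by decide +kernel) (pat_step (by decide +kernel) (q_cons (Vale.Agent.P032.Lt.q R0Q007.q98_0) (q_cons (Vale.Agent.P032.Lt.q R0Q007.q98_1) q_nil)))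

def C99 : List ℕ := [0, 4, 8, 12, 16, 20, 24, 87041, 216065, 218113, 344065, 345089, 475137, 480257, 482305, 486401, 607233, 611329, 613377, 742401, 14402141771782, 14582496843782, 14582559758342, 14582561855494, 14582563952646, 14582566049798, 17962917387274, 18365979249706, 19388226290722, 19594017729562, 22285714418714, 23742863862810, 23742926777370, 24404322380826]
theorem p99 : Pat 73 73 TBm TCm (C99.map Fm) R0Q007.P99 R0Q007.I99 := Vale.Agent.P032.Lt.pat_eq (E' := R0Q007.E99) (by decide +kernel) (pat_step (by decide +kernel) (q_cons (Vale.Agent.P032.Lt.q R0Q007.q99_0) (q_cons (Vale.Agent.P032.Lt.q R0Q007.q99_1) (q_cons (Vale.Agent.P032.Lt.q R0Q007.q99_2) (q_cons (Vale.Agent.P032.Lt.q R0Q007.q99_3) (q_cons (Vale.Agent.P032.Lt.q R0Q007.q99_4) (q_cons (Vale.Agent.P032.Lt.q R0Q007.q99_5) (q_cons (Vale.Agent.P032.Lt.q R0Q007.q99_6) (q_cons (Vale.Agent.P032.Lt.q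 R0Q007.q99_7) (q_cons (Vale.Agent.P032.Lt.q R0Q007.q99_8) (q_cons (Vale.Agent.P032.Lt.q R0Q007.q99_9) (q_cons (Vale.Agent.P032.Lt.q R0Q007.q99_10) (q_cons (Vale.Agent.P032.Lt.q R0Q007.q99_11) (q_cons (Vale.Agent.P032.Lt.q R0Q007.q99_12) (q_cons (Vale.Agent.P032.Lt.q R0Q007.q99_13) (q_cons (Vale.Agent.P032.Lt.q R0Q007.q99_14) (q_cons (Vale.Agent.P032.Lt.q R0Q007.q99_15) (q_cons (Vale.Agent.P032.Lt.q R0Q007.q99_16) (q_cons (Vale.Agent.P032.Lt.q R0Q007.q99_17) (q_cons (Vale.Agent.P032.Lt.q R0Q007.q99_18) (q_cons (Vale.Agent.P032.Lt.q R0Q007.q99_19) (q_cons (Vale.Agent.P032.Lt.q R0Q007.q99_20) (q_cons (Vale.Agent.P032.Lt.q R0Q007.q99_21) (q_cons (Vale.Agent.P032.Lt.q R0Q007.q99_22) (q_cons (Vale.Agent.P032.Lt.q R0Q007.q99_23) (q_cons (Vale.Agent.P032.Lt.q R0Q007.q99_24) (q_cons (Vale.Agent.P032.Lt.q R0Q007.q99_25) (q_cons (Vale.Agent.P032.Lt.q R0Q007.q99_26) (q_cons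 (Vale.Agent.P032.Lt.q R0Q007.q99_27) (q_cons (Vale.Agent.P032.Lt.q R0Q007.q99_28) (q_cons (Vale.Agent.P032.Lt.q R0Q007.q99_29) (q_cons (Vale.Agent.P032.Lt.q R0Q007.q99_30) (q_cons (Vale.Agent.P032.Lt.q R0Q007.q99_31) (q_cons (Vale.Agent.P032.Lt.q R0Q007.q99_32) q_nil))))))))))))))))))))))))))))))))))

def C100 : List ℕ := [0, 4, 8, 12, 16, 20, 24, 84993, 87041, 90113, 222209, 347137, 349185, 611329, 745473, 9115511514130, 9115513349138, 9169895123994, 22165426882598, 22165435271206, 22165502380070, 22285669189670, 22285736298534]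
theorem p100 : Pat 73 73 TBm TCm (C100.map Fm) R0Q007.P100 R0Q007.I100 := Vale.Agent.P032.Lt.pat_eq (E' := R0Q007.E100) (by decide +kernel) (pat_step (by decide +kernel) (q_cons (Vale.Agent.P032.Lt.q R0Q007.q100_0) (q_cons (Vale.Agent.P032.Lt.q R0Q007.q100_1) (q_cons (Vale.Agent.P032.Lt.q R0Q007.q100_2) (q_cons (Vale.Agent.P032.Lt.q R0Q007.q100_3) (q_cons (Vale.Agent.P032.Lt.q R0Q007.q100_4) (q_cons (Vale.Agent.P032.Lt.q R0Q007.q100_5) (q_cons (Vale.Agent.P032.Lt.q R0Q007.q100_6) (q_cons (Vale.Agent.P032.Lt.q R0Q007.q100_7) (q_cons (Vale.Agent.P032.Lt.q R0Q007.q100_8) (q_cons (Vale.Agent.P032.Lt.q R0Q007.q100_9) (q_cons (Vale.Agent.P032.Lt.q R0Q007.q100_10) (q_cons (Vale.Agent.P032.Lt.q R0Q007.q100_11) (q_cons (Vale.Agent.P032.Lt.q R0Q007.q100_12) (q_cons (Vale.Agent.P032.Lt.q R0Q007.q100_13) (q_cons (Vale.Agent.P032.Lt.q R0Q007.q100_14) (q_cons (Vale.Agent.P032.Lt.q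 R0Q007.q100_15) (q_cons (Vale.Agent.P032.Lt.q R0Q007.q100_16) (q_cons (Vale.Agent.P032.Lt.q R0Q007.q100_17) q_nil)))))))))))))))))))

def C101 : List ℕ := [0, 4, 8, 12, 16, 20, 24, 89089, 216065, 606209, 9049653593122, 9170004952098, 13921063365658, 13924824212498, 17963948655650]
theorem p101 : Pat 73 73 TBm TCm (C101.map Fm) R0Q007.P101 R0Q007.I101 := Vale.Agent.P032.Lt.pat_eq (E' := R0Q007.E101) (by decide +kernel) (pat_step (by decide +kernel) (q_cons (Vale.Agent.P032.Lt.q R0Q007.q101_0) (q_cons (Vale.Agent.P032.Lt.q R0Q007.q101_1) (q_cons (Vale.Agent.P032.Lt.q R0Q007.q101_2) (q_cons (Vale.Agent.P032.Lt.q R0Q007.q101_3) q_nil)))))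

def C102 : List ℕ := [0, 4, 8, 12, 16, 20, 24, 606209, 737281]
theorem p102 : Pat 73 73 TBm TCm (C102.map Fm) R0Q007.P102 R0Q007.I102 := Vale.Agent.P032.Lt.pat_eq (E' := R0Q007.E102) (by decide +kernel) (pat_step (by decide +kernel) (q_cons (Vale.Agent.P032.Lt.q R0Q007.q102_0) (q_cons (Vale.Agent.P032.Lt.q R0Q007.q102_1) (q_cons (Vale.Agent.P032.Lt.q R0Q007.q102_2) (q_cons (Vale.Agent.P032.Lt.q R0Q007.q102_3) (q_cons (Vale.Agent.P032.Lt.q R0Q007.q102_4) q_nil))))))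

def C103 : List ℕ := [0, 4, 8, 12, 16, 20, 24, 84993, 212993, 215041, 347137, 606209, 609281, 737281, 18911912223762, 24275583457286, 24275585292294, 24275585554438, 24278402816006, 24278404913158]
theorem p103 : Pat 73 73 TBm TCm (C103.map Fm) R0Q007.P103 R0Q007.I103 := Vale.Agent.P032.Lt.pat_eq (E' := R0Q007.E103) (by decide +kernel) (pat_step (by decide +kernel) (q_cons (Vale.Agent.P032.Lt.q R0Q007.q103_0) (q_cons (Vale.Agent.P032.Lt.q R0Q007.q103_1) (q_cons (Vale.Agent.P032.Lt.q R0Q007.q103_2) (q_cons (Vale.Agent.P032.Lt.q R0Q007.q103_3) (q_cons (Vale.Agent.P032.Lt.q R0Q007.q103_4) (q_cons (Vale.Agent.P032.Lt.q R0Q007.q103_5) (q_cons (Vale.Agent.P032.Lt.q R0Q007.q103_6) (q_cons (Vale.Agent.P032.Lt.q R0Q007.q103_7) q_nil)))))))))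

theorem p104 : Pat 73 73 TBm TCm (CB.map Fm) R0Q007.P104 R0Q007.I104 := Vale.Agent.P032.Lt.pat_eq (E' := R0Q007.E) eB (pat_step (by decide +kernel) (q_cons (Vale.Agent.P032.Lt.q R0Q007.q104_0) (q_cons (Vale.Agent.P032.Lt.q R0Q007.q104_1) (q_cons (Vale.Agent.P032.Lt.q R0Q007.q104_2) (q_cons (Vale.Agent.P032.Lt.q R0Q007.q104_3) (q_cons (Vale.Agent.P032.Lt.q R0Q007.q104_4) (q_cons (Vale.Agent.P032.Lt.q R0Q007.q104_5) (q_cons (Vale.Agent.P032.Lt.q R0Q007.q104_6) (q_cons (Vale.Agent.P032.Lt.q R0Q007.q104_7) (q_cons (Vale.Agent.P032.Lt.q R0Q007.q104_8) (q_cons (Vale.Agent.P032.Lt.q R0Q007.q104_9) (q_cons (Vale.Agent.P032.Lt.q R0Q007.q104_10) (q_cons (Vale.Agent.P032.Lt.q R0Q007.q104_11) (q_cons (Vale.Agent.P032.Lt.q R0Q007.q104_12) (q_cons (Vale.Agent.P032.Lt.q R0Q007.q104_13) (q_cons (Vale.Agent.P032.Lt.q R0Q007.q104_14) (q_cons (Vale.Agent.P032.Lt.q R0Q007.q104_15)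 (q_cons (Vale.Agent.P032.Lt.q R0Q007.q104_16) (q_cons (Vale.Agent.P032.Lt.q R0Q007.q104_17) (q_cons (Vale.Agent.P032.Lt.q R0Q007.q104_18) (q_cons (Vale.Agent.P032.Lt.q R0Q007.q104_19) q_nil)))))))))))))))))))))

def C105 : List ℕ := [0, 4, 8, 12, 16, 20, 24, 81921, 212993, 220161, 351233, 738305, 9587048006690, 9591746937890, 9651910034466, 23188596546570, 23188625906698, 23729695317002]
theorem p105 : Pat 73 73 TBm TCm (C105.map Fm) R0Q008.P105 R0Q008.I105 := Vale.Agent.P032.Lt.pat_eq (E' := R0Q008.E105) (by decide +kernel) (pat_step (by decide +kernel) (q_cons (Vale.Agent.P032.Lt.q R0Q008.q105_0) (q_cons (Vale.Agent.P032.Lt.q R0Q008.q105_1) (q_cons (Vale.Agent.P032.Lt.q R0Q008.q105_2) (q_cons (Vale.Agent.P032.Lt.q R0Q008.q105_3) (q_cons (Vale.Agent.P032.Lt.q R0Q008.q105_4) (q_cons (Vale.Agent.P032.Lt.q R0Q008.q105_5) (q_cons (Vale.Agent.P032.Lt.q R0Q008.q105_6)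 (q_cons (Vale.Agent.P032.Lt.q R0Q008.q105_7) (q_cons (Vale.Agent.P032.Lt.q R0Q008.q105_8) (q_cons (Vale.Agent.P032.Lt.q R0Q008.q105_9) q_nil)))))))))))

theorem p106 : Pat 73 73 TBm TCm (CB.map Fm) R0Q008.P106 R0Q008.I106 := Vale.Agent.P032.Lt.pat_eq (E' := R0Q008.E) eB (pat_step (by decide +kernel) (q_cons (Vale.Agent.P032.Lt.q R0Q008.q106_0) (q_cons (Vale.Agent.P032.Lt.q R0Q008.q106_1) (q_cons (Vale.Agent.P032.Lt.q R0Q008.q106_2) (q_cons (Vale.Agent.P032.Lt.q R0Q008.q106_3) (q_cons (Vale.Agent.P032.Lt.q R0Q008.q106_4) (q_cons (Vale.Agent.P032.Lt.q R0Q008.q106_5) (q_cons (Vale.Agent.P032.Lt.q R0Q008.q106_6) q_nil))))))))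

def C107 : List ℕ := [0, 4, 8, 12, 16, 20, 24, 212993, 344065, 347137, 349185, 355329, 606209, 737281, 9169895123994, 14397490549810]
theorem p107 : Pat 73 73 TBm TCm (C107.map Fm) R0Q008.P107 R0Q008.I107 := Vale.Agent.P032.Lt.pat_eq (E' := R0Q008.E107) (by decide +kernel) (pat_step (by decide +kernel) (q_cons (Vale.Agent.P032.Lt.q R0Q008.q107_0) (q_cons (Vale.Agent.P032.Lt.q R0Q008.q107_1) (q_cons (Vale.Agent.P032.Lt.q R0Q008.q107_2) q_nil))))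

def C108 : List ℕ := [0, 4, 8, 12, 16, 20, 24, 606209, 737281]
theorem p108 : Pat 73 73 TBm TCm (C108.map Fm) R0Q008.P108 R0Q008.I108 := Vale.Agent.P032.Lt.pat_eq (E' := R0Q008.E108) (by decide +kernel) (pat_step (by decide +kernel) (q_cons (Vale.Agent.P032.Lt.q R0Q008.q108_0) (q_cons (Vale.Agent.P032.Lt.q R0Q008.q108_1) (q_cons (Vale.Agent.P032.Lt.q R0Q008.q108_2) (q_cons (Vale.Agent.P032.Lt.q R0Q008.q108_3) (q_cons (Vale.Agent.P032.Lt.q R0Q008.q108_4) (q_cons (Vale.Agent.P032.Lt.q R0Q008.q108_5) (q_cons (Vale.Agent.P032.Lt.q R0Q008.q108_6) (q_cons (Vale.Agent.P032.Lt.q R0Q008.q108_7) q_nil)))))))))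

theorem p109 : Pat 73 73 TBm TCm (CB.map Fm) R0Q008.P109 R0Q008.I109 := Vale.Agent.P032.Lt.pat_eq (E' := R0Q008.E) eB (pat_step (by decide +kernel) (q_cons (Vale.Agent.P032.Lt.q R0Q008.q109_0) (q_cons (Vale.Agent.P032.Lt.q R0Q008.q109_1) (q_cons (Vale.Agent.P032.Lt.q R0Q008.q109_2) (q_cons (Vale.Agent.P032.Lt.q R0Q008.q109_3) (q_cons (Vale.Agent.P032.Lt.q R0Q008.q109_4) (q_cons (Vale.Agent.P032.Lt.q R0Q008.q109_5) (q_cons (Vale.Agent.P032.Lt.q R0Q008.q109_6) (q_cons (Vale.Agent.P032.Lt.q R0Q008.q109_7) (q_cons (Vale.Agent.P032.Lt.q R0Q008.q109_8) q_nil))))))))))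

def C110 : List ℕ := [0, 4, 8, 12, 16, 20, 24, 9169891705890]
theorem p110 : Pat 73 73 TBm TCm (C110.map Fm) R0Q008.P110 R0Q008.I110 := Vale.Agent.P032.Lt.pat_eq (E' := R0Q008.E110) (by decide +kernel) (pat_step (by decide +kernel) (q_cons (Vale.Agent.P032.Lt.q R0Q008.q110_0) (q_cons (Vale.Agent.P032.Lt.q R0Q008.q110_1) (q_cons (Vale.Agent.P032.Lt.q R0Q008.q110_2) (q_cons (Vale.Agent.P032.Lt.q R0Q008.q110_3) (q_cons (Vale.Agent.P032.Lt.q R0Q008.q110_4) (q_cons (Vale.Agent.P032.Lt.q R0Q008.q110_5) (q_cons (Vale.Agent.P032.Lt.q R0Q008.q110_6) (q_cons (Vale.Agent.P032.Lt.q R0Q008.q110_7) (q_cons (Vale.Agent.P032.Lt.q R0Q008.q110_8) (q_cons (Vale.Agent.P032.Lt.q R0Q008.q110_9) q_nil)))))))))))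

theorem p111 : Pat 73 73 TBm TCm (CB.map Fm) R0Q008.P111 R0Q008.I111 := Vale.Agent.P032.Lt.pat_eq (E' := R0Q008.E) eB (pat_step (by decide +kernel) (q_cons (Vale.Agent.P032.Lt.q R0Q008.q111_0) (q_cons (Vale.Agent.P032.Lt.q R0Q008.q111_1) (q_cons (Vale.Agent.P032.Lt.q R0Q008.q111_2) (q_cons (Vale.Agent.P032.Lt.q R0Q008.q111_3) q_nil)))))

def C112 : List ℕ := [0, 4, 8, 12, 16, 20, 24, 212993, 349185, 355329, 606209, 737281, 9169896959002]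
theorem p112 : Pat 73 73 TBm TCm (C112.map Fm) R0Q008.P112 R0Q008.I112 := Vale.Agent.P032.Lt.pat_eq (E' := R0Q008.E112) (by decide +kernel) (pat_step (by decide +kernel) (q_cons (Vale.Agent.P032.Lt.q R0Q008.q112_0) (q_cons (Vale.Agent.P032.Lt.q R0Q008.q112_1) (q_cons (Vale.Agent.P032.Lt.q R0Q008.q112_2) (q_cons (Vale.Agent.P032.Lt.q R0Q008.q112_3) q_nil)))))

def C113 : List ℕ := [0, 4, 8, 12, 16, 20, 24, 351233, 482305, 606209, 737281, 9170004952098]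
theorem p113 : Pat 73 73 TBm TCm (C113.map Fm) R0Q008.P113 R0Q008.I113 := Vale.Agent.P032.Lt.pat_eq (E' := R0Q008.E113) (by decide +kernel) (pat_step (by decide +kernel) (q_cons (Vale.Agent.P032.Lt.q R0Q008.q113_0) q_nil))

def C114 : List ℕ := [0, 4, 8, 12, 16, 20, 24, 218113, 222209]
theorem p114 : Pat 73 73 TBm TCm (C114.map Fm) R0Q008.P114 R0Q008.I114 := Vale.Agent.P032.Lt.pat_eq (E' := R0Q008.E114) (by decide +kernel) (pat_step (by decide +kernel) (q_cons (Vale.Agent.P032.Lt.q R0Q008.q114_0) (q_cons (Vale.Agent.P032.Lt.q R0Q008.q114_1) (q_cons (Vale.Agent.P032.Lt.q R0Q008.q114_2) (q_cons (Vale.Agent.P032.Lt.q R0Q008.q114_3) (q_cons (Vale.Agent.P032.Lt.q R0Q008.q114_4) (q_cons (Vale.Agent.P032.Lt.q R0Q008.q114_5) (q_cons (Vale.Agent.P032.Lt.q R0Q008.q114_6) (q_cons (Vale.Agent.P032.Lt.q R0Q008.q114_7) (q_cons (Vale.Agent.P032.Lt.q R0Q008.q114_8) (q_cons (Vale.Agent.P032.Lt.q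 R0Q008.q114_9) (q_cons (Vale.Agent.P032.Lt.q R0Q008.q114_10) (q_cons (Vale.Agent.P032.Lt.q R0Q008.q114_11) (q_cons (Vale.Agent.P032.Lt.q R0Q008.q114_12) q_nil))))))))))))))

def C115 : List ℕ := [0, 4, 8, 12, 16, 20, 24, 89089, 9177407898658, 9177521144866]
theorem p115 : Pat 73 73 TBm TCm (C115.map Fm) R0Q008.P115 R0Q008.I115 := Vale.Agent.P032.Lt.pat_eq (E' := R0Q008.E115) (by decide +kernel) (pat_step (by decide +kernel) (q_cons (Vale.Agent.P032.Lt.q R0Q008.q115_0) (q_cons (Vale.Agent.P032.Lt.q R0Q008.q115_1) (q_cons (Vale.Agent.P032.Lt.q R0Q008.q115_2) (q_cons (Vale.Agent.P032.Lt.q R0Q008.q115_3) (q_cons (Vale.Agent.P032.Lt.q R0Q008.q115_4) (q_cons (Vale.Agent.P032.Lt.q R0Q008.q115_5) (q_cons (Vale.Agent.P032.Lt.q R0Q008.q115_6) (q_cons (Vale.Agent.P032.Lt.q R0Q008.q115_7) (q_cons (Vale.Agent.P032.Lt.q R0Q008.q115_8) (q_cons (Vale.Agent.P032.Lt.q R0Q008.q115_9)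 (q_cons (Vale.Agent.P032.Lt.q R0Q008.q115_10) (q_cons (Vale.Agent.P032.Lt.q R0Q008.q115_11) (q_cons (Vale.Agent.P032.Lt.q R0Q008.q115_12) (q_cons (Vale.Agent.P032.Lt.q R0Q008.q115_13) (q_cons (Vale.Agent.P032.Lt.q R0Q008.q115_14) (q_cons (Vale.Agent.P032.Lt.q R0Q008.q115_15) q_nil)))))))))))))))))

def C116 : List ℕ := [0, 4, 8, 12, 16, 20, 24, 82945, 344065, 738305, 22232093907978]
theorem p116 : Pat 73 73 TBm TCm (C116.map Fm) R0Q008.P116 R0Q008.I116 := Vale.Agent.P032.Lt.pat_eq (E' := R0Q008.E116) (by decide +kernel) (pat_step (by decide +kernel) (q_cons (Vale.Agent.P032.Lt.q R0Q008.q116_0) (q_cons (Vale.Agent.P032.Lt.q R0Q008.q116_1) (q_cons (Vale.Agent.P032.Lt.q R0Q008.q116_2) (q_cons (Vale.Agent.P032.Lt.q R0Q008.q116_3) q_nil)))))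

def C117 : List ℕ := [0, 4, 8, 12, 16, 20, 24, 737281, 23729785362438]
theorem p117 : Pat 73 73 TBm TCm (C117.map Fm) R0Q008.P117 R0Q008.I117 := Vale.Agent.P032.Lt.pat_eq (E' := R0Q008.E117) (by decide +kernel) (pat_step (by decide +kernel) (q_cons (Vale.Agent.P032.Lt.q R0Q008.q117_0) (q_cons (Vale.Agent.P032.Lt.q R0Q008.q117_1) (q_cons (Vale.Agent.P032.Lt.q R0Q008.q117_2) (q_cons (Vale.Agent.P032.Lt.q R0Q008.q117_3) (q_cons (Vale.Agent.P032.Lt.q R0Q008.q117_4) (q_cons (Vale.Agent.P032.Lt.q R0Q008.q117_5) (q_cons (Vale.Agent.P032.Lt.q R0Q008.q117_6) q_nil))))))))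

def C118 : List ℕ := [0, 4, 8, 12, 16, 20, 24, 82945, 224257, 344065, 355329, 475137, 476161, 9719542797362, 13487974865930, 14646421837830]
theorem p118 : Pat 73 73 TBm TCm (C118.map Fm) R0Q008.P118 R0Q008.I118 := Vale.Agent.P032.Lt.pat_eq (E' := R0Q008.E118) (by decide +kernel) (pat_step (by decide +kernel) (q_cons (Vale.Agent.P032.Lt.q R0Q008.q118_0) (q_cons (Vale.Agent.P032.Lt.q R0Q008.q118_1) (q_cons (Vale.Agent.P032.Lt.q R0Q008.q118_2) (q_cons (Vale.Agent.P032.Lt.q R0Q008.q118_3) q_nil)))))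

def C119 : List ℕ := [0, 4, 8, 12, 16, 20, 24, 84993, 216065, 476161, 482305, 606209, 609281, 737281, 13367692057610, 14105255822370]
theorem p119 : Pat 73 73 TBm TCm (C119.map Fm) R0Q008.P119 R0Q008.I119 := Vale.Agent.P032.Lt.pat_eq (E' := R0Q008.E119) (by decide +kernel) (pat_step (by decide +kernel) (q_cons (Vale.Agent.P032.Lt.q R0Q008.q119_0) (q_cons (Vale.Agent.P032.Lt.q R0Q008.q119_1) (q_cons (Vale.Agent.P032.Lt.q R0Q008.q119_2) (q_cons (Vale.Agent.P032.Lt.q R0Q008.q119_3) (q_cons (Vale.Agent.P032.Lt.q R0Q008.q119_4) (q_cons (Vale.Agent.P032.Lt.q R0Q008.q119_5) (q_cons (Vale.Agent.P032.Lt.q R0Q008.q119_6) (q_cons (Vale.Agent.P032.Lt.q R0Q008.q119_7) (q_cons (Vale.Agent.P032.Lt.q R0Q008.q119_8) (q_cons (Vale.Agent.P032.Lt.q R0Q008.q119_9) (q_cons (Vale.Agent.P032.Lt.q R0Q008.q119_10) q_nil))))))))))))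

def C120 : List ℕ := [0, 4, 8, 12, 16, 20, 24, 87041, 93185, 218113, 224257, 344065, 349185, 355329, 476161, 607233, 613377, 742401, 9042163624986, 9046884576282, 9046886411290, 9115410584626, 9115412419634, 9719540700210, 9719542797362, 14397447957530, 14405878503430, 14405945612294, 14409704757254, 14646421837830, 14646488946694, 14650180982790, 19603393829898, 22840908147738, 22840987839514, 24404322380826]
theorem p120 : Pat 73 73 TBm TCm (C120.map Fm) R0Q009.P120 R0Q009.I120 := Vale.Agent.P032.Lt.pat_eq (E' := R0Q009.E120) (by decide +kernel) (pat_step (by decide +kernel) (q_cons (Vale.Agent.P032.Lt.q R0Q009.q120_0) (q_cons (Vale.Agent.P032.Lt.q R0Q009.q120_1) (q_cons (Vale.Agent.P032.Lt.q R0Q009.q120_2) (q_cons (Vale.Agent.P032.Lt.q R0Q009.q120_3) (q_cons (Vale.Agent.P032.Lt.q R0Q009.q120_4) (q_cons (Vale.Agent.P032.Lt.q R0Q009.q120_5) (q_cons (Vale.Agent.P032.Lt.q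 R0Q009.q120_6) (q_cons (Vale.Agent.P032.Lt.q R0Q009.q120_7) (q_cons (Vale.Agent.P032.Lt.q R0Q009.q120_8) (q_cons (Vale.Agent.P032.Lt.q R0Q009.q120_9) (q_cons (Vale.Agent.P032.Lt.q R0Q009.q120_10) (q_cons (Vale.Agent.P032.Lt.q R0Q009.q120_11) (q_cons (Vale.Agent.P032.Lt.q R0Q009.q120_12) (q_cons (Vale.Agent.P032.Lt.q R0Q009.q120_13) (q_cons (Vale.Agent.P032.Lt.q R0Q009.q120_14) (q_cons (Vale.Agent.P032.Lt.q R0Q009.q120_15) (q_cons (Vale.Agent.P032.Lt.q R0Q009.q120_16) (q_cons (Vale.Agent.P032.Lt.q R0Q009.q120_17) (q_cons (Vale.Agent.P032.Lt.q R0Q009.q120_18) (q_cons (Vale.Agent.P032.Lt.q R0Q009.q120_19) (q_cons (Vale.Agent.P032.Lt.q R0Q009.q120_20) (q_cons (Vale.Agent.P032.Lt.q R0Q009.q120_21) (q_cons (Vale.Agent.P032.Lt.q R0Q009.q120_22) (q_cons (Vale.Agent.P032.Lt.q R0Q009.q120_23) (q_cons (Vale.Agent.P032.Lt.q R0Q009.q120_24) (q_cons (Vale.Agent.P032.Lt.q R0Q009.q120_25)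 (q_cons (Vale.Agent.P032.Lt.q R0Q009.q120_26) (q_cons (Vale.Agent.P032.Lt.q R0Q009.q120_27) (q_cons (Vale.Agent.P032.Lt.q R0Q009.q120_28) (q_cons (Vale.Agent.P032.Lt.q R0Q009.q120_29) (q_cons (Vale.Agent.P032.Lt.q R0Q009.q120_30) (q_cons (Vale.Agent.P032.Lt.q R0Q009.q120_31) (q_cons (Vale.Agent.P032.Lt.q R0Q009.q120_32) (q_cons (Vale.Agent.P032.Lt.q R0Q009.q120_33) (q_cons (Vale.Agent.P032.Lt.q R0Q009.q120_34) (q_cons (Vale.Agent.P032.Lt.q R0Q009.q120_35) (q_cons (Vale.Agent.P032.Lt.q R0Q009.q120_36) (q_cons (Vale.Agent.P032.Lt.q R0Q009.q120_37) (q_cons (Vale.Agent.P032.Lt.q R0Q009.q120_38) (q_cons (Vale.Agent.P032.Lt.q R0Q009.q120_39) (q_cons (Vale.Agent.P032.Lt.q R0Q009.q120_40) (q_cons (Vale.Agent.P032.Lt.q R0Q009.q120_41) (q_cons (Vale.Agent.P032.Lt.q R0Q009.q120_42) (q_cons (Vale.Agent.P032.Lt.q R0Q009.q120_43) (q_cons (Vale.Agent.P032.Lt.q R0Q009.q120_44)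 q_nil))))))))))))))))))))))))))))))))))))))))))))))

def C121 : List ℕ := [0, 4, 8, 12, 16, 20, 24, 344065, 475137, 737281]
theorem p121 : Pat 73 73 TBm TCm (C121.map Fm) R0Q009.P121 R0Q009.I121 := Vale.Agent.P032.Lt.pat_eq (E' := R0Q009.E121) (by decide +kernel) (pat_step (by decide +kernel) (q_cons (Vale.Agent.P032.Lt.q R0Q009.q121_0) (q_cons (Vale.Agent.P032.Lt.q R0Q009.q121_1) (q_cons (Vale.Agent.P032.Lt.q R0Q009.q121_2) (q_cons (Vale.Agent.P032.Lt.q R0Q009.q121_3) (q_cons (Vale.Agent.P032.Lt.q R0Q009.q121_4) q_nil))))))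

theorem p122 : Pat 73 73 TBm TCm (CB.map Fm) R0Q009.P122 R0Q009.I122 := Vale.Agent.P032.Lt.pat_eq (E' := R0Q009.E) eB (pat_step (by decide +kernel) (q_cons (Vale.Agent.P032.Lt.q R0Q009.q122_0) q_nil))

def C123 : List ℕ := [0, 4, 8, 12, 16, 20, 24, 90113, 92161, 214017, 344065, 349185, 354305, 475137, 476161, 606209, 607233, 611329, 738305, 9098569797678, 9102244003870, 9587086552090, 14402191972358, 14409716553734, 14409718519814, 18325621922826, 18806689323014, 22715120442378, 23729727167498, 24278408846346]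
theorem p123 : Pat 73 73 TBm TCm (C123.map Fm) R0Q009.P123 R0Q009.I123 := Vale.Agent.P032.Lt.pat_eq (E' := R0Q009.E123) (by decide +kernel) (pat_step (by decide +kernel) (q_cons (Vale.Agent.P032.Lt.q R0Q009.q123_0) (q_cons (Vale.Agent.P032.Lt.q R0Q009.q123_1) (q_cons (Vale.Agent.P032.Lt.q R0Q009.q123_2) q_nil))))

theorem p124 : Pat 73 73 TBm TCm (CB.map Fm) R0Q009.P124 R0Q009.I124 := Vale.Agent.P032.Lt.pat_eq (E' := R0Q009.E) eB (pat_step (by decide +kernel) (q_cons (Vale.Agent.P032.Lt.q R0Q009.q124_0) (q_cons (Vale.Agent.P032.Lt.q R0Q009.q124_1) (q_cons (Vale.Agent.P032.Lt.q R0Q009.q124_2) (q_cons (Vale.Agent.P032.Lt.q R0Q009.q124_3) (q_cons (Vale.Agent.P032.Lt.q R0Q009.q124_4) (q_cons (Vale.Agent.P032.Lt.q R0Q009.q124_5) (q_cons (Vale.Agent.P032.Lt.q R0Q009.q124_6) (q_cons (Vale.Agent.P032.Lt.q R0Q009.q124_7) (q_cons (Vale.Agent.P032.Lt.q R0Q009.q124_8) (q_cons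 (Vale.Agent.P032.Lt.q R0Q009.q124_9) (q_cons (Vale.Agent.P032.Lt.q R0Q009.q124_10) (q_cons (Vale.Agent.P032.Lt.q R0Q009.q124_11) (q_cons (Vale.Agent.P032.Lt.q R0Q009.q124_12) (q_cons (Vale.Agent.P032.Lt.q R0Q009.q124_13) (q_cons (Vale.Agent.P032.Lt.q R0Q009.q124_14) (q_cons (Vale.Agent.P032.Lt.q R0Q009.q124_15) (q_cons (Vale.Agent.P032.Lt.q R0Q009.q124_16) q_nil))))))))))))))))))

def C125 : List ℕ := [0, 4, 8, 12, 16, 20, 24, 212993, 344065, 347137, 475137, 611329, 737281, 18310634892314]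
theorem p125 : Pat 73 73 TBm TCm (C125.map Fm) R0Q009.P125 R0Q009.I125 := Vale.Agent.P032.Lt.pat_eq (E' := R0Q009.E125) (by decide +kernel) (pat_step (by decide +kernel) (q_cons (Vale.Agent.P032.Lt.q R0Q009.q125_0) (q_cons (Vale.Agent.P032.Lt.q R0Q009.q125_1) (q_cons (Vale.Agent.P032.Lt.q R0Q009.q125_2) (q_cons (Vale.Agent.P032.Lt.q R0Q009.q125_3) (q_cons (Vale.Agent.P032.Lt.q R0Q009.q125_4) (q_cons (Vale.Agent.P032.Lt.q R0Q009.q125_5) q_nil)))))))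

def C126 : List ℕ := [0, 4, 8, 12, 16, 20, 24, 84993, 347137, 475137, 9115398267922]
theorem p126 : Pat 73 73 TBm TCm (C126.map Fm) R0Q009.P126 R0Q009.I126 := Vale.Agent.P032.Lt.pat_eq (E' := R0Q009.E126) (by decide +kernel) (pat_step (by decide +kernel) (q_cons (Vale.Agent.P032.Lt.q R0Q009.q126_0) (q_cons (Vale.Agent.P032.Lt.q R0Q009.q126_1) (q_cons (Vale.Agent.P032.Lt.q R0Q009.q126_2) (q_cons (Vale.Agent.P032.Lt.q R0Q009.q126_3) (q_cons (Vale.Agent.P032.Lt.q R0Q009.q126_4) (q_cons (Vale.Agent.P032.Lt.q R0Q009.q126_5) q_nil)))))))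

def C127 : List ℕ := [0, 4, 8, 12, 16, 20, 24, 89089, 9117299328034, 9177521144866, 13574378832930]
theorem p127 : Pat 73 73 TBm TCm (C127.map Fm) R0Q009.P127 R0Q009.I127 := Vale.Agent.P032.Lt.pat_eq (E' := R0Q009.E127) (by decide +kernel) (pat_step (by decide +kernel) (q_cons (Vale.Agent.P032.Lt.q R0Q009.q127_0) (q_cons (Vale.Agent.P032.Lt.q R0Q009.q127_1) (q_cons (Vale.Agent.P032.Lt.q R0Q009.q127_2) (q_cons (Vale.Agent.P032.Lt.q R0Q009.q127_3) (q_cons (Vale.Agent.P032.Lt.q R0Q009.q127_4) (q_cons (Vale.Agent.P032.Lt.q R0Q009.q127_5) (q_cons (Vale.Agent.P032.Lt.q R0Q009.q127_6) (q_cons (Vale.Agent.P032.Lt.q R0Q009.q127_7) (q_cons (Vale.Agent.P032.Lt.q R0Q009.q127_8) (q_cons (Vale.Agent.P032.Lt.q R0Q009.q127_9) (q_cons (Vale.Agent.P032.Lt.q R0Q009.q127_10) (q_cons (Vale.Agent.P032.Lt.q R0Q009.q127_11) (q_cons (Vale.Agent.P032.Lt.q R0Q009.q127_12) (q_cons (Vale.Agent.P032.Lt.q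 R0Q009.q127_13) (q_cons (Vale.Agent.P032.Lt.q R0Q009.q127_14) (q_cons (Vale.Agent.P032.Lt.q R0Q009.q127_15) (q_cons (Vale.Agent.P032.Lt.q R0Q009.q127_16) (q_cons (Vale.Agent.P032.Lt.q R0Q009.q127_17) (q_cons (Vale.Agent.P032.Lt.q R0Q009.q127_18) (q_cons (Vale.Agent.P032.Lt.q R0Q009.q127_19) (q_cons (Vale.Agent.P032.Lt.q R0Q009.q127_20) q_nil))))))))))))))))))))))

def L : List (List ℕ) := [R0Q000.P0, R0Q000.P1, R0Q000.P2, R0Q000.P3, R0Q000.P4, R0Q000.P5, R0Q000.P6, R0Q000.P7, R0Q000.P8, R0Q000.P9, R0Q000.P10, R0Q000.P11, R0Q000.P12, R0Q000.P13, R0Q000.P14, R0Q000.P15, R0Q000.P16, R0Q000.P17, R0Q001.P18, R0Q001.P19, R0Q001.P20, R0Q001.P21, R0Q001.P22, R0Q001.P23, R0Q001.P24, R0Q001.P25, R0Q001.P26, R0Q001.P27, R0Q001.P28, R0Q001.P29, R0Q001.P30, R0Q001.P31, R0Q001.P32, R0Q001.P33, R0Q001.P34, R0Q001.P35, R0Q002.P36, R0Q002.P37, R0Q002.P38, R0Q002.P39, R0Q002.P40,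 R0Q002.P41, R0Q002.P42, R0Q002.P43, R0Q002.P44, R0Q002.P45, R0Q002.P46, R0Q003.P47, R0Q003.P48, R0Q003.P49, R0Q003.P50, R0Q003.P51, R0Q003.P52, R0Q003.P53, R0Q003.P54, R0Q003.P55, R0Q003.P56, R0Q003.P57, R0Q003.P58, R0Q003.P59, R0Q004.P60, R0Q004.P61, R0Q004.P62, R0Q004.P63, R0Q004.P64, R0Q004.P65, R0Q004.P66, R0Q004.P67, R0Q004.P68, R0Q004.P69, R0Q004.P70, R0Q004.P71, R0Q004.P72, R0Q004.P73, R0Q005.P74, R0Q005.P75, R0Q005.P76, R0Q005.P77, R0Q005.P78, R0Q005.P79, R0Q005.P80, R0Q005.P81, R0Q005.P82, R0Q005.P83, R0Q005.P84, R0Q005.P85, R0Q005.P86, R0Q006.P87, R0Q006.P88, R0Q006.P89, R0Q006.P90, R0Q006.P91, R0Q006.P92, R0Q006.P93, R0Q006.P94, R0Q006.P95, R0Q007.P96, R0Q007.P97, R0Q007.P98, R0Q007.P99, R0Q007.P100, R0Q007.P101, R0Q007.P102, R0Q007.P103, R0Q007.P104, R0Q008.P105, R0Q008.P106, R0Q008.P107, R0Q008.P108, R0Q008.P109, R0Q008.P110, R0Q008.P111, R0Q008.P112,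 R0Q008.P113, R0Q008.P114, R0Q008.P115, R0Q008.P116, R0Q008.P117, R0Q008.P118, R0Q008.P119, R0Q009.P120, R0Q009.P121, R0Q009.P122, R0Q009.P123, R0Q009.P124, R0Q009.P125, R0Q009.P126, R0Q009.P127]

theorem all : ∀ P ∈ L, CrtF 73 73 TBm TCm (Vale.Agent.P032.Fam.fam3 (Vale.Agent.P032.Fam.im0)) P := crtF_cons p0 (crtF_cons p1 (crtF_cons p2 (crtF_cons p3 (crtF_cons p4 (crtF_cons p5 (crtF_cons p6 (crtF_cons p7 (crtF_cons p8 (crtF_cons p9 (crtF_cons p10 (crtF_cons p11 (crtF_cons p12 (crtF_cons p13 (crtF_cons p14 (crtF_cons p15 (crtF_cons p16 (crtF_cons p17 (crtF_cons p18 (crtF_cons p19 (crtF_cons p20 (crtF_cons p21 (crtF_cons p22 (crtF_cons p23 (crtF_cons p24 (crtF_cons p25 (crtF_cons p26 (crtF_cons p27 (crtF_cons p28 (crtF_cons p29 (crtF_cons p30 (crtF_cons p31 (crtF_cons p32 (crtF_cons p33 (crtF_cons p34 (crtF_cons p35 (crtF_cons p36 (crtF_cons p37 (crtF_cons p38 (crtF_cons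 p39 (crtF_cons p40 (crtF_cons p41 (crtF_cons p42 (crtF_cons p43 (crtF_cons p44 (crtF_cons p45 (crtF_cons p46 (crtF_cons p47 (crtF_cons p48 (crtF_cons p49 (crtF_cons p50 (crtF_cons p51 (crtF_cons p52 (crtF_cons p53 (crtF_cons p54 (crtF_cons p55 (crtF_cons p56 (crtF_cons p57 (crtF_cons p58 (crtF_cons p59 (crtF_cons p60 (crtF_cons p61 (crtF_cons p62 (crtF_cons p63 (crtF_cons p64 (crtF_cons p65 (crtF_cons p66 (crtF_cons p67 (crtF_cons p68 (crtF_cons p69 (crtF_cons p70 (crtF_cons p71 (crtF_cons p72 (crtF_cons p73 (crtF_cons p74 (crtF_cons p75 (crtF_cons p76 (crtF_cons p77 (crtF_cons p78 (crtF_cons p79 (crtF_cons p80 (crtF_cons p81 (crtF_cons p82 (crtF_cons p83 (crtF_cons p84 (crtF_cons p85 (crtF_cons p86 (crtF_cons p87 (crtF_cons p88 (crtF_cons p89 (crtF_cons p90 (crtF_cons p91 (crtF_cons p92 (crtF_cons p93 (crtF_cons p94 (crtF_cons p95 (crtF_cons p96 (crtF_cons p97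 (crtF_cons p98 (crtF_cons p99 (crtF_cons p100 (crtF_cons p101 (crtF_cons p102 (crtF_cons p103 (crtF_cons p104 (crtF_cons p105 (crtF_cons p106 (crtF_cons p107 (crtF_cons p108 (crtF_cons p109 (crtF_cons p110 (crtF_cons p111 (crtF_cons p112 (crtF_cons p113 (crtF_cons p114 (crtF_cons p115 (crtF_cons p116 (crtF_cons p117 (crtF_cons p118 (crtF_cons p119 (crtF_cons p120 (crtF_cons p121 (crtF_cons p122 (crtF_cons p123 (crtF_cons p124 (crtF_cons p125 (crtF_cons p126 (crtF_cons p127 crtF_nil)))))))))))))))))))))))))))))))))))))))))))))))))))))))))))))))))))))))))))))))))))))))))))))))))))))))))))))))))))))))))))))))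

theorem ch : chT 73 73 TCm s0_000 L = true := by decide +kernel

end Vale.Agent.P032X.Cert.X3.A2.R0H000
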