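import Vale.Agent.P032X.H892.LtH
import Vale.Agent.P032X.H286.W73
import Vale.Agent.P032X.Cert.X3.A2.R0T
import Vale.Agent.P032X.Cert.X3.A2.R0Q010
import Vale.Agent.P032X.Cert.X3.A2.R0Q011
import Vale.Agent.P032X.Cert.X3.A2.R0Q012
import Vale.Agent.P032X.Cert.X3.A2.R0Q013
import Vale.Agent.P032X.Cert.X3.A2.R0Q014
import Vale.Agent.P032X.Cert.X3.A2.R0Q015
import Vale.Agent.P032X.Cert.X3.A2.R0Q016
import Vale.Agent.P032X.Cert.X3.A2.R0Q017
import Vale.Agent.P032X.Cert.X3.A2.R0Q018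

set_option maxRecDepth 1000000

namespace Vale.Agent.P032X.Cert.X3.A2.R0H001

open Vale.Agent.P032.H820.K Vale.Agent.P032.H357.MK Vale.Agent.P032.H286.E Vale.Agent.P032.H61 Vale.Agent.P032X.Cert.X3.A2

noncomputable abbrev Fm : ℕ → List ℕ := Vale.Agent.P032.Fam.fam3 (Vale.Agent.P032.Fam.im0)

def CB : List ℕ := [0, 4, 8, 12, 16, 20, 24]

theorem eB : Vale.Agent.P032.Lt.eqLL (CB.map Fm) R0Q010.E = true := by decide +kernel

theorem p128 : Pat 73 73 TBm TCm (CB.map Fm) R0Q010.P128 R0Q010.I128 := Vale.Agent.P032.Lt.pat_eq (E' := R0Q010.E) eB (pat_step (by decide +kernel) (q_cons (Vale.Agent.P032.Lt.q R0Q010.q128_0) (q_cons (Vale.Agent.P032.Lt.q R0Q010.q128_1) (q_cons (Vale.Agent.P032.Lt.q R0Q010.q128_2) q_nil))))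

def C129 : List ℕ := [0, 4, 8, 12, 16, 20, 24, 344065, 475137, 13556574807058, 13556576642066]
theorem p129 : Pat 73 73 TBm TCm (C129.map Fm) R0Q010.P129 R0Q010.I129 := Vale.Agent.P032.Lt.pat_eq (E' := R0Q010.E129) (by decide +kernel) (pat_step (by decide +kernel) (q_cons (Vale.Agent.P032.Lt.q R0Q010.q129_0) (q_cons (Vale.Agent.P032.Lt.q R0Q010.q129_1) (q_cons (Vale.Agent.P032.Lt.q R0Q010.q129_2) (q_cons (Vale.Agent.P032.Lt.q R0Q010.q129_3) (q_cons (Vale.Agent.P032.Lt.q R0Q010.q129_4) q_nil))))))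

theorem p130 : Pat 73 73 TBm TCm (CB.map Fm) R0Q010.P130 R0Q010.I130 := Vale.Agent.P032.Lt.pat_eq (E' := R0Q010.E) eB (pat_step (by decide +kernel) (q_cons (Vale.Agent.P032.Lt.q R0Q010.q130_0) (q_cons (Vale.Agent.P032.Lt.q R0Q010.q130_1) (q_cons (Vale.Agent.P032.Lt.q R0Q010.q130_2) (q_cons (Vale.Agent.P032.Lt.q R0Q010.q130_3) (q_cons (Vale.Agent.P032.Lt.q R0Q010.q130_4) (q_cons (Vale.Agent.P032.Lt.q R0Q010.q130_5) (q_cons (Vale.Agent.P032.Lt.q R0Q010.q130_6) (q_cons (Vale.Agent.P032.Lt.q R0Q010.q130_7) q_nil)))))))))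

def C131 : List ℕ := [0, 4, 8, 12, 16, 20, 24, 87041, 89089, 218113, 349185, 475137, 611329, 9169958038554, 9169959873562, 9177407898658, 9647235886106, 19061267328026, 23789868767238]
theorem p131 : Pat 73 73 TBm TCm (C131.map Fm) R0Q010.P131 R0Q010.I131 := Vale.Agent.P032.Lt.pat_eq (E' := R0Q010.E131) (by decide +kernel) (pat_step (by decide +kernel) (q_cons (Vale.Agent.P032.Lt.q R0Q010.q131_0) (q_cons (Vale.Agent.P032.Lt.q R0Q010.q131_1) (q_cons (Vale.Agent.P032.Lt.q R0Q010.q131_2) (q_cons (Vale.Agent.P032.Lt.q R0Q010.q131_3) q_nil)))))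

def C132 : List ℕ := [0, 4, 8, 12, 16, 20, 24, 84993, 90113, 347137, 355329, 737281, 741377, 745473, 9115511514130, 9169896959002, 9664149408810, 18941976597554, 22165393328166, 22165426882598, 22165460437030, 22165493991462, 22712205797398, 23373660121110, 24275585816582]
theorem p132 : Pat 73 73 TBm TCm (C132.map Fm) R0Q010.P132 R0Q010.I132 := Vale.Agent.P032.Lt.pat_eq (E' := R0Q010.E132) (by decide +kernel) (pat_step (by decide +kernel) (q_cons (Vale.Agent.P032.Lt.q R0Q010.q132_0) (q_cons (Vale.Agent.P032.Lt.q R0Q010.q132_1) (q_cons (Vale.Agent.P032.Lt.q R0Q010.q132_2) (q_cons (Vale.Agent.P032.Lt.q R0Q010.q132_3) (q_cons (Vale.Agent.P032.Lt.q R0Q010.q132_4) (q_cons (Vale.Agent.P032.Lt.q R0Q010.q132_5) (q_cons (Vale.Agent.P032.Lt.q R0Q010.q132_6) (q_cons (Vale.Agent.P032.Lt.q R0Q010.q132_7) q_nil)))))))))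

def C133 : List ℕ := [0, 4, 8, 12, 16, 20, 24, 82945, 475137, 737281, 14109048263730, 23812413151238, 23812480260102, 23932647069702, 23932655458310, 23932705789958]
theorem p133 : Pat 73 73 TBm TCm (C133.map Fm) R0Q010.P133 R0Q010.I133 := Vale.Agent.P032.Lt.pat_eq (E' := R0Q010.E133) (by decide +kernel) (pat_step (by decide +kernel) (q_cons (Vale.Agent.P032.Lt.q R0Q010.q133_0) (q_cons (Vale.Agent.P032.Lt.q R0Q010.q133_1) (q_cons (Vale.Agent.P032.Lt.q R0Q010.q133_2) (q_cons (Vale.Agent.P032.Lt.q R0Q010.q133_3) (q_cons (Vale.Agent.P032.Lt.q R0Q010.q133_4) (q_cons (Vale.Agent.P032.Lt.q R0Q010.q133_5) (q_cons (Vale.Agent.P032.Lt.q R0Q010.q133_6) (q_cons (Vale.Agent.P032.Lt.q R0Q010.q133_7) (q_cons (Vale.Agent.P032.Lt.q R0Q010.q133_8) (q_cons (Vale.Agent.P032.Lt.q R0Q010.q133_9) (q_cons (Vale.Agent.P032.Lt.q R0Q010.q133_10) (q_cons (Vale.Agent.P032.Lt.q R0Q010.q133_11) (q_cons (Vale.Agent.P032.Lt.q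 R0Q010.q133_12) (q_cons (Vale.Agent.P032.Lt.q R0Q010.q133_13) (q_cons (Vale.Agent.P032.Lt.q R0Q010.q133_14) q_nil))))))))))))))))

def C134 : List ℕ := [0, 4, 8, 12, 16, 20, 24, 89089, 355329, 9177407898658]
theorem p134 : Pat 73 73 TBm TCm (C134.map Fm) R0Q010.P134 R0Q010.I134 := Vale.Agent.P032.Lt.pat_eq (E' := R0Q010.E134) (by decide +kernel) (pat_step (by decide +kernel) (q_cons (Vale.Agent.P032.Lt.q R0Q010.q134_0) (q_cons (Vale.Agent.P032.Lt.q R0Q010.q134_1) (q_cons (Vale.Agent.P032.Lt.q R0Q010.q134_2) (q_cons (Vale.Agent.P032.Lt.q R0Q010.q134_3) q_nil)))))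

def C135 : List ℕ := [0, 4, 8, 12, 16, 20, 24, 89089, 737281, 9177407898658, 13574378832930]
theorem p135 : Pat 73 73 TBm TCm (C135.map Fm) R0Q010.P135 R0Q010.I135 := Vale.Agent.P032.Lt.pat_eq (E' := R0Q010.E135) (by decide +kernel) (pat_step (by decide +kernel) (q_cons (Vale.Agent.P032.Lt.q R0Q010.q135_0) (q_cons (Vale.Agent.P032.Lt.q R0Q010.q135_1) (q_cons (Vale.Agent.P032.Lt.q R0Q010.q135_2) (q_cons (Vale.Agent.P032.Lt.q R0Q010.q135_3) (q_cons (Vale.Agent.P032.Lt.q R0Q010.q135_4) (q_cons (Vale.Agent.P032.Lt.q R0Q010.q135_5) (q_cons (Vale.Agent.P032.Lt.q R0Q010.q135_6) (q_cons (Vale.Agent.P032.Lt.q R0Q010.q135_7) q_nil)))))))))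

def C136 : List ℕ := [0, 4, 8, 12, 16, 20, 24, 475137, 737281, 23729722447878, 23729776973830, 23729785362438, 23789931681798]
theorem p136 : Pat 73 73 TBm TCm (C136.map Fm) R0Q010.P136 R0Q010.I136 := Vale.Agent.P032.Lt.pat_eq (E' := R0Q010.E136) (by decide +kernel) (pat_step (by decide +kernel) (q_cons (Vale.Agent.P032.Lt.q R0Q010.q136_0) (q_cons (Vale.Agent.P032.Lt.q R0Q010.q136_1) (q_cons (Vale.Agent.P032.Lt.q R0Q010.q136_2) (q_cons (Vale.Agent.P032.Lt.q R0Q010.q136_3) (q_cons (Vale.Agent.P032.Lt.q R0Q010.q136_4) (q_cons (Vale.Agent.P032.Lt.q R0Q010.q136_5) (q_cons (Vale.Agent.P032.Lt.q R0Q010.q136_6) (q_cons (Vale.Agent.P032.Lt.q R0Q010.q136_7) (q_cons (Vale.Agent.P032.Lt.q R0Q010.q136_8) (q_cons (Vale.Agent.P032.Lt.q R0Q010.q136_9) (q_cons (Vale.Agent.P032.Lt.q R0Q010.q136_10) (q_cons (Vale.Agent.P032.Lt.q R0Q010.q136_11) (q_cons (Vale.Agent.P032.Lt.q R0Q010.q136_12) (q_cons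 (Vale.Agent.P032.Lt.q R0Q010.q136_13) (q_cons (Vale.Agent.P032.Lt.q R0Q010.q136_14) q_nil))))))))))))))))

def C137 : List ℕ := [0, 4, 8, 12, 16, 20, 24, 347137, 480257, 606209, 737281]
theorem p137 : Pat 73 73 TBm TCm (C137.map Fm) R0Q010.P137 R0Q010.I137 := Vale.Agent.P032.Lt.pat_eq (E' := R0Q010.E137) (by decide +kernel) (pat_step (by decide +kernel) (q_cons (Vale.Agent.P032.Lt.q R0Q010.q137_0) (q_cons (Vale.Agent.P032.Lt.q R0Q010.q137_1) (q_cons (Vale.Agent.P032.Lt.q R0Q010.q137_2) (q_cons (Vale.Agent.P032.Lt.q R0Q010.q137_3) (q_cons (Vale.Agent.P032.Lt.q R0Q010.q137_4) (q_cons (Vale.Agent.P032.Lt.q R0Q010.q137_5) (q_cons (Vale.Agent.P032.Lt.q R0Q010.q137_6) (q_cons (Vale.Agent.P032.Lt.q R0Q010.q137_7) (q_cons (Vale.Agent.P032.Lt.q R0Q010.q137_8) (q_cons (Vale.Agent.P032.Lt.q R0Q010.q137_9) (q_cons (Vale.Agent.P032.Lt.q R0Q010.q137_10) (q_cons (Vale.Agent.P032.Lt.q R0Q010.q137_11)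 (q_cons (Vale.Agent.P032.Lt.q R0Q010.q137_12) (q_cons (Vale.Agent.P032.Lt.q R0Q010.q137_13) (q_cons (Vale.Agent.P032.Lt.q R0Q010.q137_14) (q_cons (Vale.Agent.P032.Lt.q R0Q010.q137_15) (q_cons (Vale.Agent.P032.Lt.q R0Q010.q137_16) (q_cons (Vale.Agent.P032.Lt.q R0Q010.q137_17) (q_cons (Vale.Agent.P032.Lt.q R0Q010.q137_18) (q_cons (Vale.Agent.P032.Lt.q R0Q010.q137_19) (q_cons (Vale.Agent.P032.Lt.q R0Q010.q137_20) (q_cons (Vale.Agent.P032.Lt.q R0Q010.q137_21) q_nil)))))))))))))))))))))))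

def C138 : List ℕ := [0, 4, 8, 12, 16, 20, 24, 84993, 90113, 347137, 349185, 475137, 609281, 737281, 741377, 745473, 9115400102930, 9115513349138, 9169895123994, 9175624279058, 18786898109458, 18791594419218, 22285669189670, 22285727909926, 22285736298534, 23373656844310, 23373658941462, 23373660121110, 23376476203030, 23376478300182, 23812480260102, 23932647069702]
theorem p138 : Pat 73 73 TBm TCm (C138.map Fm) R0Q010.P138 R0Q010.I138 := Vale.Agent.P032.Lt.pat_eq (E' := R0Q010.E138) (by decide +kernel) (pat_step (by decide +kernel) (q_cons (Vale.Agent.P032.Lt.q R0Q010.q138_0) (q_cons (Vale.Agent.P032.Lt.q R0Q010.q138_1) (q_cons (Vale.Agent.P032.Lt.q R0Q010.q138_2) (q_cons (Vale.Agent.P032.Lt.q R0Q010.q138_3) (q_cons (Vale.Agent.P032.Lt.q R0Q010.q138_4) (q_cons (Vale.Agent.P032.Lt.q R0Q010.q138_5) (q_cons (Vale.Agent.P032.Lt.q R0Q010.q138_6) (q_cons (Vale.Agent.P032.Lt.q R0Q010.q138_7)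 (q_cons (Vale.Agent.P032.Lt.q R0Q010.q138_8) (q_cons (Vale.Agent.P032.Lt.q R0Q010.q138_9) (q_cons (Vale.Agent.P032.Lt.q R0Q010.q138_10) (q_cons (Vale.Agent.P032.Lt.q R0Q010.q138_11) (q_cons (Vale.Agent.P032.Lt.q R0Q010.q138_12) q_nil))))))))))))))

def C139 : List ℕ := [0, 4, 8, 12, 16, 20, 24, 349185, 478209, 606209, 9169895123994, 9169958038554, 14409729532946, 19061206641690]
theorem p139 : Pat 73 73 TBm TCm (C139.map Fm) R0Q010.P139 R0Q010.I139 := Vale.Agent.P032.Lt.pat_eq (E' := R0Q010.E139) (by decide +kernel) (pat_step (by decide +kernel) (q_cons (Vale.Agent.P032.Lt.q R0Q010.q139_0) (q_cons (Vale.Agent.P032.Lt.q R0Q010.q139_1) (q_cons (Vale.Agent.P032.Lt.q R0Q010.q139_2) (q_cons (Vale.Agent.P032.Lt.q R0Q010.q139_3) (q_cons (Vale.Agent.P032.Lt.q R0Q010.q139_4) (q_cons (Vale.Agent.P032.Lt.q R0Q010.q139_5) (q_cons (Vale.Agent.P032.Lt.q R0Q010.q139_6) (q_cons (Vale.Agent.P032.Lt.q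 R0Q010.q139_7) (q_cons (Vale.Agent.P032.Lt.q R0Q010.q139_8) q_nil))))))))))

theorem p140 : Pat 73 73 TBm TCm (CB.map Fm) R0Q010.P140 R0Q010.I140 := Vale.Agent.P032.Lt.pat_eq (E' := R0Q010.E) eB (pat_step (by decide +kernel) (q_cons (Vale.Agent.P032.Lt.q R0Q010.q140_0) (q_cons (Vale.Agent.P032.Lt.q R0Q010.q140_1) (q_cons (Vale.Agent.P032.Lt.q R0Q010.q140_2) (q_cons (Vale.Agent.P032.Lt.q R0Q010.q140_3) q_nil)))))

theorem p141 : Pat 73 73 TBm TCm (CB.map Fm) R0Q010.P141 R0Q010.I141 := Vale.Agent.P032.Lt.pat_eq (E' := R0Q010.E) eB (pat_step (by decide +kernel) (q_cons (Vale.Agent.P032.Lt.q R0Q010.q141_0) (q_cons (Vale.Agent.P032.Lt.q R0Q010.q141_1) (q_cons (Vale.Agent.P032.Lt.q R0Q010.q141_2) (q_cons (Vale.Agent.P032.Lt.q R0Q010.q141_3) (q_cons (Vale.Agent.P032.Lt.q R0Q010.q141_4) q_nil))))))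

def C142 : List ℕ := [0, 4, 8, 12, 16, 20, 24, 81921, 212993, 344065, 738305, 24353636965386]
theorem p142 : Pat 73 73 TBm TCm (C142.map Fm) R0Q010.P142 R0Q010.I142 := Vale.Agent.P032.Lt.pat_eq (E' := R0Q010.E142) (by decide +kernel) (pat_step (by decide +kernel) (q_cons (Vale.Agent.P032.Lt.q R0Q010.q142_0) q_nil))

def C143 : List ℕ := [0, 4, 8, 12, 16, 20, 24, 91137, 347137, 349185, 353281, 355329, 606209, 737281, 9046881422378, 9169895123994]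
theorem p143 : Pat 73 73 TBm TCm (C143.map Fm) R0Q010.P143 R0Q010.I143 := Vale.Agent.P032.Lt.pat_eq (E' := R0Q010.E143) (by decide +kernel) (pat_step (by decide +kernel) (q_cons (Vale.Agent.P032.Lt.q R0Q010.q143_0) (q_cons (Vale.Agent.P032.Lt.q R0Q010.q143_1) (q_cons (Vale.Agent.P032.Lt.q R0Q010.q143_2) (q_cons (Vale.Agent.P032.Lt.q R0Q010.q143_3) (q_cons (Vale.Agent.P032.Lt.q R0Q010.q143_4) q_nil))))))

def C144 : List ℕ := [0, 4, 8, 12, 16, 20, 24, 606209, 737281, 24278391937030, 24278400325638, 24278404519942, 24278467434502, 24338546644998, 24338555033606, 24338613753862]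
theorem p144 : Pat 73 73 TBm TCm (C144.map Fm) R0Q010.P144 R0Q010.I144 := Vale.Agent.P032.Lt.pat_eq (E' := R0Q010.E144) (by decide +kernel) (pat_step (by decide +kernel) (q_cons (Vale.Agent.P032.Lt.q R0Q010.q144_0) (q_cons (Vale.Agent.P032.Lt.q R0Q010.q144_1) (q_cons (Vale.Agent.P032.Lt.q R0Q010.q144_2) (q_cons (Vale.Agent.P032.Lt.q R0Q010.q144_3) (q_cons (Vale.Agent.P032.Lt.q R0Q010.q144_4) (q_cons (Vale.Agent.P032.Lt.q R0Q010.q144_5) (q_cons (Vale.Agent.P032.Lt.q R0Q010.q144_6) (q_cons (Vale.Agent.P032.Lt.q R0Q010.q144_7) (q_cons (Vale.Agent.P032.Lt.q R0Q010.q144_8) q_nil))))))))))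

def C145 : List ℕ := [0, 4, 8, 12, 16, 20, 24, 88065, 89089, 350209, 481281, 613377, 17956434297890]
theorem p145 : Pat 73 73 TBm TCm (C145.map Fm) R0Q010.P145 R0Q010.I145 := Vale.Agent.P032.Lt.pat_eq (E' := R0Q010.E145) (by decide +kernel) (pat_step (by decide +kernel) (q_cons (Vale.Agent.P032.Lt.q R0Q010.q145_0) q_nil))

def C146 : List ℕ := [0, 4, 8, 12, 16, 20, 24, 224257, 617473, 18513486631986]
theorem p146 : Pat 73 73 TBm TCm (C146.map Fm) R0Q010.P146 R0Q010.I146 := Vale.Agent.P032.Lt.pat_eq (E' := R0Q010.E146) (by decide +kernel) (pat_step (by decide +kernel) (q_cons (Vale.Agent.P032.Lt.q R0Q010.q146_0) q_nil))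

def C147 : List ℕ := [0, 4, 8, 12, 16, 20, 24, 87041, 738305]
theorem p147 : Pat 73 73 TBm TCm (C147.map Fm) R0Q011.P147 R0Q011.I147 := Vale.Agent.P032.Lt.pat_eq (E' := R0Q011.E147) (by decide +kernel) (pat_step (by decide +kernel) (q_cons (Vale.Agent.P032.Lt.q R0Q011.q147_0) (q_cons (Vale.Agent.P032.Lt.q R0Q011.q147_1) (q_cons (Vale.Agent.P032.Lt.q R0Q011.q147_2) (q_cons (Vale.Agent.P032.Lt.q R0Q011.q147_3) (q_cons (Vale.Agent.P032.Lt.q R0Q011.q147_4) (q_cons (Vale.Agent.P032.Lt.q R0Q011.q147_5) (q_cons (Vale.Agent.P032.Lt.q R0Q011.q147_6) (q_cons (Vale.Agent.P032.Lt.q R0Q011.q147_7) (q_cons (Vale.Agent.P032.Lt.q R0Q011.q147_8) (q_cons (Vale.Agent.P032.Lt.q R0Q011.q147_9) (q_cons (Vale.Agent.P032.Lt.q R0Q011.q147_10) (q_cons (Vale.Agent.P032.Lt.q R0Q011.q147_11) (q_cons (Vale.Agent.P032.Lt.q R0Q011.q147_12) (q_cons (Vale.Agent.P032.Lt.q R0Q011.q147_13) (q_cons (Vale.Agent.P032.Lt.q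 R0Q011.q147_14) (q_cons (Vale.Agent.P032.Lt.q R0Q011.q147_15) (q_cons (Vale.Agent.P032.Lt.q R0Q011.q147_16) (q_cons (Vale.Agent.P032.Lt.q R0Q011.q147_17) (q_cons (Vale.Agent.P032.Lt.q R0Q011.q147_18) (q_cons (Vale.Agent.P032.Lt.q R0Q011.q147_19) (q_cons (Vale.Agent.P032.Lt.q R0Q011.q147_20) (q_cons (Vale.Agent.P032.Lt.q R0Q011.q147_21) (q_cons (Vale.Agent.P032.Lt.q R0Q011.q147_22) (q_cons (Vale.Agent.P032.Lt.q R0Q011.q147_23) (q_cons (Vale.Agent.P032.Lt.q R0Q011.q147_24) (q_cons (Vale.Agent.P032.Lt.q R0Q011.q147_25) (q_cons (Vale.Agent.P032.Lt.q R0Q011.q147_26) (q_cons (Vale.Agent.P032.Lt.q R0Q011.q147_27) (q_cons (Vale.Agent.P032.Lt.q R0Q011.q147_28) (q_cons (Vale.Agent.P032.Lt.q R0Q011.q147_29) (q_cons (Vale.Agent.P032.Lt.q R0Q011.q147_30) (q_cons (Vale.Agent.P032.Lt.q R0Q011.q147_31) (q_cons (Vale.Agent.P032.Lt.q R0Q011.q147_32) (q_cons (Vale.Agent.P032.Lt.q R0Q011.q147_33) (q_cons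 (Vale.Agent.P032.Lt.q R0Q011.q147_34) (q_cons (Vale.Agent.P032.Lt.q R0Q011.q147_35) (q_cons (Vale.Agent.P032.Lt.q R0Q011.q147_36) (q_cons (Vale.Agent.P032.Lt.q R0Q011.q147_37) (q_cons (Vale.Agent.P032.Lt.q R0Q011.q147_38) (q_cons (Vale.Agent.P032.Lt.q R0Q011.q147_39) (q_cons (Vale.Agent.P032.Lt.q R0Q011.q147_40) (q_cons (Vale.Agent.P032.Lt.q R0Q011.q147_41) (q_cons (Vale.Agent.P032.Lt.q R0Q011.q147_42) (q_cons (Vale.Agent.P032.Lt.q R0Q011.q147_43) (q_cons (Vale.Agent.P032.Lt.q R0Q011.q147_44) (q_cons (Vale.Agent.P032.Lt.q R0Q011.q147_45) (q_cons (Vale.Agent.P032.Lt.q R0Q011.q147_46) (q_cons (Vale.Agent.P032.Lt.q R0Q011.q147_47) (q_cons (Vale.Agent.P032.Lt.q R0Q011.q147_48) (q_cons (Vale.Agent.P032.Lt.q R0Q011.q147_49) (q_cons (Vale.Agent.P032.Lt.q R0Q011.q147_50) (q_cons (Vale.Agent.P032.Lt.q R0Q011.q147_51) (q_cons (Vale.Agent.P032.Lt.q R0Q011.q147_52) (q_cons (Vale.Agent.P032.Lt.q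 R0Q011.q147_53) (q_cons (Vale.Agent.P032.Lt.q R0Q011.q147_54) (q_cons (Vale.Agent.P032.Lt.q R0Q011.q147_55) (q_cons (Vale.Agent.P032.Lt.q R0Q011.q147_56) (q_cons (Vale.Agent.P032.Lt.q R0Q011.q147_57) (q_cons (Vale.Agent.P032.Lt.q R0Q011.q147_58) (q_cons (Vale.Agent.P032.Lt.q R0Q011.q147_59) (q_cons (Vale.Agent.P032.Lt.q R0Q011.q147_60) (q_cons (Vale.Agent.P032.Lt.q R0Q011.q147_61) (q_cons (Vale.Agent.P032.Lt.q R0Q011.q147_62) (q_cons (Vale.Agent.P032.Lt.q R0Q011.q147_63) (q_cons (Vale.Agent.P032.Lt.q R0Q011.q147_64) (q_cons (Vale.Agent.P032.Lt.q R0Q011.q147_65) (q_cons (Vale.Agent.P032.Lt.q R0Q011.q147_66) (q_cons (Vale.Agent.P032.Lt.q R0Q011.q147_67) (q_cons (Vale.Agent.P032.Lt.q R0Q011.q147_68) (q_cons (Vale.Agent.P032.Lt.q R0Q011.q147_69) (q_cons (Vale.Agent.P032.Lt.q R0Q011.q147_70) (q_cons (Vale.Agent.P032.Lt.q R0Q011.q147_71) (q_cons (Vale.Agent.P032.Lt.q R0Q011.q147_72) (q_cons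 (Vale.Agent.P032.Lt.q R0Q011.q147_73) q_nil)))))))))))))))))))))))))))))))))))))))))))))))))))))))))))))))))))))))))))

def C148 : List ℕ := [0, 4, 8, 12, 16, 20, 24, 218113, 222209, 224257, 18393296491570]
theorem p148 : Pat 73 73 TBm TCm (C148.map Fm) R0Q011.P148 R0Q011.I148 := Vale.Agent.P032.Lt.pat_eq (E' := R0Q011.E148) (by decide +kernel) (pat_step (by decide +kernel) (q_cons (Vale.Agent.P032.Lt.q R0Q011.q148_0) (q_cons (Vale.Agent.P032.Lt.q R0Q011.q148_1) (q_cons (Vale.Agent.P032.Lt.q R0Q011.q148_2) (q_cons (Vale.Agent.P032.Lt.q R0Q011.q148_3) (q_cons (Vale.Agent.P032.Lt.q R0Q011.q148_4) (q_cons (Vale.Agent.P032.Lt.q R0Q011.q148_5) (q_cons (Vale.Agent.P032.Lt.q R0Q011.q148_6) (q_cons (Vale.Agent.P032.Lt.q R0Q011.q148_7) (q_cons (Vale.Agent.P032.Lt.q R0Q011.q148_8) (q_cons (Vale.Agent.P032.Lt.q R0Q011.q148_9) (q_cons (Vale.Agent.P032.Lt.q R0Q011.q148_10) (q_cons (Vale.Agent.P032.Lt.q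 R0Q011.q148_11) (q_cons (Vale.Agent.P032.Lt.q R0Q011.q148_12) (q_cons (Vale.Agent.P032.Lt.q R0Q011.q148_13) (q_cons (Vale.Agent.P032.Lt.q R0Q011.q148_14) (q_cons (Vale.Agent.P032.Lt.q R0Q011.q148_15) (q_cons (Vale.Agent.P032.Lt.q R0Q011.q148_16) (q_cons (Vale.Agent.P032.Lt.q R0Q011.q148_17) (q_cons (Vale.Agent.P032.Lt.q R0Q011.q148_18) (q_cons (Vale.Agent.P032.Lt.q R0Q011.q148_19) (q_cons (Vale.Agent.P032.Lt.q R0Q011.q148_20) (q_cons (Vale.Agent.P032.Lt.q R0Q011.q148_21) (q_cons (Vale.Agent.P032.Lt.q R0Q011.q148_22) (q_cons (Vale.Agent.P032.Lt.q R0Q011.q148_23) (q_cons (Vale.Agent.P032.Lt.q R0Q011.q148_24) q_nil))))))))))))))))))))))))))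

def C149 : List ℕ := [0, 4, 8, 12, 16, 20, 24, 344065, 475137, 611329]
theorem p149 : Pat 73 73 TBm TCm (C149.map Fm) R0Q011.P149 R0Q011.I149 := Vale.Agent.P032.Lt.pat_eq (E' := R0Q011.E149) (by decide +kernel) (pat_step (by decide +kernel) (q_cons (Vale.Agent.P032.Lt.q R0Q011.q149_0) (q_cons (Vale.Agent.P032.Lt.q R0Q011.q149_1) (q_cons (Vale.Agent.P032.Lt.q R0Q011.q149_2) (q_cons (Vale.Agent.P032.Lt.q R0Q011.q149_3) (q_cons (Vale.Agent.P032.Lt.q R0Q011.q149_4) q_nil))))))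

theorem p150 : Pat 73 73 TBm TCm (CB.map Fm) R0Q011.P150 R0Q011.I150 := Vale.Agent.P032.Lt.pat_eq (E' := R0Q011.E) eB (pat_step (by decide +kernel) (q_cons (Vale.Agent.P032.Lt.q R0Q011.q150_0) (q_cons (Vale.Agent.P032.Lt.q R0Q011.q150_1) (q_cons (Vale.Agent.P032.Lt.q R0Q011.q150_2) (q_cons (Vale.Agent.P032.Lt.q R0Q011.q150_3) (q_cons (Vale.Agent.P032.Lt.q R0Q011.q150_4) q_nil))))))

theorem p151 : Pat 73 73 TBm TCm (CB.map Fm) R0Q011.P151 R0Q011.I151 := Vale.Agent.P032.Lt.pat_eq (E' := R0Q011.E) eB (pat_step (by decide +kernel) (q_cons (Vale.Agent.P032.Lt.q R0Q011.q151_0) (q_cons (Vale.Agent.P032.Lt.q R0Q011.q151_1) (q_cons (Vale.Agent.P032.Lt.q R0Q011.q151_2) (q_cons (Vale.Agent.P032.Lt.q R0Q011.q151_3) (q_cons (Vale.Agent.P032.Lt.q R0Q011.q151_4) (q_cons (Vale.Agent.P032.Lt.q R0Q011.q151_5) (q_cons (Vale.Agent.P032.Lt.q R0Q011.q151_6) q_nil))))))))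

def C152 : List ℕ := [0, 4, 8, 12, 16, 20, 24, 84993, 218113, 349185, 486401, 606209, 737281, 9046926255122, 9167160173586, 9587106343962, 14409649574962, 17842660662282]
theorem p152 : Pat 73 73 TBm TCm (C152.map Fm) R0Q011.P152 R0Q011.I152 := Vale.Agent.P032.Lt.pat_eq (E' := R0Q011.E152) (by decide +kernel) (pat_step (by decide +kernel) (q_cons (Vale.Agent.P032.Lt.q R0Q011.q152_0) (q_cons (Vale.Agent.P032.Lt.q R0Q011.q152_1) (q_cons (Vale.Agent.P032.Lt.q R0Q011.q152_2) (q_cons (Vale.Agent.P032.Lt.q R0Q011.q152_3) (q_cons (Vale.Agent.P032.Lt.q R0Q011.q152_4) (q_cons (Vale.Agent.P032.Lt.q R0Q011.q152_5) q_nil)))))))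

def C153 : List ℕ := [0, 4, 8, 12, 16, 20, 24, 82945, 214017, 344065, 476161, 607233, 738305, 9177415374854, 9177415505926, 9724217612294, 9727036184582, 14671752288262, 14671752419334, 18322803350538, 18325621922826, 22285677583370, 22832481262602, 22835299834890, 23931723799562]
theorem p153 : Pat 73 73 TBm TCm (C153.map Fm) R0Q011.P153 R0Q011.I153 := Vale.Agent.P032.Lt.pat_eq (E' := R0Q011.E153) (by decide +kernel) (pat_step (by decide +kernel) (q_cons (Vale.Agent.P032.Lt.q R0Q011.q153_0) (q_cons (Vale.Agent.P032.Lt.q R0Q011.q153_1) q_nil)))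

def C154 : List ℕ := [0, 4, 8, 12, 16, 20, 24, 82945, 91137, 345089, 347137, 353281, 355329, 607233, 741377, 9046818507818, 18791586290698, 18941976466482, 23373656844310, 23373658941462, 23376476465174, 23376478562326]
theorem p154 : Pat 73 73 TBm TCm (C154.map Fm) R0Q011.P154 R0Q011.I154 := Vale.Agent.P032.Lt.pat_eq (E' := R0Q011.E154) (by decide +kernel) (pat_step (by decide +kernel) (q_cons (Vale.Agent.P032.Lt.q R0Q011.q154_0) (q_cons (Vale.Agent.P032.Lt.q R0Q011.q154_1) (q_cons (Vale.Agent.P032.Lt.q R0Q011.q154_2) (q_cons (Vale.Agent.P032.Lt.q R0Q011.q154_3) (q_cons (Vale.Agent.P032.Lt.q R0Q011.q154_4) (q_cons (Vale.Agent.P032.Lt.q R0Q011.q154_5) (q_cons (Vale.Agent.P032.Lt.q R0Q011.q154_6) (q_cons (Vale.Agent.P032.Lt.q R0Q011.q154_7) (q_cons (Vale.Agent.P032.Lt.q R0Q011.q154_8) q_nil))))))))))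

def C155 : List ℕ := [0, 4, 8, 12, 16, 20, 24, 212993, 214017, 475137, 476161, 737281, 741377, 14062078352394, 23729709864966, 23729722447878, 23729776973830]
theorem p155 : Pat 73 73 TBm TCm (C155.map Fm) R0Q011.P155 R0Q011.I155 := Vale.Agent.P032.Lt.pat_eq (E' := R0Q011.E155) (by decide +kernel) (pat_step (by decide +kernel) (q_cons (Vale.Agent.P032.Lt.q R0Q011.q155_0) (q_cons (Vale.Agent.P032.Lt.q R0Q011.q155_1) (q_cons (Vale.Agent.P032.Lt.q R0Q011.q155_2) (q_cons (Vale.Agent.P032.Lt.q R0Q011.q155_3) q_nil)))))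

def C156 : List ℕ := [0, 4, 8, 12, 16, 20, 24, 82945, 89089, 91137, 212993, 353281, 486401, 606209, 737281, 9115403766826, 9170003117090, 13487966213170]
theorem p156 : Pat 73 73 TBm TCm (C156.map Fm) R0Q011.P156 R0Q011.I156 := Vale.Agent.P032.Lt.pat_eq (E' := R0Q011.E156) (by decide +kernel) (pat_step (by decide +kernel) (q_cons (Vale.Agent.P032.Lt.q R0Q011.q156_0) (q_cons (Vale.Agent.P032.Lt.q R0Q011.q156_1) (q_cons (Vale.Agent.P032.Lt.q R0Q011.q156_2) (q_cons (Vale.Agent.P032.Lt.q R0Q011.q156_3) q_nil)))))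

def C157 : List ℕ := [0, 4, 8, 12, 16, 20, 24, 91137, 353281, 475137, 737281, 741377, 9046818507818, 9046881422378, 23729709864966, 23729772779526, 23729776973830, 23789864572934, 23789872961542, 23789931681798, 24352708847638]
theorem p157 : Pat 73 73 TBm TCm (C157.map Fm) R0Q012.P157 R0Q012.I157 := Vale.Agent.P032.Lt.pat_eq (E' := R0Q012.E157) (by decide +kernel) (pat_step (by decide +kernel) (q_cons (Vale.Agent.P032.Lt.q R0Q012.q157_0) (q_cons (Vale.Agent.P032.Lt.q R0Q012.q157_1) (q_cons (Vale.Agent.P032.Lt.q R0Q012.q157_2) (q_cons (Vale.Agent.P032.Lt.q R0Q012.q157_3) (q_cons (Vale.Agent.P032.Lt.q R0Q012.q157_4) (q_cons (Vale.Agent.P032.Lt.q R0Q012.q157_5) (q_cons (Vale.Agent.P032.Lt.q R0Q012.q157_6) (q_cons (Vale.Agent.P032.Lt.q R0Q012.q157_7) (q_cons (Vale.Agent.P032.Lt.q R0Q012.q157_8) (q_cons (Vale.Agent.P032.Lt.q R0Q012.q157_9) (q_cons (Vale.Agent.P032.Lt.q R0Q012.q157_10)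 (q_cons (Vale.Agent.P032.Lt.q R0Q012.q157_11) (q_cons (Vale.Agent.P032.Lt.q R0Q012.q157_12) (q_cons (Vale.Agent.P032.Lt.q R0Q012.q157_13) (q_cons (Vale.Agent.P032.Lt.q R0Q012.q157_14) (q_cons (Vale.Agent.P032.Lt.q R0Q012.q157_15) (q_cons (Vale.Agent.P032.Lt.q R0Q012.q157_16) (q_cons (Vale.Agent.P032.Lt.q R0Q012.q157_17) q_nil)))))))))))))))))))

theorem p158 : Pat 73 73 TBm TCm (CB.map Fm) R0Q012.P158 R0Q012.I158 := Vale.Agent.P032.Lt.pat_eq (E' := R0Q012.E) eB (pat_step (by decide +kernel) (q_cons (Vale.Agent.P032.Lt.q R0Q012.q158_0) (q_cons (Vale.Agent.P032.Lt.q R0Q012.q158_1) (q_cons (Vale.Agent.P032.Lt.q R0Q012.q158_2) (q_cons (Vale.Agent.P032.Lt.q R0Q012.q158_3) (q_cons (Vale.Agent.P032.Lt.q R0Q012.q158_4) q_nil))))))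

theorem p159 : Pat 73 73 TBm TCm (CB.map Fm) R0Q012.P159 R0Q012.I159 := Vale.Agent.P032.Lt.pat_eq (E' := R0Q012.E) eB (pat_step (by decide +kernel) (q_cons (Vale.Agent.P032.Lt.q R0Q012.q159_0) (q_cons (Vale.Agent.P032.Lt.q R0Q012.q159_1) (q_cons (Vale.Agent.P032.Lt.q R0Q012.q159_2) (q_cons (Vale.Agent.P032.Lt.q R0Q012.q159_3) (q_cons (Vale.Agent.P032.Lt.q R0Q012.q159_4) (q_cons (Vale.Agent.P032.Lt.q R0Q012.q159_5) (q_cons (Vale.Agent.P032.Lt.q R0Q012.q159_6) (q_cons (Vale.Agent.P032.Lt.q R0Q012.q159_7) (q_cons (Vale.Agent.P032.Lt.q R0Q012.q159_8) (q_cons (Vale.Agent.P032.Lt.q R0Q012.q159_9) (q_cons (Vale.Agent.P032.Lt.q R0Q012.q159_10) (q_cons (Vale.Agent.P032.Lt.q R0Q012.q159_11) (q_cons (Vale.Agent.P032.Lt.q R0Q012.q159_12) (q_cons (Vale.Agent.P032.Lt.q R0Q012.q159_13) (q_cons (Vale.Agent.P032.Lt.q R0Q012.q159_14) q_nil))))))))))))))))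

theorem p160 : Pat 73 73 TBm TCm (CB.map Fm) R0Q012.P160 R0Q012.I160 := Vale.Agent.P032.Lt.pat_eq (E' := R0Q012.E) eB (pat_step (by decide +kernel) (q_cons (Vale.Agent.P032.Lt.q R0Q012.q160_0) (q_cons (Vale.Agent.P032.Lt.q R0Q012.q160_1) q_nil)))

def C161 : List ℕ := [0, 4, 8, 12, 16, 20, 24, 475137, 613377, 737281, 17956321051682, 17956434297890]
theorem p161 : Pat 73 73 TBm TCm (C161.map Fm) R0Q012.P161 R0Q012.I161 := Vale.Agent.P032.Lt.pat_eq (E' := R0Q012.E161) (by decide +kernel) (pat_step (by decide +kernel) (q_cons (Vale.Agent.P032.Lt.q R0Q012.q161_0) (q_cons (Vale.Agent.P032.Lt.q R0Q012.q161_1) (q_cons (Vale.Agent.P032.Lt.q R0Q012.q161_2) (q_cons (Vale.Agent.P032.Lt.q R0Q012.q161_3) (q_cons (Vale.Agent.P032.Lt.q R0Q012.q161_4) (q_cons (Vale.Agent.P032.Lt.q R0Q012.q161_5) q_nil)))))))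

def C162 : List ℕ := [0, 4, 8, 12, 16, 20, 24, 82945, 89089, 475137, 606209, 9177407898658, 13573440357410, 19328051533830]
theorem p162 : Pat 73 73 TBm TCm (C162.map Fm) R0Q012.P162 R0Q012.I162 := Vale.Agent.P032.Lt.pat_eq (E' := R0Q012.E162) (by decide +kernel) (pat_step (by decide +kernel) (q_cons (Vale.Agent.P032.Lt.q R0Q012.q162_0) (q_cons (Vale.Agent.P032.Lt.q R0Q012.q162_1) (q_cons (Vale.Agent.P032.Lt.q R0Q012.q162_2) (q_cons (Vale.Agent.P032.Lt.q R0Q012.q162_3) (q_cons (Vale.Agent.P032.Lt.q R0Q012.q162_4) (q_cons (Vale.Agent.P032.Lt.q R0Q012.q162_5) (q_cons (Vale.Agent.P032.Lt.q R0Q012.q162_6) (q_cons (Vale.Agent.P032.Lt.q R0Q012.q162_7) (q_cons (Vale.Agent.P032.Lt.q R0Q012.q162_8) (q_cons (Vale.Agent.P032.Lt.q R0Q012.q162_9) (q_cons (Vale.Agent.P032.Lt.q R0Q012.q162_10) (q_cons (Vale.Agent.P032.Lt.q R0Q012.q162_11) (q_cons (Vale.Agent.P032.Lt.q R0Q012.q162_12) (q_cons (Vale.Agent.P032.Lt.q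 R0Q012.q162_13) (q_cons (Vale.Agent.P032.Lt.q R0Q012.q162_14) q_nil))))))))))))))))

def C163 : List ℕ := [0, 4, 8, 12, 16, 20, 24, 87041, 216065, 218113, 349185, 475137, 611329, 737281, 9664147317778, 18305936092186, 18310634761242, 23812484454406, 23932655458310]
theorem p163 : Pat 73 73 TBm TCm (C163.map Fm) R0Q012.P163 R0Q012.I163 := Vale.Agent.P032.Lt.pat_eq (E' := R0Q012.E163) (by decide +kernel) (pat_step (by decide +kernel) (q_cons (Vale.Agent.P032.Lt.q R0Q012.q163_0) (q_cons (Vale.Agent.P032.Lt.q R0Q012.q163_1) (q_cons (Vale.Agent.P032.Lt.q R0Q012.q163_2) q_nil))))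

def C164 : List ℕ := [0, 4, 8, 12, 16, 20, 24, 212993, 214017, 216065, 347137, 478209, 606209, 609281, 737281, 9595517885450, 9595608196114, 9715802135562, 9715869244426, 14105242199058, 18391432651794]
theorem p164 : Pat 73 73 TBm TCm (C164.map Fm) R0Q012.P164 R0Q012.I164 := Vale.Agent.P032.Lt.pat_eq (E' := R0Q012.E164) (by decide +kernel) (pat_step (by decide +kernel) (q_cons (Vale.Agent.P032.Lt.q R0Q012.q164_0) (q_cons (Vale.Agent.P032.Lt.q R0Q012.q164_1) (q_cons (Vale.Agent.P032.Lt.q R0Q012.q164_2) (q_cons (Vale.Agent.P032.Lt.q R0Q012.q164_3) (q_cons (Vale.Agent.P032.Lt.q R0Q012.q164_4) (q_cons (Vale.Agent.P032.Lt.q R0Q012.q164_5) (q_cons (Vale.Agent.P032.Lt.q R0Q012.q164_6) (q_cons (Vale.Agent.P032.Lt.q R0Q012.q164_7) (q_cons (Vale.Agent.P032.Lt.q R0Q012.q164_8) (q_cons (Vale.Agent.P032.Lt.q R0Q012.q164_9) (q_cons (Vale.Agent.P032.Lt.q R0Q012.q164_10) (q_cons (Vale.Agent.P032.Lt.q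 R0Q012.q164_11) (q_cons (Vale.Agent.P032.Lt.q R0Q012.q164_12) (q_cons (Vale.Agent.P032.Lt.q R0Q012.q164_13) (q_cons (Vale.Agent.P032.Lt.q R0Q012.q164_14) (q_cons (Vale.Agent.P032.Lt.q R0Q012.q164_15) (q_cons (Vale.Agent.P032.Lt.q R0Q012.q164_16) q_nil))))))))))))))))))

def C165 : List ℕ := [0, 4, 8, 12, 16, 20, 24, 87041, 216065, 344065, 607233, 738305, 9117348883482, 14397414397958, 14577836578822, 14577899493382, 18503123952658, 19044304771078, 19061216204806, 24278408977418]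
theorem p165 : Pat 73 73 TBm TCm (C165.map Fm) R0Q012.P165 R0Q012.I165 := Vale.Agent.P032.Lt.pat_eq (E' := R0Q012.E165) (by decide +kernel) (pat_step (by decide +kernel) (q_cons (Vale.Agent.P032.Lt.q R0Q012.q165_0) (q_cons (Vale.Agent.P032.Lt.q R0Q012.q165_1) (q_cons (Vale.Agent.P032.Lt.q R0Q012.q165_2) (q_cons (Vale.Agent.P032.Lt.q R0Q012.q165_3) (q_cons (Vale.Agent.P032.Lt.q R0Q012.q165_4) (q_cons (Vale.Agent.P032.Lt.q R0Q012.q165_5) q_nil)))))))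

theorem p166 : Pat 73 73 TBm TCm (CB.map Fm) R0Q012.P166 R0Q012.I166 := Vale.Agent.P032.Lt.pat_eq (E' := R0Q012.E) eB (pat_step (by decide +kernel) (q_cons (Vale.Agent.P032.Lt.q R0Q012.q166_0) q_nil))

theorem p167 : Pat 73 73 TBm TCm (CB.map Fm) R0Q012.P167 R0Q012.I167 := Vale.Agent.P032.Lt.pat_eq (E' := R0Q012.E) eB (pat_step (by decide +kernel) (q_cons (Vale.Agent.P032.Lt.q R0Q012.q167_0) (q_cons (Vale.Agent.P032.Lt.q R0Q012.q167_1) (q_cons (Vale.Agent.P032.Lt.q R0Q012.q167_2) (q_cons (Vale.Agent.P032.Lt.q R0Q012.q167_3) (q_cons (Vale.Agent.P032.Lt.q R0Q012.q167_4) (q_cons (Vale.Agent.P032.Lt.q R0Q012.q167_5) (q_cons (Vale.Agent.P032.Lt.q R0Q012.q167_6) (q_cons (Vale.Agent.P032.Lt.q R0Q012.q167_7) (q_cons (Vale.Agent.P032.Lt.q R0Q012.q167_8) (q_cons (Vale.Agent.P032.Lt.q R0Q012.q167_9) q_nil)))))))))))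

def C168 : List ℕ := [0, 4, 8, 12, 16, 20, 24, 484353, 13916380023850, 18806684996658]
theorem p168 : Pat 73 73 TBm TCm (C168.map Fm) R0Q012.P168 R0Q012.I168 := Vale.Agent.P032.Lt.pat_eq (E' := R0Q012.E168) (by decide +kernel) (pat_step (by decide +kernel) (q_cons (Vale.Agent.P032.Lt.q R0Q012.q168_0) q_nil))

def C169 : List ℕ := [0, 4, 8, 12, 16, 20, 24, 81921, 82945, 89089, 606209, 737281, 9170004952098, 17962898775050, 18506027194374, 24278404519942, 24338546644998, 24338555033606, 24338613753862]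
theorem p169 : Pat 73 73 TBm TCm (C169.map Fm) R0Q012.P169 R0Q012.I169 := Vale.Agent.P032.Lt.pat_eq (E' := R0Q012.E169) (by decide +kernel) (pat_step (by decide +kernel) (q_cons (Vale.Agent.P032.Lt.q R0Q012.q169_0) (q_cons (Vale.Agent.P032.Lt.q R0Q012.q169_1) q_nil)))

def C170 : List ℕ := [0, 4, 8, 12, 16, 20, 24, 224257, 355329, 486401, 615425, 4770098795570, 14397490549810]
theorem p170 : Pat 73 73 TBm TCm (C170.map Fm) R0Q012.P170 R0Q012.I170 := Vale.Agent.P032.Lt.pat_eq (E' := R0Q012.E170) (by decide +kernel) (pat_step (by decide +kernel) (q_cons (Vale.Agent.P032.Lt.q R0Q012.q170_0) q_nil))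

def C171 : List ℕ := [0, 4, 8, 12, 16, 20, 24, 82945, 89089, 347137, 737281, 9177406063650]
theorem p171 : Pat 73 73 TBm TCm (C171.map Fm) R0Q013.P171 R0Q013.I171 := Vale.Agent.P032.Lt.pat_eq (E' := R0Q013.E171) (by decide +kernel) (pat_step (by decide +kernel) (q_cons (Vale.Agent.P032.Lt.q R0Q013.q171_0) (q_cons (Vale.Agent.P032.Lt.q R0Q013.q171_1) (q_cons (Vale.Agent.P032.Lt.q R0Q013.q171_2) (q_cons (Vale.Agent.P032.Lt.q R0Q013.q171_3) (q_cons (Vale.Agent.P032.Lt.q R0Q013.q171_4) (q_cons (Vale.Agent.P032.Lt.q R0Q013.q171_5) (q_cons (Vale.Agent.P032.Lt.q R0Q013.q171_6) (q_cons (Vale.Agent.P032.Lt.q R0Q013.q171_7) (q_cons (Vale.Agent.P032.Lt.q R0Q013.q171_8) (q_cons (Vale.Agent.P032.Lt.q R0Q013.q171_9) (q_cons (Vale.Agent.P032.Lt.q R0Q013.q171_10) (q_cons (Vale.Agent.P032.Lt.q R0Q013.q171_11) (q_cons (Vale.Agent.P032.Lt.q R0Q013.q171_12) (q_cons (Vale.Agent.P032.Lt.q R0Q013.q171_13)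 (q_cons (Vale.Agent.P032.Lt.q R0Q013.q171_14) (q_cons (Vale.Agent.P032.Lt.q R0Q013.q171_15) (q_cons (Vale.Agent.P032.Lt.q R0Q013.q171_16) (q_cons (Vale.Agent.P032.Lt.q R0Q013.q171_17) (q_cons (Vale.Agent.P032.Lt.q R0Q013.q171_18) (q_cons (Vale.Agent.P032.Lt.q R0Q013.q171_19) (q_cons (Vale.Agent.P032.Lt.q R0Q013.q171_20) (q_cons (Vale.Agent.P032.Lt.q R0Q013.q171_21) (q_cons (Vale.Agent.P032.Lt.q R0Q013.q171_22) (q_cons (Vale.Agent.P032.Lt.q R0Q013.q171_23) (q_cons (Vale.Agent.P032.Lt.q R0Q013.q171_24) (q_cons (Vale.Agent.P032.Lt.q R0Q013.q171_25) (q_cons (Vale.Agent.P032.Lt.q R0Q013.q171_26) (q_cons (Vale.Agent.P032.Lt.q R0Q013.q171_27) (q_cons (Vale.Agent.P032.Lt.q R0Q013.q171_28) (q_cons (Vale.Agent.P032.Lt.q R0Q013.q171_29) (q_cons (Vale.Agent.P032.Lt.q R0Q013.q171_30) (q_cons (Vale.Agent.P032.Lt.q R0Q013.q171_31) q_nil)))))))))))))))))))))))))))))))))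

theorem p172 : Pat 73 73 TBm TCm (CB.map Fm) R0Q013.P172 R0Q013.I172 := Vale.Agent.P032.Lt.pat_eq (E' := R0Q013.E) eB (pat_step (by decide +kernel) (q_cons (Vale.Agent.P032.Lt.q R0Q013.q172_0) q_nil))

theorem p173 : Pat 73 73 TBm TCm (CB.map Fm) R0Q013.P173 R0Q013.I173 := Vale.Agent.P032.Lt.pat_eq (E' := R0Q013.E) eB (pat_step (by decide +kernel) (q_cons (Vale.Agent.P032.Lt.q R0Q013.q173_0) (q_cons (Vale.Agent.P032.Lt.q R0Q013.q173_1) (q_cons (Vale.Agent.P032.Lt.q R0Q013.q173_2) (q_cons (Vale.Agent.P032.Lt.q R0Q013.q173_3) (q_cons (Vale.Agent.P032.Lt.q R0Q013.q173_4) (q_cons (Vale.Agent.P032.Lt.q R0Q013.q173_5) (q_cons (Vale.Agent.P032.Lt.q R0Q013.q173_6) (q_cons (Vale.Agent.P032.Lt.q R0Q013.q173_7) (q_cons (Vale.Agent.P032.Lt.q R0Q013.q173_8) (q_cons (Vale.Agent.P032.Lt.q R0Q013.q173_9) (q_cons (Vale.Agent.P032.Lt.q R0Q013.q173_10) (q_cons (Vale.Agent.P032.Lt.q R0Q013.q173_11)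 (q_cons (Vale.Agent.P032.Lt.q R0Q013.q173_12) q_nil))))))))))))))

def C174 : List ℕ := [0, 4, 8, 12, 16, 20, 24, 81921, 212993, 344065, 345089, 476161, 607233, 738305, 13921102029842, 23188625906698, 23729762425866, 24284112182282]
theorem p174 : Pat 73 73 TBm TCm (C174.map Fm) R0Q013.P174 R0Q013.I174 := Vale.Agent.P032.Lt.pat_eq (E' := R0Q013.E174) (by decide +kernel) (pat_step (by decide +kernel) (q_cons (Vale.Agent.P032.Lt.q R0Q013.q174_0) q_nil))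

def C175 : List ℕ := [0, 4, 8, 12, 16, 20, 24, 344065, 475137, 9599258547250, 9719540700210, 14405945612294, 14405947578374, 14671784794118, 14671786760198, 14671851902982, 14671853869062]
theorem p175 : Pat 73 73 TBm TCm (C175.map Fm) R0Q013.P175 R0Q013.I175 := Vale.Agent.P032.Lt.pat_eq (E' := R0Q013.E175) (by decide +kernel) (pat_step (by decide +kernel) (q_cons (Vale.Agent.P032.Lt.q R0Q013.q175_0) (q_cons (Vale.Agent.P032.Lt.q R0Q013.q175_1) (q_cons (Vale.Agent.P032.Lt.q R0Q013.q175_2) (q_cons (Vale.Agent.P032.Lt.q R0Q013.q175_3) (q_cons (Vale.Agent.P032.Lt.q R0Q013.q175_4) (q_cons (Vale.Agent.P032.Lt.q R0Q013.q175_5) (q_cons (Vale.Agent.P032.Lt.q R0Q013.q175_6) q_nil))))))))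

def C176 : List ℕ := [0, 4, 8, 12, 16, 20, 24, 214017, 355329, 475137, 476161, 737281, 14122124008458, 14577897270298, 23729709864966, 23729768585222, 23729776973830, 23789864572934, 23789872961542, 23789923293190, 23789931681798]
theorem p176 : Pat 73 73 TBm TCm (C176.map Fm) R0Q013.P176 R0Q013.I176 := Vale.Agent.P032.Lt.pat_eq (E' := R0Q013.E176) (by decide +kernel) (pat_step (by decide +kernel) (q_cons (Vale.Agent.P032.Lt.q R0Q013.q176_0) (q_cons (Vale.Agent.P032.Lt.q R0Q013.q176_1) (q_cons (Vale.Agent.P032.Lt.q R0Q013.q176_2) (q_cons (Vale.Agent.P032.Lt.q R0Q013.q176_3) (q_cons (Vale.Agent.P032.Lt.q R0Q013.q176_4) (q_cons (Vale.Agent.P032.Lt.q R0Q013.q176_5) (q_cons (Vale.Agent.P032.Lt.q R0Q013.q176_6) (q_cons (Vale.Agent.P032.Lt.q R0Q013.q176_7) (q_cons (Vale.Agent.P032.Lt.q R0Q013.q176_8) (q_cons (Vale.Agent.P032.Lt.q R0Q013.q176_9) (q_cons (Vale.Agent.P032.Lt.q R0Q013.q176_10)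 (q_cons (Vale.Agent.P032.Lt.q R0Q013.q176_11) (q_cons (Vale.Agent.P032.Lt.q R0Q013.q176_12) (q_cons (Vale.Agent.P032.Lt.q R0Q013.q176_13) q_nil)))))))))))))))

theorem p177 : Pat 73 73 TBm TCm (CB.map Fm) R0Q013.P177 R0Q013.I177 := Vale.Agent.P032.Lt.pat_eq (E' := R0Q013.E) eB (pat_step (by decide +kernel) (q_cons (Vale.Agent.P032.Lt.q R0Q013.q177_0) (q_cons (Vale.Agent.P032.Lt.q R0Q013.q177_1) q_nil)))

def C178 : List ℕ := [0, 4, 8, 12, 16, 20, 24, 216065, 478209]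
theorem p178 : Pat 73 73 TBm TCm (C178.map Fm) R0Q013.P178 R0Q013.I178 := Vale.Agent.P032.Lt.pat_eq (E' := R0Q013.E178) (by decide +kernel) (pat_step (by decide +kernel) (q_cons (Vale.Agent.P032.Lt.q R0Q013.q178_0) (q_cons (Vale.Agent.P032.Lt.q R0Q013.q178_1) (q_cons (Vale.Agent.P032.Lt.q R0Q013.q178_2) (q_cons (Vale.Agent.P032.Lt.q R0Q013.q178_3) (q_cons (Vale.Agent.P032.Lt.q R0Q013.q178_4) (q_cons (Vale.Agent.P032.Lt.q R0Q013.q178_5) (q_cons (Vale.Agent.P032.Lt.q R0Q013.q178_6) (q_cons (Vale.Agent.P032.Lt.q R0Q013.q178_7) (q_cons (Vale.Agent.P032.Lt.q R0Q013.q178_8) (q_cons (Vale.Agent.P032.Lt.q R0Q013.q178_9) (q_cons (Vale.Agent.P032.Lt.q R0Q013.q178_10) (q_cons (Vale.Agent.P032.Lt.q R0Q013.q178_11) q_nil)))))))))))))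

theorem p179 : Pat 73 73 TBm TCm (CB.map Fm) R0Q013.P179 R0Q013.I179 := Vale.Agent.P032.Lt.pat_eq (E' := R0Q013.E) eB (pat_step (by decide +kernel) (q_cons (Vale.Agent.P032.Lt.q R0Q013.q179_0) (q_cons (Vale.Agent.P032.Lt.q R0Q013.q179_1) (q_cons (Vale.Agent.P032.Lt.q R0Q013.q179_2) (q_cons (Vale.Agent.P032.Lt.q R0Q013.q179_3) (q_cons (Vale.Agent.P032.Lt.q R0Q013.q179_4) (q_cons (Vale.Agent.P032.Lt.q R0Q013.q179_5) (q_cons (Vale.Agent.P032.Lt.q R0Q013.q179_6) q_nil))))))))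

def C180 : List ℕ := [0, 4, 8, 12, 16, 20, 24, 91137, 347137, 353281, 607233, 9115403766826, 19332810890250, 23725961730054]
theorem p180 : Pat 73 73 TBm TCm (C180.map Fm) R0Q013.P180 R0Q013.I180 := Vale.Agent.P032.Lt.pat_eq (E' := R0Q013.E180) (by decide +kernel) (pat_step (by decide +kernel) (q_cons (Vale.Agent.P032.Lt.q R0Q013.q180_0) (q_cons (Vale.Agent.P032.Lt.q R0Q013.q180_1) (q_cons (Vale.Agent.P032.Lt.q R0Q013.q180_2) (q_cons (Vale.Agent.P032.Lt.q R0Q013.q180_3) (q_cons (Vale.Agent.P032.Lt.q R0Q013.q180_4) (q_cons (Vale.Agent.P032.Lt.q R0Q013.q180_5) q_nil)))))))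

def C181 : List ℕ := [0, 4, 8, 12, 16, 20, 24, 84993, 212993, 216065, 347137, 475137, 478209, 609281, 611329, 737281, 9115465376786, 9664149414930, 17760946971666, 18310634892314, 22157985279002]
theorem p181 : Pat 73 73 TBm TCm (C181.map Fm) R0Q013.P181 R0Q013.I181 := Vale.Agent.P032.Lt.pat_eq (E' := R0Q013.E181) (by decide +kernel) (pat_step (by decide +kernel) (q_cons (Vale.Agent.P032.Lt.q R0Q013.q181_0) (q_cons (Vale.Agent.P032.Lt.q R0Q013.q181_1) (q_cons (Vale.Agent.P032.Lt.q R0Q013.q181_2) (q_cons (Vale.Agent.P032.Lt.q R0Q013.q181_3) (q_cons (Vale.Agent.P032.Lt.q R0Q013.q181_4) (q_cons (Vale.Agent.P032.Lt.q R0Q013.q181_5) q_nil)))))))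

def C182 : List ℕ := [0, 4, 8, 12, 16, 20, 24, 89089, 216065, 344065, 475137, 737281, 9177521144866, 22285673251874, 22841000158226]
theorem p182 : Pat 73 73 TBm TCm (C182.map Fm) R0Q013.P182 R0Q013.I182 := Vale.Agent.P032.Lt.pat_eq (E' := R0Q013.E182) (by decide +kernel) (pat_step (by decide +kernel) (q_cons (Vale.Agent.P032.Lt.q R0Q013.q182_0) (q_cons (Vale.Agent.P032.Lt.q R0Q013.q182_1) (q_cons (Vale.Agent.P032.Lt.q R0Q013.q182_2) (q_cons (Vale.Agent.P032.Lt.q R0Q013.q182_3) (q_cons (Vale.Agent.P032.Lt.q R0Q013.q182_4) (q_cons (Vale.Agent.P032.Lt.q R0Q013.q182_5) (q_cons (Vale.Agent.P032.Lt.q R0Q013.q182_6) (q_cons (Vale.Agent.P032.Lt.q R0Q013.q182_7) (q_cons (Vale.Agent.P032.Lt.q R0Q013.q182_8) (q_cons (Vale.Agent.P032.Lt.q R0Q013.q182_9) (q_cons (Vale.Agent.P032.Lt.q R0Q013.q182_10) (q_cons (Vale.Agent.P032.Lt.q R0Q013.q182_11) (q_cons (Vale.Agent.P032.Lt.q R0Q013.q182_12)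 (q_cons (Vale.Agent.P032.Lt.q R0Q013.q182_13) q_nil)))))))))))))))

theorem p183 : Pat 73 73 TBm TCm (CB.map Fm) R0Q013.P183 R0Q013.I183 := Vale.Agent.P032.Lt.pat_eq (E' := R0Q013.E) eB (pat_step (by decide +kernel) (q_cons (Vale.Agent.P032.Lt.q R0Q013.q183_0) (q_cons (Vale.Agent.P032.Lt.q R0Q013.q183_1) (q_cons (Vale.Agent.P032.Lt.q R0Q013.q183_2) (q_cons (Vale.Agent.P032.Lt.q R0Q013.q183_3) (q_cons (Vale.Agent.P032.Lt.q R0Q013.q183_4) (q_cons (Vale.Agent.P032.Lt.q R0Q013.q183_5) q_nil)))))))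

theorem p184 : Pat 73 73 TBm TCm (CB.map Fm) R0Q013.P184 R0Q013.I184 := Vale.Agent.P032.Lt.pat_eq (E' := R0Q013.E) eB (pat_step (by decide +kernel) (q_cons (Vale.Agent.P032.Lt.q R0Q013.q184_0) (q_cons (Vale.Agent.P032.Lt.q R0Q013.q184_1) (q_cons (Vale.Agent.P032.Lt.q R0Q013.q184_2) (q_cons (Vale.Agent.P032.Lt.q R0Q013.q184_3) (q_cons (Vale.Agent.P032.Lt.q R0Q013.q184_4) (q_cons (Vale.Agent.P032.Lt.q R0Q013.q184_5) (q_cons (Vale.Agent.P032.Lt.q R0Q013.q184_6) (q_cons (Vale.Agent.P032.Lt.q R0Q013.q184_7) (q_cons (Vale.Agent.P032.Lt.q R0Q013.q184_8) (q_cons (Vale.Agent.P032.Lt.q R0Q013.q184_9) q_nil)))))))))))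

def C185 : List ℕ := [0, 4, 8, 12, 16, 20, 24, 347137, 353281, 737281, 23931717376006, 23932659783686]
theorem p185 : Pat 73 73 TBm TCm (C185.map Fm) R0Q013.P185 R0Q013.I185 := Vale.Agent.P032.Lt.pat_eq (E' := R0Q013.E185) (by decide +kernel) (pat_step (by decide +kernel) (q_cons (Vale.Agent.P032.Lt.q R0Q013.q185_0) (q_cons (Vale.Agent.P032.Lt.q R0Q013.q185_1) (q_cons (Vale.Agent.P032.Lt.q R0Q013.q185_2) (q_cons (Vale.Agent.P032.Lt.q R0Q013.q185_3) (q_cons (Vale.Agent.P032.Lt.q R0Q013.q185_4) (q_cons (Vale.Agent.P032.Lt.q R0Q013.q185_5) (q_cons (Vale.Agent.P032.Lt.q R0Q013.q185_6) (q_cons (Vale.Agent.P032.Lt.q R0Q013.q185_7) (q_cons (Vale.Agent.P032.Lt.q R0Q013.q185_8) (q_cons (Vale.Agent.P032.Lt.q R0Q013.q185_9) (q_cons (Vale.Agent.P032.Lt.q R0Q013.q185_10) (q_cons (Vale.Agent.P032.Lt.q R0Q013.q185_11) (q_cons (Vale.Agent.P032.Lt.q R0Q013.q185_12) (q_cons (Vale.Agent.P032.Lt.q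 R0Q013.q185_13) (q_cons (Vale.Agent.P032.Lt.q R0Q013.q185_14) (q_cons (Vale.Agent.P032.Lt.q R0Q013.q185_15) (q_cons (Vale.Agent.P032.Lt.q R0Q013.q185_16) (q_cons (Vale.Agent.P032.Lt.q R0Q013.q185_17) (q_cons (Vale.Agent.P032.Lt.q R0Q013.q185_18) (q_cons (Vale.Agent.P032.Lt.q R0Q013.q185_19) q_nil)))))))))))))))))))))

def C186 : List ℕ := [0, 4, 8, 12, 16, 20, 24, 84993, 349185, 475137, 737281, 9115398267922, 9115400102930, 9647235886106]
theorem p186 : Pat 73 73 TBm TCm (C186.map Fm) R0Q013.P186 R0Q013.I186 := Vale.Agent.P032.Lt.pat_eq (E' := R0Q013.E186) (by decide +kernel) (pat_step (by decide +kernel) (q_cons (Vale.Agent.P032.Lt.q R0Q013.q186_0) (q_cons (Vale.Agent.P032.Lt.q R0Q013.q186_1) (q_cons (Vale.Agent.P032.Lt.q R0Q013.q186_2) (q_cons (Vale.Agent.P032.Lt.q R0Q013.q186_3) (q_cons (Vale.Agent.P032.Lt.q R0Q013.q186_4) (q_cons (Vale.Agent.P032.Lt.q R0Q013.q186_5) (q_cons (Vale.Agent.P032.Lt.q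 R0Q013.q186_6) (q_cons (Vale.Agent.P032.Lt.q R0Q013.q186_7) q_nil)))))))))

def C187 : List ℕ := [0, 4, 8, 12, 16, 20, 24, 82945, 214017, 216065, 347137, 349185, 476161, 478209, 9715869244426, 13376227859466, 13924870349842, 14646479381522]
theorem p187 : Pat 73 73 TBm TCm (C187.map Fm) R0Q014.P187 R0Q014.I187 := Vale.Agent.P032.Lt.pat_eq (E' := R0Q014.E187) (by decide +kernel) (pat_step (by decide +kernel) (q_cons (Vale.Agent.P032.Lt.q R0Q014.q187_0) q_nil))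

def C188 : List ℕ := [0, 4, 8, 12, 16, 20, 24, 214017, 353281, 355329, 475137, 476161, 617473, 737281, 9046818507818, 14122124008458, 23729722447878, 23729785362438, 23789864572934, 23789872961542]
theorem p188 : Pat 73 73 TBm TCm (C188.map Fm) R0Q014.P188 R0Q014.I188 := Vale.Agent.P032.Lt.pat_eq (E' := R0Q014.E188) (by decide +kernel) (pat_step (by decide +kernel) (q_cons (Vale.Agent.P032.Lt.q R0Q014.q188_0) (q_cons (Vale.Agent.P032.Lt.q R0Q014.q188_1) (q_cons (Vale.Agent.P032.Lt.q R0Q014.q188_2) (q_cons (Vale.Agent.P032.Lt.q R0Q014.q188_3) (q_cons (Vale.Agent.P032.Lt.q R0Q014.q188_4) (q_cons (Vale.Agent.P032.Lt.q R0Q014.q188_5) (q_cons (Vale.Agent.P032.Lt.q R0Q014.q188_6) q_nil))))))))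

theorem p189 : Pat 73 73 TBm TCm (CB.map Fm) R0Q014.P189 R0Q014.I189 := Vale.Agent.P032.Lt.pat_eq (E' := R0Q014.E) eB (pat_step (by decide +kernel) (q_cons (Vale.Agent.P032.Lt.q R0Q014.q189_0) (q_cons (Vale.Agent.P032.Lt.q R0Q014.q189_1) (q_cons (Vale.Agent.P032.Lt.q R0Q014.q189_2) (q_cons (Vale.Agent.P032.Lt.q R0Q014.q189_3) (q_cons (Vale.Agent.P032.Lt.q R0Q014.q189_4) (q_cons (Vale.Agent.P032.Lt.q R0Q014.q189_5) (q_cons (Vale.Agent.P032.Lt.q R0Q014.q189_6) (q_cons (Vale.Agent.P032.Lt.q R0Q014.q189_7) (q_cons (Vale.Agent.P032.Lt.q R0Q014.q189_8) (q_cons (Vale.Agent.P032.Lt.q R0Q014.q189_9) (q_cons (Vale.Agent.P032.Lt.q R0Q014.q189_10) (q_cons (Vale.Agent.P032.Lt.q R0Q014.q189_11) (q_cons (Vale.Agent.P032.Lt.q R0Q014.q189_12) (q_cons (Vale.Agent.P032.Lt.q R0Q014.q189_13) (q_cons (Vale.Agent.P032.Lt.q R0Q014.q189_14) (q_cons (Vale.Agent.P032.Lt.q R0Q014.q189_15) (q_cons (Vale.Agent.P032.Lt.q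 R0Q014.q189_16) (q_cons (Vale.Agent.P032.Lt.q R0Q014.q189_17) (q_cons (Vale.Agent.P032.Lt.q R0Q014.q189_18) (q_cons (Vale.Agent.P032.Lt.q R0Q014.q189_19) (q_cons (Vale.Agent.P032.Lt.q R0Q014.q189_20) (q_cons (Vale.Agent.P032.Lt.q R0Q014.q189_21) (q_cons (Vale.Agent.P032.Lt.q R0Q014.q189_22) (q_cons (Vale.Agent.P032.Lt.q R0Q014.q189_23) (q_cons (Vale.Agent.P032.Lt.q R0Q014.q189_24) (q_cons (Vale.Agent.P032.Lt.q R0Q014.q189_25) (q_cons (Vale.Agent.P032.Lt.q R0Q014.q189_26) (q_cons (Vale.Agent.P032.Lt.q R0Q014.q189_27) (q_cons (Vale.Agent.P032.Lt.q R0Q014.q189_28) (q_cons (Vale.Agent.P032.Lt.q R0Q014.q189_29) (q_cons (Vale.Agent.P032.Lt.q R0Q014.q189_30) (q_cons (Vale.Agent.P032.Lt.q R0Q014.q189_31) (q_cons (Vale.Agent.P032.Lt.q R0Q014.q189_32) (q_cons (Vale.Agent.P032.Lt.q R0Q014.q189_33) (q_cons (Vale.Agent.P032.Lt.q R0Q014.q189_34) (q_cons (Vale.Agent.P032.Lt.q R0Q014.q189_35) (q_cons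 (Vale.Agent.P032.Lt.q R0Q014.q189_36) (q_cons (Vale.Agent.P032.Lt.q R0Q014.q189_37) (q_cons (Vale.Agent.P032.Lt.q R0Q014.q189_38) (q_cons (Vale.Agent.P032.Lt.q R0Q014.q189_39) (q_cons (Vale.Agent.P032.Lt.q R0Q014.q189_40) q_nil))))))))))))))))))))))))))))))))))))))))))

theorem p190 : Pat 73 73 TBm TCm (CB.map Fm) R0Q014.P190 R0Q014.I190 := Vale.Agent.P032.Lt.pat_eq (E' := R0Q014.E) eB (pat_step (by decide +kernel) (q_cons (Vale.Agent.P032.Lt.q R0Q014.q190_0) (q_cons (Vale.Agent.P032.Lt.q R0Q014.q190_1) (q_cons (Vale.Agent.P032.Lt.q R0Q014.q190_2) q_nil))))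

def C191 : List ℕ := [0, 4, 8, 12, 16, 20, 24, 606209, 738305, 23308857728010]
theorem p191 : Pat 73 73 TBm TCm (C191.map Fm) R0Q014.P191 R0Q014.I191 := Vale.Agent.P032.Lt.pat_eq (E' := R0Q014.E191) (by decide +kernel) (pat_step (by decide +kernel) (q_cons (Vale.Agent.P032.Lt.q R0Q014.q191_0) (q_cons (Vale.Agent.P032.Lt.q R0Q014.q191_1) (q_cons (Vale.Agent.P032.Lt.q R0Q014.q191_2) (q_cons (Vale.Agent.P032.Lt.q R0Q014.q191_3) (q_cons (Vale.Agent.P032.Lt.q R0Q014.q191_4) (q_cons (Vale.Agent.P032.Lt.q R0Q014.q191_5) (q_cons (Vale.Agent.P032.Lt.q R0Q014.q191_6) (q_cons (Vale.Agent.P032.Lt.q R0Q014.q191_7) (q_cons (Vale.Agent.P032.Lt.q R0Q014.q191_8) (q_cons (Vale.Agent.P032.Lt.q R0Q014.q191_9) (q_cons (Vale.Agent.P032.Lt.q R0Q014.q191_10) q_nil))))))))))))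

def C192 : List ℕ := [0, 4, 8, 12, 16, 20, 24, 87041, 214017, 220161, 345089, 476161, 480257, 483329, 607233, 611329, 738305, 9651905846282, 13371518830630, 13513382128666, 14124089039882, 17962934692890, 18511659484194, 18791654972426, 19595810266122, 24285990050826]
theorem p192 : Pat 73 73 TBm TCm (C192.map Fm) R0Q014.P192 R0Q014.I192 := Vale.Agent.P032.Lt.pat_eq (E' := R0Q014.E192) (by decide +kernel) (pat_step (by decide +kernel) (q_cons (Vale.Agent.P032.Lt.q R0Q014.q192_0) (q_cons (Vale.Agent.P032.Lt.q R0Q014.q192_1) (q_cons (Vale.Agent.P032.Lt.q R0Q014.q192_2) (q_cons (Vale.Agent.P032.Lt.q R0Q014.q192_3) q_nil)))))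

def C193 : List ℕ := [0, 4, 8, 12, 16, 20, 24, 212993, 216065, 478209, 606209, 737281]
theorem p193 : Pat 73 73 TBm TCm (C193.map Fm) R0Q014.P193 R0Q014.I193 := Vale.Agent.P032.Lt.pat_eq (E' := R0Q014.E193) (by decide +kernel) (pat_step (by decide +kernel) (q_cons (Vale.Agent.P032.Lt.q R0Q014.q193_0) (q_cons (Vale.Agent.P032.Lt.q R0Q014.q193_1) (q_cons (Vale.Agent.P032.Lt.q R0Q014.q193_2) (q_cons (Vale.Agent.P032.Lt.q R0Q014.q193_3) (q_cons (Vale.Agent.P032.Lt.q R0Q014.q193_4) (q_cons (Vale.Agent.P032.Lt.q R0Q014.q193_5) (q_cons (Vale.Agent.P032.Lt.q R0Q014.q193_6) (q_cons (Vale.Agent.P032.Lt.q R0Q014.q193_7) (q_cons (Vale.Agent.P032.Lt.q R0Q014.q193_8) (q_cons (Vale.Agent.P032.Lt.q R0Q014.q193_9) (q_cons (Vale.Agent.P032.Lt.q R0Q014.q193_10) (q_cons (Vale.Agent.P032.Lt.q R0Q014.q193_11) (q_cons (Vale.Agent.P032.Lt.q R0Q014.q193_12) (q_cons (Vale.Agent.P032.Lt.q R0Q014.q193_13)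 (q_cons (Vale.Agent.P032.Lt.q R0Q014.q193_14) (q_cons (Vale.Agent.P032.Lt.q R0Q014.q193_15) (q_cons (Vale.Agent.P032.Lt.q R0Q014.q193_16) (q_cons (Vale.Agent.P032.Lt.q R0Q014.q193_17) q_nil)))))))))))))))))))

theorem p194 : Pat 73 73 TBm TCm (CB.map Fm) R0Q014.P194 R0Q014.I194 := Vale.Agent.P032.Lt.pat_eq (E' := R0Q014.E) eB (pat_step (by decide +kernel) (q_cons (Vale.Agent.P032.Lt.q R0Q014.q194_0) (q_cons (Vale.Agent.P032.Lt.q R0Q014.q194_1) (q_cons (Vale.Agent.P032.Lt.q R0Q014.q194_2) (q_cons (Vale.Agent.P032.Lt.q R0Q014.q194_3) (q_cons (Vale.Agent.P032.Lt.q R0Q014.q194_4) (q_cons (Vale.Agent.P032.Lt.q R0Q014.q194_5) (q_cons (Vale.Agent.P032.Lt.q R0Q014.q194_6) (q_cons (Vale.Agent.P032.Lt.q R0Q014.q194_7) (q_cons (Vale.Agent.P032.Lt.q R0Q014.q194_8) q_nil))))))))))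

def C195 : List ℕ := [0, 4, 8, 12, 16, 20, 24, 84993, 91137, 212993, 349185, 355329, 476161, 606209, 737281, 9169895123994, 9169958038554]
theorem p195 : Pat 73 73 TBm TCm (C195.map Fm) R0Q014.P195 R0Q014.I195 := Vale.Agent.P032.Lt.pat_eq (E' := R0Q014.E195) (by decide +kernel) (pat_step (by decide +kernel) (q_cons (Vale.Agent.P032.Lt.q R0Q014.q195_0) (q_cons (Vale.Agent.P032.Lt.q R0Q014.q195_1) (q_cons (Vale.Agent.P032.Lt.q R0Q014.q195_2) (q_cons (Vale.Agent.P032.Lt.q R0Q014.q195_3) (q_cons (Vale.Agent.P032.Lt.q R0Q014.q195_4) (q_cons (Vale.Agent.P032.Lt.q R0Q014.q195_5) q_nil)))))))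

def C196 : List ℕ := [0, 4, 8, 12, 16, 20, 24, 82945, 84993, 214017, 216065, 344065, 475137, 478209, 607233, 738305, 9715869508626, 13556574807058, 13559393379346, 14646387234822, 22165453888522, 22715078499338, 24338509028362]
theorem p196 : Pat 73 73 TBm TCm (C196.map Fm) R0Q014.P196 R0Q014.I196 := Vale.Agent.P032.Lt.pat_eq (E' := R0Q014.E196) (by decide +kernel) (pat_step (by decide +kernel) (q_cons (Vale.Agent.P032.Lt.q R0Q014.q196_0) q_nil))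

theorem p197 : Pat 73 73 TBm TCm (CB.map Fm) R0Q014.P197 R0Q014.I197 := Vale.Agent.P032.Lt.pat_eq (E' := R0Q014.E) eB (pat_step (by decide +kernel) (q_cons (Vale.Agent.P032.Lt.q R0Q014.q197_0) (q_cons (Vale.Agent.P032.Lt.q R0Q014.q197_1) (q_cons (Vale.Agent.P032.Lt.q R0Q014.q197_2) (q_cons (Vale.Agent.P032.Lt.q R0Q014.q197_3) (q_cons (Vale.Agent.P032.Lt.q R0Q014.q197_4) (q_cons (Vale.Agent.P032.Lt.q R0Q014.q197_5) (q_cons (Vale.Agent.P032.Lt.q R0Q014.q197_6) (q_cons (Vale.Agent.P032.Lt.q R0Q014.q197_7) q_nil)))))))))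

def C198 : List ℕ := [0, 4, 8, 12, 16, 20, 24, 82945, 89089, 214017, 216065, 476161, 478209, 607233, 609281, 9049653593122, 9170004952098, 13376227859466, 13556633263114, 17842660662282, 18391340637194]
theorem p198 : Pat 73 73 TBm TCm (C198.map Fm) R0Q014.P198 R0Q014.I198 := Vale.Agent.P032.Lt.pat_eq (E' := R0Q014.E198) (by decide +kernel) (pat_step (by decide +kernel) (q_cons (Vale.Agent.P032.Lt.q R0Q014.q198_0) (q_cons (Vale.Agent.P032.Lt.q R0Q014.q198_1) (q_cons (Vale.Agent.P032.Lt.q R0Q014.q198_2) (q_cons (Vale.Agent.P032.Lt.q R0Q014.q198_3) (q_cons (Vale.Agent.P032.Lt.q R0Q014.q198_4) (q_cons (Vale.Agent.P032.Lt.q R0Q014.q198_5) (q_cons (Vale.Agent.P032.Lt.q R0Q014.q198_6) (q_cons (Vale.Agent.P032.Lt.q R0Q014.q198_7) (q_cons (Vale.Agent.P032.Lt.q R0Q014.q198_8) (q_cons (Vale.Agent.P032.Lt.q R0Q014.q198_9) (q_cons (Vale.Agent.P032.Lt.q R0Q014.q198_10) (q_cons (Vale.Agent.P032.Lt.q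 R0Q014.q198_11) (q_cons (Vale.Agent.P032.Lt.q R0Q014.q198_12) (q_cons (Vale.Agent.P032.Lt.q R0Q014.q198_13) (q_cons (Vale.Agent.P032.Lt.q R0Q014.q198_14) (q_cons (Vale.Agent.P032.Lt.q R0Q014.q198_15) (q_cons (Vale.Agent.P032.Lt.q R0Q014.q198_16) (q_cons (Vale.Agent.P032.Lt.q R0Q014.q198_17) (q_cons (Vale.Agent.P032.Lt.q R0Q014.q198_18) (q_cons (Vale.Agent.P032.Lt.q R0Q014.q198_19) (q_cons (Vale.Agent.P032.Lt.q R0Q014.q198_20) (q_cons (Vale.Agent.P032.Lt.q R0Q014.q198_21) (q_cons (Vale.Agent.P032.Lt.q R0Q014.q198_22) (q_cons (Vale.Agent.P032.Lt.q R0Q014.q198_23) (q_cons (Vale.Agent.P032.Lt.q R0Q014.q198_24) (q_cons (Vale.Agent.P032.Lt.q R0Q014.q198_25) (q_cons (Vale.Agent.P032.Lt.q R0Q014.q198_26) q_nil))))))))))))))))))))))))))))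

def C199 : List ℕ := [0, 4, 8, 12, 16, 20, 24, 737281, 14109048263730, 24412755810310, 24413695989766]
theorem p199 : Pat 73 73 TBm TCm (C199.map Fm) R0Q014.P199 R0Q014.I199 := Vale.Agent.P032.Lt.pat_eq (E' := R0Q014.E199) (by decide +kernel) (pat_step (by decide +kernel) (q_cons (Vale.Agent.P032.Lt.q R0Q014.q199_0) (q_cons (Vale.Agent.P032.Lt.q R0Q014.q199_1) (q_cons (Vale.Agent.P032.Lt.q R0Q014.q199_2) (q_cons (Vale.Agent.P032.Lt.q R0Q014.q199_3) (q_cons (Vale.Agent.P032.Lt.q R0Q014.q199_4) (q_cons (Vale.Agent.P032.Lt.q R0Q014.q199_5) (q_cons (Vale.Agent.P032.Lt.q R0Q014.q199_6) (q_cons (Vale.Agent.P032.Lt.q R0Q014.q199_7) q_nil)))))))))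

theorem p200 : Pat 73 73 TBm TCm (CB.map Fm) R0Q015.P200 R0Q015.I200 := Vale.Agent.P032.Lt.pat_eq (E' := R0Q015.E) eB (pat_step (by decide +kernel) (q_cons (Vale.Agent.P032.Lt.q R0Q015.q200_0) (q_cons (Vale.Agent.P032.Lt.q R0Q015.q200_1) (q_cons (Vale.Agent.P032.Lt.q R0Q015.q200_2) (q_cons (Vale.Agent.P032.Lt.q R0Q015.q200_3) (q_cons (Vale.Agent.P032.Lt.q R0Q015.q200_4) (q_cons (Vale.Agent.P032.Lt.q R0Q015.q200_5) (q_cons (Vale.Agent.P032.Lt.q R0Q015.q200_6) (q_cons (Vale.Agent.P032.Lt.q R0Q015.q200_7) (q_cons (Vale.Agent.P032.Lt.q R0Q015.q200_8) (q_cons (Vale.Agent.P032.Lt.q R0Q015.q200_9) (q_cons (Vale.Agent.P032.Lt.q R0Q015.q200_10) (q_cons (Vale.Agent.P032.Lt.q R0Q015.q200_11) (q_cons (Vale.Agent.P032.Lt.q R0Q015.q200_12) (q_cons (Vale.Agent.P032.Lt.q R0Q015.q200_13) (q_cons (Vale.Agent.P032.Lt.q R0Q015.q200_14) (q_cons (Vale.Agent.P032.Lt.q R0Q015.q200_15) (q_cons (Vale.Agent.P032.Lt.q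 R0Q015.q200_16) (q_cons (Vale.Agent.P032.Lt.q R0Q015.q200_17) (q_cons (Vale.Agent.P032.Lt.q R0Q015.q200_18) (q_cons (Vale.Agent.P032.Lt.q R0Q015.q200_19) q_nil)))))))))))))))))))))

theorem p201 : Pat 73 73 TBm TCm (CB.map Fm) R0Q015.P201 R0Q015.I201 := Vale.Agent.P032.Lt.pat_eq (E' := R0Q015.E) eB (pat_step (by decide +kernel) (q_cons (Vale.Agent.P032.Lt.q R0Q015.q201_0) q_nil))

def C202 : List ℕ := [0, 4, 8, 12, 16, 20, 24, 87041, 214017, 218113, 349185, 351233, 476161, 611329, 738305, 9167152825378, 9177514077210, 18325624286234, 18911929265178, 22707589569546, 23789824859146]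
theorem p202 : Pat 73 73 TBm TCm (C202.map Fm) R0Q015.P202 R0Q015.I202 := Vale.Agent.P032.Lt.pat_eq (E' := R0Q015.E202) (by decide +kernel) (pat_step (by decide +kernel) (q_cons (Vale.Agent.P032.Lt.q R0Q015.q202_0) (q_cons (Vale.Agent.P032.Lt.q R0Q015.q202_1) (q_cons (Vale.Agent.P032.Lt.q R0Q015.q202_2) (q_cons (Vale.Agent.P032.Lt.q R0Q015.q202_3) (q_cons (Vale.Agent.P032.Lt.q R0Q015.q202_4) (q_cons (Vale.Agent.P032.Lt.q R0Q015.q202_5) (q_cons (Vale.Agent.P032.Lt.q R0Q015.q202_6) (q_cons (Vale.Agent.P032.Lt.q R0Q015.q202_7) (q_cons (Vale.Agent.P032.Lt.q R0Q015.q202_8) q_nil))))))))))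

def C203 : List ℕ := [0, 4, 8, 12, 16, 20, 24, 84993, 347137, 475137, 478209, 607233, 737281, 740353, 9651955520562, 9651955913778]
theorem p203 : Pat 73 73 TBm TCm (C203.map Fm) R0Q015.P203 R0Q015.I203 := Vale.Agent.P032.Lt.pat_eq (E' := R0Q015.E203) (by decide +kernel) (pat_step (by decide +kernel) (q_cons (Vale.Agent.P032.Lt.q R0Q015.q203_0) (q_cons (Vale.Agent.P032.Lt.q R0Q015.q203_1) (q_cons (Vale.Agent.P032.Lt.q R0Q015.q203_2) (q_cons (Vale.Agent.P032.Lt.q R0Q015.q203_3) (q_cons (Vale.Agent.P032.Lt.q R0Q015.q203_4) (q_cons (Vale.Agent.P032.Lt.q R0Q015.q203_5) (q_cons (Vale.Agent.P032.Lt.q R0Q015.q203_6) (q_cons (Vale.Agent.P032.Lt.q R0Q015.q203_7) (q_cons (Vale.Agent.P032.Lt.q R0Q015.q203_8) (q_cons (Vale.Agent.P032.Lt.q R0Q015.q203_9) q_nil)))))))))))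

theorem p204 : Pat 73 73 TBm TCm (CB.map Fm) R0Q015.P204 R0Q015.I204 := Vale.Agent.P032.Lt.pat_eq (E' := R0Q015.E) eB (pat_step (by decide +kernel) (q_cons (Vale.Agent.P032.Lt.q R0Q015.q204_0) (q_cons (Vale.Agent.P032.Lt.q R0Q015.q204_1) (q_cons (Vale.Agent.P032.Lt.q R0Q015.q204_2) (q_cons (Vale.Agent.P032.Lt.q R0Q015.q204_3) (q_cons (Vale.Agent.P032.Lt.q R0Q015.q204_4) (q_cons (Vale.Agent.P032.Lt.q R0Q015.q204_5) (q_cons (Vale.Agent.P032.Lt.q R0Q015.q204_6) (q_cons (Vale.Agent.P032.Lt.q R0Q015.q204_7) (q_cons (Vale.Agent.P032.Lt.q R0Q015.q204_8) q_nil))))))))))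

theorem p205 : Pat 73 73 TBm TCm (CB.map Fm) R0Q015.P205 R0Q015.I205 := Vale.Agent.P032.Lt.pat_eq (E' := R0Q015.E) eB (pat_step (by decide +kernel) (q_cons (Vale.Agent.P032.Lt.q R0Q015.q205_0) (q_cons (Vale.Agent.P032.Lt.q R0Q015.q205_1) (q_cons (Vale.Agent.P032.Lt.q R0Q015.q205_2) (q_cons (Vale.Agent.P032.Lt.q R0Q015.q205_3) (q_cons (Vale.Agent.P032.Lt.q R0Q015.q205_4) (q_cons (Vale.Agent.P032.Lt.q R0Q015.q205_5) (q_cons (Vale.Agent.P032.Lt.q R0Q015.q205_6) (q_cons (Vale.Agent.P032.Lt.q R0Q015.q205_7) (q_cons (Vale.Agent.P032.Lt.q R0Q015.q205_8) q_nil))))))))))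

def C206 : List ℕ := [0, 4, 8, 12, 16, 20, 24, 212993, 606209, 737281]
theorem p206 : Pat 73 73 TBm TCm (C206.map Fm) R0Q015.P206 R0Q015.I206 := Vale.Agent.P032.Lt.pat_eq (E' := R0Q015.E206) (by decide +kernel) (pat_step (by decide +kernel) (q_cons (Vale.Agent.P032.Lt.q R0Q015.q206_0) (q_cons (Vale.Agent.P032.Lt.q R0Q015.q206_1) (q_cons (Vale.Agent.P032.Lt.q R0Q015.q206_2) q_nil))))

theorem p207 : Pat 73 73 TBm TCm (CB.map Fm) R0Q015.P207 R0Q015.I207 := Vale.Agent.P032.Lt.pat_eq (E' := R0Q015.E) eB (pat_step (by decide +kernel) (q_cons (Vale.Agent.P032.Lt.q R0Q015.q207_0) (q_cons (Vale.Agent.P032.Lt.q R0Q015.q207_1) (q_cons (Vale.Agent.P032.Lt.q R0Q015.q207_2) (q_cons (Vale.Agent.P032.Lt.q R0Q015.q207_3) (q_cons (Vale.Agent.P032.Lt.q R0Q015.q207_4) (q_cons (Vale.Agent.P032.Lt.q R0Q015.q207_5) (q_cons (Vale.Agent.P032.Lt.q R0Q015.q207_6) q_nil))))))))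

def C208 : List ℕ := [0, 4, 8, 12, 16, 20, 24, 214017, 216065, 347137, 478209, 606209, 737281, 745473, 9595517885450, 9595562058770, 9595608196114, 13924870349842, 14105242199058, 18391432651794, 22157877135398, 22157910689830, 22218023454758, 22218090563622]
theorem p208 : Pat 73 73 TBm TCm (C208.map Fm) R0Q015.P208 R0Q015.I208 := Vale.Agent.P032.Lt.pat_eq (E' := R0Q015.E208) (by decide +kernel) (pat_step (by decide +kernel) (q_cons (Vale.Agent.P032.Lt.q R0Q015.q208_0) (q_cons (Vale.Agent.P032.Lt.q R0Q015.q208_1) (q_cons (Vale.Agent.P032.Lt.q R0Q015.q208_2) (q_cons (Vale.Agent.P032.Lt.q R0Q015.q208_3) (q_cons (Vale.Agent.P032.Lt.q R0Q015.q208_4) (q_cons (Vale.Agent.P032.Lt.q R0Q015.q208_5) (q_cons (Vale.Agent.P032.Lt.q R0Q015.q208_6) (q_cons (Vale.Agent.P032.Lt.q R0Q015.q208_7) (q_cons (Vale.Agent.P032.Lt.q R0Q015.q208_8) (q_cons (Vale.Agent.P032.Lt.q R0Q015.q208_9) (q_cons (Vale.Agent.P032.Lt.q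 R0Q015.q208_10) (q_cons (Vale.Agent.P032.Lt.q R0Q015.q208_11) (q_cons (Vale.Agent.P032.Lt.q R0Q015.q208_12) (q_cons (Vale.Agent.P032.Lt.q R0Q015.q208_13) (q_cons (Vale.Agent.P032.Lt.q R0Q015.q208_14) (q_cons (Vale.Agent.P032.Lt.q R0Q015.q208_15) (q_cons (Vale.Agent.P032.Lt.q R0Q015.q208_16) (q_cons (Vale.Agent.P032.Lt.q R0Q015.q208_17) (q_cons (Vale.Agent.P032.Lt.q R0Q015.q208_18) (q_cons (Vale.Agent.P032.Lt.q R0Q015.q208_19) (q_cons (Vale.Agent.P032.Lt.q R0Q015.q208_20) (q_cons (Vale.Agent.P032.Lt.q R0Q015.q208_21) (q_cons (Vale.Agent.P032.Lt.q R0Q015.q208_22) (q_cons (Vale.Agent.P032.Lt.q R0Q015.q208_23) (q_cons (Vale.Agent.P032.Lt.q R0Q015.q208_24) (q_cons (Vale.Agent.P032.Lt.q R0Q015.q208_25) (q_cons (Vale.Agent.P032.Lt.q R0Q015.q208_26) q_nil))))))))))))))))))))))))))))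

def C209 : List ℕ := [0, 4, 8, 12, 16, 20, 24, 82945, 212993, 344065, 606209, 737281, 19047112731674, 24275583195142, 24275585292294, 24278391937030, 24278404519942, 24278404651014, 24278459045894]
theorem p209 : Pat 73 73 TBm TCm (C209.map Fm) R0Q015.P209 R0Q015.I209 := Vale.Agent.P032.Lt.pat_eq (E' := R0Q015.E209) (by decide +kernel) (pat_step (by decide +kernel) (q_cons (Vale.Agent.P032.Lt.q R0Q015.q209_0) q_nil))

def C210 : List ℕ := [0, 4, 8, 12, 16, 20, 24, 214017, 216065, 347137, 349185, 475137, 478209, 606209, 609281, 737281, 4651742092298, 9102290021402, 9599366161426, 14041427698706, 19044295207962, 24275583457286, 24275583719430, 24275585554438, 24278402553862]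
theorem p210 : Pat 73 73 TBm TCm (C210.map Fm) R0Q015.P210 R0Q015.I210 := Vale.Agent.P032.Lt.pat_eq (E' := R0Q015.E210) (by decide +kernel) (pat_step (by decide +kernel) (q_cons (Vale.Agent.P032.Lt.q R0Q015.q210_0) (q_cons (Vale.Agent.P032.Lt.q R0Q015.q210_1) (q_cons (Vale.Agent.P032.Lt.q R0Q015.q210_2) q_nil))))

theorem p211 : Pat 73 73 TBm TCm (CB.map Fm) R0Q016.P211 R0Q016.I211 := Vale.Agent.P032.Lt.pat_eq (E' := R0Q016.E) eB (pat_step (by decide +kernel) (q_cons (Vale.Agent.P032.Lt.q R0Q016.q211_0) (q_cons (Vale.Agent.P032.Lt.q R0Q016.q211_1) (q_cons (Vale.Agent.P032.Lt.q R0Q016.q211_2) (q_cons (Vale.Agent.P032.Lt.q R0Q016.q211_3) (q_cons (Vale.Agent.P032.Lt.q R0Q016.q211_4) (q_cons (Vale.Agent.P032.Lt.q R0Q016.q211_5) (q_cons (Vale.Agent.P032.Lt.q R0Q016.q211_6) (q_cons (Vale.Agent.P032.Lt.q R0Q016.q211_7) (q_cons (Vale.Agent.P032.Lt.q R0Q016.q211_8) (q_cons (Vale.Agent.P032.Lt.q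 R0Q016.q211_9) (q_cons (Vale.Agent.P032.Lt.q R0Q016.q211_10) (q_cons (Vale.Agent.P032.Lt.q R0Q016.q211_11) (q_cons (Vale.Agent.P032.Lt.q R0Q016.q211_12) q_nil))))))))))))))

def C212 : List ℕ := [0, 4, 8, 12, 16, 20, 24, 89089, 347137, 351233, 611329, 740353, 9177407898658, 18310634892314, 23376471876626]
theorem p212 : Pat 73 73 TBm TCm (C212.map Fm) R0Q016.P212 R0Q016.I212 := Vale.Agent.P032.Lt.pat_eq (E' := R0Q016.E212) (by decide +kernel) (pat_step (by decide +kernel) (q_cons (Vale.Agent.P032.Lt.q R0Q016.q212_0) (q_cons (Vale.Agent.P032.Lt.q R0Q016.q212_1) (q_cons (Vale.Agent.P032.Lt.q R0Q016.q212_2) (q_cons (Vale.Agent.P032.Lt.q R0Q016.q212_3) (q_cons (Vale.Agent.P032.Lt.q R0Q016.q212_4) q_nil))))))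

theorem p213 : Pat 73 73 TBm TCm (CB.map Fm) R0Q016.P213 R0Q016.I213 := Vale.Agent.P032.Lt.pat_eq (E' := R0Q016.E) eB (pat_step (by decide +kernel) (q_cons (Vale.Agent.P032.Lt.q R0Q016.q213_0) (q_cons (Vale.Agent.P032.Lt.q R0Q016.q213_1) (q_cons (Vale.Agent.P032.Lt.q R0Q016.q213_2) (q_cons (Vale.Agent.P032.Lt.q R0Q016.q213_3) (q_cons (Vale.Agent.P032.Lt.q R0Q016.q213_4) (q_cons (Vale.Agent.P032.Lt.q R0Q016.q213_5) (q_cons (Vale.Agent.P032.Lt.q R0Q016.q213_6) (q_cons (Vale.Agent.P032.Lt.q R0Q016.q213_7) (q_cons (Vale.Agent.P032.Lt.q R0Q016.q213_8) q_nil))))))))))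

theorem p214 : Pat 73 73 TBm TCm (CB.map Fm) R0Q016.P214 R0Q016.I214 := Vale.Agent.P032.Lt.pat_eq (E' := R0Q016.E) eB (pat_step (by decide +kernel) (q_cons (Vale.Agent.P032.Lt.q R0Q016.q214_0) (q_cons (Vale.Agent.P032.Lt.q R0Q016.q214_1) (q_cons (Vale.Agent.P032.Lt.q R0Q016.q214_2) (q_cons (Vale.Agent.P032.Lt.q R0Q016.q214_3) (q_cons (Vale.Agent.P032.Lt.q R0Q016.q214_4) (q_cons (Vale.Agent.P032.Lt.q R0Q016.q214_5) (q_cons (Vale.Agent.P032.Lt.q R0Q016.q214_6) (q_cons (Vale.Agent.P032.Lt.q R0Q016.q214_7) q_nil)))))))))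

def C215 : List ℕ := [0, 4, 8, 12, 16, 20, 24, 212993, 344065, 475137, 9599256450098, 9599323558962]
theorem p215 : Pat 73 73 TBm TCm (C215.map Fm) R0Q016.P215 R0Q016.I215 := Vale.Agent.P032.Lt.pat_eq (E' := R0Q016.E215) (by decide +kernel) (pat_step (by decide +kernel) (q_cons (Vale.Agent.P032.Lt.q R0Q016.q215_0) (q_cons (Vale.Agent.P032.Lt.q R0Q016.q215_1) (q_cons (Vale.Agent.P032.Lt.q R0Q016.q215_2) (q_cons (Vale.Agent.P032.Lt.q R0Q016.q215_3) (q_cons (Vale.Agent.P032.Lt.q R0Q016.q215_4) (q_cons (Vale.Agent.P032.Lt.q R0Q016.q215_5) (q_cons (Vale.Agent.P032.Lt.q R0Q016.q215_6) (q_cons (Vale.Agent.P032.Lt.q R0Q016.q215_7) (q_cons (Vale.Agent.P032.Lt.q R0Q016.q215_8) (q_cons (Vale.Agent.P032.Lt.q R0Q016.q215_9) (q_cons (Vale.Agent.P032.Lt.q R0Q016.q215_10) q_nil))))))))))))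

def C216 : List ℕ := [0, 4, 8, 12, 16, 20, 24, 475137, 737281]
theorem p216 : Pat 73 73 TBm TCm (C216.map Fm) R0Q016.P216 R0Q016.I216 := Vale.Agent.P032.Lt.pat_eq (E' := R0Q016.E216) (by decide +kernel) (pat_step (by decide +kernel) (q_cons (Vale.Agent.P032.Lt.q R0Q016.q216_0) (q_cons (Vale.Agent.P032.Lt.q R0Q016.q216_1) (q_cons (Vale.Agent.P032.Lt.q R0Q016.q216_2) (q_cons (Vale.Agent.P032.Lt.q R0Q016.q216_3) (q_cons (Vale.Agent.P032.Lt.q R0Q016.q216_4) (q_cons (Vale.Agent.P032.Lt.q R0Q016.q216_5) q_nil)))))))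

def C217 : List ℕ := [0, 4, 8, 12, 16, 20, 24, 81921, 212993, 214017, 344065, 475137, 476161, 611329, 738305, 742401, 22835299834890, 23931723799562, 24404318841882, 24404322380826]
theorem p217 : Pat 73 73 TBm TCm (C217.map Fm) R0Q016.P217 R0Q016.I217 := Vale.Agent.P032.Lt.pat_eq (E' := R0Q016.E217) (by decide +kernel) (pat_step (by decide +kernel) (q_cons (Vale.Agent.P032.Lt.q R0Q016.q217_0) (q_cons (Vale.Agent.P032.Lt.q R0Q016.q217_1) (q_cons (Vale.Agent.P032.Lt.q R0Q016.q217_2) (q_cons (Vale.Agent.P032.Lt.q R0Q016.q217_3) q_nil)))))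

def C218 : List ℕ := [0, 4, 8, 12, 16, 20, 24, 82945, 89089, 214017, 222209, 476161, 606209, 607233, 737281, 9169891705890, 9170004952098, 17842660662282, 17962898775050, 18511580584970, 24278391937030, 24278404519942, 24338546644998, 24338555033606, 24338613753862]
theorem p218 : Pat 73 73 TBm TCm (C218.map Fm) R0Q016.P218 R0Q016.I218 := Vale.Agent.P032.Lt.pat_eq (E' := R0Q016.E218) (by decide +kernel) (pat_step (by decide +kernel) (q_cons (Vale.Agent.P032.Lt.q R0Q016.q218_0) (q_cons (Vale.Agent.P032.Lt.q R0Q016.q218_1) (q_cons (Vale.Agent.P032.Lt.q R0Q016.q218_2) (q_cons (Vale.Agent.P032.Lt.q R0Q016.q218_3) (q_cons (Vale.Agent.P032.Lt.q R0Q016.q218_4) (q_cons (Vale.Agent.P032.Lt.q R0Q016.q218_5) (q_cons (Vale.Agent.P032.Lt.q R0Q016.q218_6) (q_cons (Vale.Agent.P032.Lt.q R0Q016.q218_7) q_nil)))))))))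

theorem p219 : Pat 73 73 TBm TCm (CB.map Fm) R0Q016.P219 R0Q016.I219 := Vale.Agent.P032.Lt.pat_eq (E' := R0Q016.E) eB (pat_step (by decide +kernel) (q_cons (Vale.Agent.P032.Lt.q R0Q016.q219_0) (q_cons (Vale.Agent.P032.Lt.q R0Q016.q219_1) (q_cons (Vale.Agent.P032.Lt.q R0Q016.q219_2) (q_cons (Vale.Agent.P032.Lt.q R0Q016.q219_3) (q_cons (Vale.Agent.P032.Lt.q R0Q016.q219_4) (q_cons (Vale.Agent.P032.Lt.q R0Q016.q219_5) (q_cons (Vale.Agent.P032.Lt.q R0Q016.q219_6) (q_cons (Vale.Agent.P032.Lt.q R0Q016.q219_7) (q_cons (Vale.Agent.P032.Lt.q R0Q016.q219_8) (q_cons (Vale.Agent.P032.Lt.q R0Q016.q219_9) (q_cons (Vale.Agent.P032.Lt.q R0Q016.q219_10) (q_cons (Vale.Agent.P032.Lt.q R0Q016.q219_11) (q_cons (Vale.Agent.P032.Lt.q R0Q016.q219_12) (q_cons (Vale.Agent.P032.Lt.q R0Q016.q219_13) (q_cons (Vale.Agent.P032.Lt.q R0Q016.q219_14) (q_cons (Vale.Agent.P032.Lt.q R0Q016.q219_15) (q_cons (Vale.Agent.P032.Lt.q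 R0Q016.q219_16) (q_cons (Vale.Agent.P032.Lt.q R0Q016.q219_17) (q_cons (Vale.Agent.P032.Lt.q R0Q016.q219_18) (q_cons (Vale.Agent.P032.Lt.q R0Q016.q219_19) (q_cons (Vale.Agent.P032.Lt.q R0Q016.q219_20) (q_cons (Vale.Agent.P032.Lt.q R0Q016.q219_21) (q_cons (Vale.Agent.P032.Lt.q R0Q016.q219_22) (q_cons (Vale.Agent.P032.Lt.q R0Q016.q219_23) (q_cons (Vale.Agent.P032.Lt.q R0Q016.q219_24) (q_cons (Vale.Agent.P032.Lt.q R0Q016.q219_25) (q_cons (Vale.Agent.P032.Lt.q R0Q016.q219_26) (q_cons (Vale.Agent.P032.Lt.q R0Q016.q219_27) (q_cons (Vale.Agent.P032.Lt.q R0Q016.q219_28) (q_cons (Vale.Agent.P032.Lt.q R0Q016.q219_29) (q_cons (Vale.Agent.P032.Lt.q R0Q016.q219_30) (q_cons (Vale.Agent.P032.Lt.q R0Q016.q219_31) (q_cons (Vale.Agent.P032.Lt.q R0Q016.q219_32) (q_cons (Vale.Agent.P032.Lt.q R0Q016.q219_33) q_nil)))))))))))))))))))))))))))))))))))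

def C220 : List ℕ := [0, 4, 8, 12, 16, 20, 24, 617473, 19355367068722]
theorem p220 : Pat 73 73 TBm TCm (C220.map Fm) R0Q016.P220 R0Q016.I220 := Vale.Agent.P032.Lt.pat_eq (E' := R0Q016.E220) (by decide +kernel) (pat_step (by decide +kernel) (q_cons (Vale.Agent.P032.Lt.q R0Q016.q220_0) (q_cons (Vale.Agent.P032.Lt.q R0Q016.q220_1) (q_cons (Vale.Agent.P032.Lt.q R0Q016.q220_2) (q_cons (Vale.Agent.P032.Lt.q R0Q016.q220_3) (q_cons (Vale.Agent.P032.Lt.q R0Q016.q220_4) (q_cons (Vale.Agent.P032.Lt.q R0Q016.q220_5) (q_cons (Vale.Agent.P032.Lt.q R0Q016.q220_6) q_nil))))))))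

def C221 : List ℕ := [0, 4, 8, 12, 16, 20, 24, 89089, 355329, 475137, 737281, 9177521144866, 14397490549810, 23789864572934]
theorem p221 : Pat 73 73 TBm TCm (C221.map Fm) R0Q016.P221 R0Q016.I221 := Vale.Agent.P032.Lt.pat_eq (E' := R0Q016.E221) (by decide +kernel) (pat_step (by decide +kernel) (q_cons (Vale.Agent.P032.Lt.q R0Q016.q221_0) q_nil))

def C222 : List ℕ := [0, 4, 8, 12, 16, 20, 24, 84993, 216065, 353281, 484353, 606209, 737281, 9038435929130, 18806684996658, 19044295207962, 24275583457286, 24275585292294, 24278402816006, 24278404913158]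
theorem p222 : Pat 73 73 TBm TCm (C222.map Fm) R0Q016.P222 R0Q016.I222 := Vale.Agent.P032.Lt.pat_eq (E' := R0Q016.E222) (by decide +kernel) (pat_step (by decide +kernel) (q_cons (Vale.Agent.P032.Lt.q R0Q016.q222_0) (q_cons (Vale.Agent.P032.Lt.q R0Q016.q222_1) (q_cons (Vale.Agent.P032.Lt.q R0Q016.q222_2) (q_cons (Vale.Agent.P032.Lt.q R0Q016.q222_3) q_nil)))))

def C223 : List ℕ := [0, 4, 8, 12, 16, 20, 24, 81921, 87041, 214017, 218113, 220161, 345089, 349185, 476161, 480257, 607233, 611329, 4770139171866, 9167110106138, 9715834897442, 9727135673370, 13376211610650, 13556633791514, 14109056654346, 14650155424778, 17817309244442, 18310559915018, 18505981717530]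
theorem p223 : Pat 73 73 TBm TCm (C223.map Fm) R0Q016.P223 R0Q016.I223 := Vale.Agent.P032.Lt.pat_eq (E' := R0Q016.E223) (by decide +kernel) (pat_step (by decide +kernel) (q_cons (Vale.Agent.P032.Lt.q R0Q016.q223_0) (q_cons (Vale.Agent.P032.Lt.q R0Q016.q223_1) (q_cons (Vale.Agent.P032.Lt.q R0Q016.q223_2) (q_cons (Vale.Agent.P032.Lt.q R0Q016.q223_3) (q_cons (Vale.Agent.P032.Lt.q R0Q016.q223_4) (q_cons (Vale.Agent.P032.Lt.q R0Q016.q223_5) q_nil)))))))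

def C224 : List ℕ := [0, 4, 8, 12, 16, 20, 24, 216065, 344065, 347137, 349185, 475137, 9664147317778]
theorem p224 : Pat 73 73 TBm TCm (C224.map Fm) R0Q016.P224 R0Q016.I224 := Vale.Agent.P032.Lt.pat_eq (E' := R0Q016.E224) (by decide +kernel) (pat_step (by decide +kernel) (q_cons (Vale.Agent.P032.Lt.q R0Q016.q224_0) (q_cons (Vale.Agent.P032.Lt.q R0Q016.q224_1) (q_cons (Vale.Agent.P032.Lt.q R0Q016.q224_2) q_nil))))

def C225 : List ℕ := [0, 4, 8, 12, 16, 20, 24, 84993, 347137, 349185, 606209, 737281, 9115511514130, 9115513349138, 9169896959002]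
theorem p225 : Pat 73 73 TBm TCm (C225.map Fm) R0Q016.P225 R0Q016.I225 := Vale.Agent.P032.Lt.pat_eq (E' := R0Q016.E225) (by decide +kernel) (pat_step (by decide +kernel) (q_cons (Vale.Agent.P032.Lt.q R0Q016.q225_0) (q_cons (Vale.Agent.P032.Lt.q R0Q016.q225_1) (q_cons (Vale.Agent.P032.Lt.q R0Q016.q225_2) (q_cons (Vale.Agent.P032.Lt.q R0Q016.q225_3) (q_cons (Vale.Agent.P032.Lt.q R0Q016.q225_4) (q_cons (Vale.Agent.P032.Lt.q R0Q016.q225_5) (q_cons (Vale.Agent.P032.Lt.q R0Q016.q225_6) (q_cons (Vale.Agent.P032.Lt.q R0Q016.q225_7) (q_cons (Vale.Agent.P032.Lt.q R0Q016.q225_8) (q_cons (Vale.Agent.P032.Lt.q R0Q016.q225_9) q_nil)))))))))))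

def C226 : List ℕ := [0, 4, 8, 12, 16, 20, 24, 82945, 89089, 212993, 215041, 606209, 737281, 9170004952098, 13376227859466, 18391344963598, 18391346798606]
theorem p226 : Pat 73 73 TBm TCm (C226.map Fm) R0Q016.P226 R0Q016.I226 := Vale.Agent.P032.Lt.pat_eq (E' := R0Q016.E226) (by decide +kernel) (pat_step (by decide +kernel) (q_cons (Vale.Agent.P032.Lt.q R0Q016.q226_0) (q_cons (Vale.Agent.P032.Lt.q R0Q016.q226_1) (q_cons (Vale.Agent.P032.Lt.q R0Q016.q226_2) q_nil))))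

def C227 : List ℕ := [0, 4, 8, 12, 16, 20, 24, 87041, 218113, 349185, 742401, 4771982830618, 9169895123994, 22157985279002, 22283816496154, 22835316485146, 23376482364442]
theorem p227 : Pat 73 73 TBm TCm (C227.map Fm) R0Q016.P227 R0Q016.I227 := Vale.Agent.P032.Lt.pat_eq (E' := R0Q016.E227) (by decide +kernel) (pat_step (by decide +kernel) (q_cons (Vale.Agent.P032.Lt.q R0Q016.q227_0) (q_cons (Vale.Agent.P032.Lt.q R0Q016.q227_1) q_nil)))

def C228 : List ℕ := [0, 4, 8, 12, 16, 20, 24, 84993, 347137, 349185, 478209, 482305, 4649840239634, 9715827829786, 14036626785314, 14646473352210]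
theorem p228 : Pat 73 73 TBm TCm (C228.map Fm) R0Q016.P228 R0Q016.I228 := Vale.Agent.P032.Lt.pat_eq (E' := R0Q016.E228) (by decide +kernel) (pat_step (by decide +kernel) (q_cons (Vale.Agent.P032.Lt.q R0Q016.q228_0) (q_cons (Vale.Agent.P032.Lt.q R0Q016.q228_1) (q_cons (Vale.Agent.P032.Lt.q R0Q016.q228_2) (q_cons (Vale.Agent.P032.Lt.q R0Q016.q228_3) q_nil)))))

def C229 : List ℕ := [0, 4, 8, 12, 16, 20, 24, 353281, 737281, 9115466681386, 23931717376006, 23931719473158]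
theorem p229 : Pat 73 73 TBm TCm (C229.map Fm) R0Q016.P229 R0Q016.I229 := Vale.Agent.P032.Lt.pat_eq (E' := R0Q016.E229) (by decide +kernel) (pat_step (by decide +kernel) (q_cons (Vale.Agent.P032.Lt.q R0Q016.q229_0) (q_cons (Vale.Agent.P032.Lt.q R0Q016.q229_1) (q_cons (Vale.Agent.P032.Lt.q R0Q016.q229_2) (q_cons (Vale.Agent.P032.Lt.q R0Q016.q229_3) (q_cons (Vale.Agent.P032.Lt.q R0Q016.q229_4) (q_cons (Vale.Agent.P032.Lt.q R0Q016.q229_5) (q_cons (Vale.Agent.P032.Lt.q R0Q016.q229_6) (q_cons (Vale.Agent.P032.Lt.q R0Q016.q229_7) (q_cons (Vale.Agent.P032.Lt.q R0Q016.q229_8) (q_cons (Vale.Agent.P032.Lt.q R0Q016.q229_9) (q_cons (Vale.Agent.P032.Lt.q R0Q016.q229_10) (q_cons (Vale.Agent.P032.Lt.q R0Q016.q229_11) (q_cons (Vale.Agent.P032.Lt.q R0Q016.q229_12) (q_cons (Vale.Agent.P032.Lt.q R0Q016.q229_13) (q_cons (Vale.Agent.P032.Lt.q R0Q016.q229_14) (q_cons (Vale.Agent.P032.Lt.q R0Q016.q229_15)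 (q_cons (Vale.Agent.P032.Lt.q R0Q016.q229_16) (q_cons (Vale.Agent.P032.Lt.q R0Q016.q229_17) (q_cons (Vale.Agent.P032.Lt.q R0Q016.q229_18) (q_cons (Vale.Agent.P032.Lt.q R0Q016.q229_19) (q_cons (Vale.Agent.P032.Lt.q R0Q016.q229_20) (q_cons (Vale.Agent.P032.Lt.q R0Q016.q229_21) q_nil)))))))))))))))))))))))

def C230 : List ℕ := [0, 4, 8, 12, 16, 20, 24, 81921, 89089, 212993, 475137, 737281, 9177407898658, 9177521144866]
theorem p230 : Pat 73 73 TBm TCm (C230.map Fm) R0Q017.P230 R0Q017.I230 := Vale.Agent.P032.Lt.pat_eq (E' := R0Q017.E230) (by decide +kernel) (pat_step (by decide +kernel) (q_cons (Vale.Agent.P032.Lt.q R0Q017.q230_0) (q_cons (Vale.Agent.P032.Lt.q R0Q017.q230_1) (q_cons (Vale.Agent.P032.Lt.q R0Q017.q230_2) q_nil))))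

theorem p231 : Pat 73 73 TBm TCm (CB.map Fm) R0Q017.P231 R0Q017.I231 := Vale.Agent.P032.Lt.pat_eq (E' := R0Q017.E) eB (pat_step (by decide +kernel) (q_cons (Vale.Agent.P032.Lt.q R0Q017.q231_0) (q_cons (Vale.Agent.P032.Lt.q R0Q017.q231_1) (q_cons (Vale.Agent.P032.Lt.q R0Q017.q231_2) (q_cons (Vale.Agent.P032.Lt.q R0Q017.q231_3) (q_cons (Vale.Agent.P032.Lt.q R0Q017.q231_4) (q_cons (Vale.Agent.P032.Lt.q R0Q017.q231_5) (q_cons (Vale.Agent.P032.Lt.q R0Q017.q231_6) (q_cons (Vale.Agent.P032.Lt.q R0Q017.q231_7) (q_cons (Vale.Agent.P032.Lt.q R0Q017.q231_8) (q_cons (Vale.Agent.P032.Lt.q R0Q017.q231_9) (q_cons (Vale.Agent.P032.Lt.q R0Q017.q231_10) (q_cons (Vale.Agent.P032.Lt.q R0Q017.q231_11) (q_cons (Vale.Agent.P032.Lt.q R0Q017.q231_12) (q_cons (Vale.Agent.P032.Lt.q R0Q017.q231_13) (q_cons (Vale.Agent.P032.Lt.q R0Q017.q231_14) (q_cons (Vale.Agent.P032.Lt.q R0Q017.q231_15) (q_cons (Vale.Agent.P032.Lt.q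 R0Q017.q231_16) (q_cons (Vale.Agent.P032.Lt.q R0Q017.q231_17) (q_cons (Vale.Agent.P032.Lt.q R0Q017.q231_18) (q_cons (Vale.Agent.P032.Lt.q R0Q017.q231_19) (q_cons (Vale.Agent.P032.Lt.q R0Q017.q231_20) (q_cons (Vale.Agent.P032.Lt.q R0Q017.q231_21) (q_cons (Vale.Agent.P032.Lt.q R0Q017.q231_22) (q_cons (Vale.Agent.P032.Lt.q R0Q017.q231_23) (q_cons (Vale.Agent.P032.Lt.q R0Q017.q231_24) (q_cons (Vale.Agent.P032.Lt.q R0Q017.q231_25) (q_cons (Vale.Agent.P032.Lt.q R0Q017.q231_26) (q_cons (Vale.Agent.P032.Lt.q R0Q017.q231_27) (q_cons (Vale.Agent.P032.Lt.q R0Q017.q231_28) (q_cons (Vale.Agent.P032.Lt.q R0Q017.q231_29) (q_cons (Vale.Agent.P032.Lt.q R0Q017.q231_30) (q_cons (Vale.Agent.P032.Lt.q R0Q017.q231_31) (q_cons (Vale.Agent.P032.Lt.q R0Q017.q231_32) (q_cons (Vale.Agent.P032.Lt.q R0Q017.q231_33) (q_cons (Vale.Agent.P032.Lt.q R0Q017.q231_34) q_nil))))))))))))))))))))))))))))))))))))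

def C232 : List ℕ := [0, 4, 8, 12, 16, 20, 24, 212993, 347137, 475137, 607233, 737281, 19332810890250, 23725963827206]
theorem p232 : Pat 73 73 TBm TCm (C232.map Fm) R0Q017.P232 R0Q017.I232 := Vale.Agent.P032.Lt.pat_eq (E' := R0Q017.E232) (by decide +kernel) (pat_step (by decide +kernel) (q_cons (Vale.Agent.P032.Lt.q R0Q017.q232_0) (q_cons (Vale.Agent.P032.Lt.q R0Q017.q232_1) (q_cons (Vale.Agent.P032.Lt.q R0Q017.q232_2) (q_cons (Vale.Agent.P032.Lt.q R0Q017.q232_3) (q_cons (Vale.Agent.P032.Lt.q R0Q017.q232_4) (q_cons (Vale.Agent.P032.Lt.q R0Q017.q232_5) (q_cons (Vale.Agent.P032.Lt.q R0Q017.q232_6) (q_cons (Vale.Agent.P032.Lt.q R0Q017.q232_7) (q_cons (Vale.Agent.P032.Lt.q R0Q017.q232_8) (q_cons (Vale.Agent.P032.Lt.q R0Q017.q232_9) (q_cons (Vale.Agent.P032.Lt.q R0Q017.q232_10) (q_cons (Vale.Agent.P032.Lt.q R0Q017.q232_11) (q_cons (Vale.Agent.P032.Lt.q R0Q017.q232_12) (q_cons (Vale.Agent.P032.Lt.q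 R0Q017.q232_13) (q_cons (Vale.Agent.P032.Lt.q R0Q017.q232_14) (q_cons (Vale.Agent.P032.Lt.q R0Q017.q232_15) q_nil)))))))))))))))))

def C233 : List ℕ := [0, 4, 8, 12, 16, 20, 24, 82945, 83969, 84993, 215041, 475137, 477185, 606209, 608257, 9046926255122, 13556633263114, 14122214580238, 17842660662282, 19594002915342]
theorem p233 : Pat 73 73 TBm TCm (C233.map Fm) R0Q017.P233 R0Q017.I233 := Vale.Agent.P032.Lt.pat_eq (E' := R0Q017.E233) (by decide +kernel) (pat_step (by decide +kernel) (q_cons (Vale.Agent.P032.Lt.q R0Q017.q233_0) q_nil))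

theorem p234 : Pat 73 73 TBm TCm (CB.map Fm) R0Q017.P234 R0Q017.I234 := Vale.Agent.P032.Lt.pat_eq (E' := R0Q017.E) eB (pat_step (by decide +kernel) (q_cons (Vale.Agent.P032.Lt.q R0Q017.q234_0) (q_cons (Vale.Agent.P032.Lt.q R0Q017.q234_1) q_nil)))

def C235 : List ℕ := [0, 4, 8, 12, 16, 20, 24, 91137, 347137, 353281, 9115466681386]
theorem p235 : Pat 73 73 TBm TCm (C235.map Fm) R0Q017.P235 R0Q017.I235 := Vale.Agent.P032.Lt.pat_eq (E' := R0Q017.E235) (by decide +kernel) (pat_step (by decide +kernel) (q_cons (Vale.Agent.P032.Lt.q R0Q017.q235_0) (q_cons (Vale.Agent.P032.Lt.q R0Q017.q235_1) (q_cons (Vale.Agent.P032.Lt.q R0Q017.q235_2) (q_cons (Vale.Agent.P032.Lt.q R0Q017.q235_3) (q_cons (Vale.Agent.P032.Lt.q R0Q017.q235_4) (q_cons (Vale.Agent.P032.Lt.q R0Q017.q235_5) (q_cons (Vale.Agent.P032.Lt.q R0Q017.q235_6) (q_cons (Vale.Agent.P032.Lt.q R0Q017.q235_7) (q_cons (Vale.Agent.P032.Lt.q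 R0Q017.q235_8) (q_cons (Vale.Agent.P032.Lt.q R0Q017.q235_9) (q_cons (Vale.Agent.P032.Lt.q R0Q017.q235_10) (q_cons (Vale.Agent.P032.Lt.q R0Q017.q235_11) q_nil)))))))))))))

theorem p236 : Pat 73 73 TBm TCm (CB.map Fm) R0Q017.P236 R0Q017.I236 := Vale.Agent.P032.Lt.pat_eq (E' := R0Q017.E) eB (pat_step (by decide +kernel) (q_cons (Vale.Agent.P032.Lt.q R0Q017.q236_0) (q_cons (Vale.Agent.P032.Lt.q R0Q017.q236_1) (q_cons (Vale.Agent.P032.Lt.q R0Q017.q236_2) (q_cons (Vale.Agent.P032.Lt.q R0Q017.q236_3) q_nil)))))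

def C237 : List ℕ := [0, 4, 8, 12, 16, 20, 24, 83969, 344065, 475137, 739329, 23725971169294]
theorem p237 : Pat 73 73 TBm TCm (C237.map Fm) R0Q017.P237 R0Q017.I237 := Vale.Agent.P032.Lt.pat_eq (E' := R0Q017.E237) (by decide +kernel) (pat_step (by decide +kernel) (q_cons (Vale.Agent.P032.Lt.q R0Q017.q237_0) q_nil))

theorem p238 : Pat 73 73 TBm TCm (CB.map Fm) R0Q017.P238 R0Q017.I238 := Vale.Agent.P032.Lt.pat_eq (E' := R0Q017.E) eB (pat_step (by decide +kernel) (q_cons (Vale.Agent.P032.Lt.q R0Q017.q238_0) (q_cons (Vale.Agent.P032.Lt.q R0Q017.q238_1) (q_cons (Vale.Agent.P032.Lt.q R0Q017.q238_2) (q_cons (Vale.Agent.P032.Lt.q R0Q017.q238_3) (q_cons (Vale.Agent.P032.Lt.q R0Q017.q238_4) (q_cons (Vale.Agent.P032.Lt.q R0Q017.q238_5) (q_cons (Vale.Agent.P032.Lt.q R0Q017.q238_6) (q_cons (Vale.Agent.P032.Lt.q R0Q017.q238_7) (q_cons (Vale.Agent.P032.Lt.q R0Q017.q238_8) (q_cons (Vale.Agent.P032.Lt.q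 R0Q017.q238_9) (q_cons (Vale.Agent.P032.Lt.q R0Q017.q238_10) (q_cons (Vale.Agent.P032.Lt.q R0Q017.q238_11) (q_cons (Vale.Agent.P032.Lt.q R0Q017.q238_12) (q_cons (Vale.Agent.P032.Lt.q R0Q017.q238_13) (q_cons (Vale.Agent.P032.Lt.q R0Q017.q238_14) (q_cons (Vale.Agent.P032.Lt.q R0Q017.q238_15) (q_cons (Vale.Agent.P032.Lt.q R0Q017.q238_16) (q_cons (Vale.Agent.P032.Lt.q R0Q017.q238_17) (q_cons (Vale.Agent.P032.Lt.q R0Q017.q238_18) q_nil))))))))))))))))))))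

def C239 : List ℕ := [0, 4, 8, 12, 16, 20, 24, 741377, 24352710944790]
theorem p239 : Pat 73 73 TBm TCm (C239.map Fm) R0Q017.P239 R0Q017.I239 := Vale.Agent.P032.Lt.pat_eq (E' := R0Q017.E239) (by decide +kernel) (pat_step (by decide +kernel) (q_cons (Vale.Agent.P032.Lt.q R0Q017.q239_0) (q_cons (Vale.Agent.P032.Lt.q R0Q017.q239_1) (q_cons (Vale.Agent.P032.Lt.q R0Q017.q239_2) (q_cons (Vale.Agent.P032.Lt.q R0Q017.q239_3) (q_cons (Vale.Agent.P032.Lt.q R0Q017.q239_4) q_nil))))))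

def C240 : List ℕ := [0, 4, 8, 12, 16, 20, 24, 84993, 212993, 344065, 349185, 355329, 606209, 737281, 9169958038554]
theorem p240 : Pat 73 73 TBm TCm (C240.map Fm) R0Q017.P240 R0Q017.I240 := Vale.Agent.P032.Lt.pat_eq (E' := R0Q017.E240) (by decide +kernel) (pat_step (by decide +kernel) (q_cons (Vale.Agent.P032.Lt.q R0Q017.q240_0) (q_cons (Vale.Agent.P032.Lt.q R0Q017.q240_1) (q_cons (Vale.Agent.P032.Lt.q R0Q017.q240_2) (q_cons (Vale.Agent.P032.Lt.q R0Q017.q240_3) (q_cons (Vale.Agent.P032.Lt.q R0Q017.q240_4) (q_cons (Vale.Agent.P032.Lt.q R0Q017.q240_5) q_nil)))))))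

theorem p241 : Pat 73 73 TBm TCm (CB.map Fm) R0Q017.P241 R0Q017.I241 := Vale.Agent.P032.Lt.pat_eq (E' := R0Q017.E) eB (pat_step (by decide +kernel) (q_cons (Vale.Agent.P032.Lt.q R0Q017.q241_0) (q_cons (Vale.Agent.P032.Lt.q R0Q017.q241_1) (q_cons (Vale.Agent.P032.Lt.q R0Q017.q241_2) (q_cons (Vale.Agent.P032.Lt.q R0Q017.q241_3) (q_cons (Vale.Agent.P032.Lt.q R0Q017.q241_4) (q_cons (Vale.Agent.P032.Lt.q R0Q017.q241_5) (q_cons (Vale.Agent.P032.Lt.q R0Q017.q241_6) (q_cons (Vale.Agent.P032.Lt.q R0Q017.q241_7) (q_cons (Vale.Agent.P032.Lt.q R0Q017.q241_8) (q_cons (Vale.Agent.P032.Lt.q R0Q017.q241_9) (q_cons (Vale.Agent.P032.Lt.q R0Q017.q241_10) (q_cons (Vale.Agent.P032.Lt.q R0Q017.q241_11) (q_cons (Vale.Agent.P032.Lt.q R0Q017.q241_12) (q_cons (Vale.Agent.P032.Lt.q R0Q017.q241_13) (q_cons (Vale.Agent.P032.Lt.q R0Q017.q241_14) (q_cons (Vale.Agent.P032.Lt.q R0Q017.q241_15) (q_cons (Vale.Agent.P032.Lt.q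 R0Q017.q241_16) (q_cons (Vale.Agent.P032.Lt.q R0Q017.q241_17) (q_cons (Vale.Agent.P032.Lt.q R0Q017.q241_18) (q_cons (Vale.Agent.P032.Lt.q R0Q017.q241_19) (q_cons (Vale.Agent.P032.Lt.q R0Q017.q241_20) (q_cons (Vale.Agent.P032.Lt.q R0Q017.q241_21) (q_cons (Vale.Agent.P032.Lt.q R0Q017.q241_22) (q_cons (Vale.Agent.P032.Lt.q R0Q017.q241_23) (q_cons (Vale.Agent.P032.Lt.q R0Q017.q241_24) (q_cons (Vale.Agent.P032.Lt.q R0Q017.q241_25) (q_cons (Vale.Agent.P032.Lt.q R0Q017.q241_26) (q_cons (Vale.Agent.P032.Lt.q R0Q017.q241_27) (q_cons (Vale.Agent.P032.Lt.q R0Q017.q241_28) (q_cons (Vale.Agent.P032.Lt.q R0Q017.q241_29) q_nil)))))))))))))))))))))))))))))))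

theorem p242 : Pat 73 73 TBm TCm (CB.map Fm) R0Q017.P242 R0Q017.I242 := Vale.Agent.P032.Lt.pat_eq (E' := R0Q017.E) eB (pat_step (by decide +kernel) (q_cons (Vale.Agent.P032.Lt.q R0Q017.q242_0) (q_cons (Vale.Agent.P032.Lt.q R0Q017.q242_1) (q_cons (Vale.Agent.P032.Lt.q R0Q017.q242_2) (q_cons (Vale.Agent.P032.Lt.q R0Q017.q242_3) (q_cons (Vale.Agent.P032.Lt.q R0Q017.q242_4) (q_cons (Vale.Agent.P032.Lt.q R0Q017.q242_5) (q_cons (Vale.Agent.P032.Lt.q R0Q017.q242_6) (q_cons (Vale.Agent.P032.Lt.q R0Q017.q242_7) (q_cons (Vale.Agent.P032.Lt.q R0Q017.q242_8) (q_cons (Vale.Agent.P032.Lt.q R0Q017.q242_9) (q_cons (Vale.Agent.P032.Lt.q R0Q017.q242_10) q_nil))))))))))))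

def C243 : List ℕ := [0, 4, 8, 12, 16, 20, 24, 212993, 344065, 475137, 738305, 9587113940998, 14397477312518, 22215210916874, 22232093907978, 24278407928842, 24413699398666]
theorem p243 : Pat 73 73 TBm TCm (C243.map Fm) R0Q017.P243 R0Q017.I243 := Vale.Agent.P032.Lt.pat_eq (E' := R0Q017.E243) (by decide +kernel) (pat_step (by decide +kernel) (q_cons (Vale.Agent.P032.Lt.q R0Q017.q243_0) q_nil))

def C244 : List ℕ := [0, 4, 8, 12, 16, 20, 24, 81921, 606209, 737281, 745473, 22842859407398]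
theorem p244 : Pat 73 73 TBm TCm (C244.map Fm) R0Q017.P244 R0Q017.I244 := Vale.Agent.P032.Lt.pat_eq (E' := R0Q017.E244) (by decide +kernel) (pat_step (by decide +kernel) (q_cons (Vale.Agent.P032.Lt.q R0Q017.q244_0) (q_cons (Vale.Agent.P032.Lt.q R0Q017.q244_1) (q_cons (Vale.Agent.P032.Lt.q R0Q017.q244_2) (q_cons (Vale.Agent.P032.Lt.q R0Q017.q244_3) (q_cons (Vale.Agent.P032.Lt.q R0Q017.q244_4) q_nil))))))

theorem p245 : Pat 73 73 TBm TCm (CB.map Fm) R0Q017.P245 R0Q017.I245 := Vale.Agent.P032.Lt.pat_eq (E' := R0Q017.E) eB (pat_step (by decide +kernel) (q_cons (Vale.Agent.P032.Lt.q R0Q017.q245_0) (q_cons (Vale.Agent.P032.Lt.q R0Q017.q245_1) (q_cons (Vale.Agent.P032.Lt.q R0Q017.q245_2) (q_cons (Vale.Agent.P032.Lt.q R0Q017.q245_3) (q_cons (Vale.Agent.P032.Lt.q R0Q017.q245_4) q_nil))))))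

theorem p246 : Pat 73 73 TBm TCm (CB.map Fm) R0Q017.P246 R0Q017.I246 := Vale.Agent.P032.Lt.pat_eq (E' := R0Q017.E) eB (pat_step (by decide +kernel) (q_cons (Vale.Agent.P032.Lt.q R0Q017.q246_0) (q_cons (Vale.Agent.P032.Lt.q R0Q017.q246_1) (q_cons (Vale.Agent.P032.Lt.q R0Q017.q246_2) (q_cons (Vale.Agent.P032.Lt.q R0Q017.q246_3) (q_cons (Vale.Agent.P032.Lt.q R0Q017.q246_4) (q_cons (Vale.Agent.P032.Lt.q R0Q017.q246_5) (q_cons (Vale.Agent.P032.Lt.q R0Q017.q246_6) (q_cons (Vale.Agent.P032.Lt.q R0Q017.q246_7) (q_cons (Vale.Agent.P032.Lt.q R0Q017.q246_8) (q_cons (Vale.Agent.P032.Lt.q R0Q017.q246_9) (q_cons (Vale.Agent.P032.Lt.q R0Q017.q246_10) (q_cons (Vale.Agent.P032.Lt.q R0Q017.q246_11) (q_cons (Vale.Agent.P032.Lt.q R0Q017.q246_12) (q_cons (Vale.Agent.P032.Lt.q R0Q017.q246_13) (q_cons (Vale.Agent.P032.Lt.q R0Q017.q246_14) q_nil))))))))))))))))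

theorem p247 : Pat 73 73 TBm TCm (CB.map Fm) R0Q017.P247 R0Q017.I247 := Vale.Agent.P032.Lt.pat_eq (E' := R0Q017.E) eB (pat_step (by decide +kernel) (q_cons (Vale.Agent.P032.Lt.q R0Q017.q247_0) (q_cons (Vale.Agent.P032.Lt.q R0Q017.q247_1) (q_cons (Vale.Agent.P032.Lt.q R0Q017.q247_2) (q_cons (Vale.Agent.P032.Lt.q R0Q017.q247_3) q_nil)))))

def C248 : List ℕ := [0, 4, 8, 12, 16, 20, 24, 89089, 91137, 222209, 353281, 484353, 486401, 606209, 737281, 9170004952098, 13487966213170, 14036638977066, 24275583326214, 24275583588358, 24278400325638, 24278404519942, 24338622142470]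
theorem p248 : Pat 73 73 TBm TCm (C248.map Fm) R0Q018.P248 R0Q018.I248 := Vale.Agent.P032.Lt.pat_eq (E' := R0Q018.E248) (by decide +kernel) (pat_step (by decide +kernel) (q_cons (Vale.Agent.P032.Lt.q R0Q018.q248_0) q_nil))

def C249 : List ℕ := [0, 4, 8, 12, 16, 20, 24, 82945, 87041, 214017, 218113, 220161, 345089, 349185, 351233, 355329, 476161, 480257, 607233, 611329, 738305, 4641423322138, 4778577845258, 9042137930762, 9102267472906, 9102284250122, 13491724049418, 13916389465098, 14041435554850, 14063943248922, 14124106345498, 14397498414130, 14582495276058, 14671831587850, 17760997039114, 18370653537314, 18513495813146, 18911931362330, 19061221055498, 19062220604450, 19602386934794, 23330418547722, 23390548089866, 23931713969162, 24352696261642]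
theorem p249 : Pat 73 73 TBm TCm (C249.map Fm) R0Q018.P249 R0Q018.I249 := Vale.Agent.P032.Lt.pat_eq (E' := R0Q018.E249) (by decide +kernel) (pat_step (by decide +kernel) (q_cons (Vale.Agent.P032.Lt.q R0Q018.q249_0) (q_cons (Vale.Agent.P032.Lt.q R0Q018.q249_1) (q_cons (Vale.Agent.P032.Lt.q R0Q018.q249_2) (q_cons (Vale.Agent.P032.Lt.q R0Q018.q249_3) (q_cons (Vale.Agent.P032.Lt.q R0Q018.q249_4) (q_cons (Vale.Agent.P032.Lt.q R0Q018.q249_5) q_nil)))))))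

def C250 : List ℕ := [0, 4, 8, 12, 16, 20, 24, 347137, 475137, 737281, 23729722447878, 23729776973830, 23729785362438]
theorem p250 : Pat 73 73 TBm TCm (C250.map Fm) R0Q018.P250 R0Q018.I250 := Vale.Agent.P032.Lt.pat_eq (E' := R0Q018.E250) (by decide +kernel) (pat_step (by decide +kernel) (q_cons (Vale.Agent.P032.Lt.q R0Q018.q250_0) (q_cons (Vale.Agent.P032.Lt.q R0Q018.q250_1) (q_cons (Vale.Agent.P032.Lt.q R0Q018.q250_2) (q_cons (Vale.Agent.P032.Lt.q R0Q018.q250_3) (q_cons (Vale.Agent.P032.Lt.q R0Q018.q250_4) q_nil))))))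

def C251 : List ℕ := [0, 4, 8, 12, 16, 20, 24, 218113, 220161, 344065, 349185, 475137, 9595568614426, 9599325662234, 13924869424162, 13928626471970, 14646450018310, 14650148608006, 14650207197190, 14671752157190, 14671752288262, 14671754516486, 14671819397126, 14671821363206, 14672690894854, 14672758003718]
theorem p251 : Pat 73 73 TBm TCm (C251.map Fm) R0Q018.P251 R0Q018.I251 := Vale.Agent.P032.Lt.pat_eq (E' := R0Q018.E251) (by decide +kernel) (pat_step (by decide +kernel) (q_cons (Vale.Agent.P032.Lt.q R0Q018.q251_0) (q_cons (Vale.Agent.P032.Lt.q R0Q018.q251_1) (q_cons (Vale.Agent.P032.Lt.q R0Q018.q251_2) (q_cons (Vale.Agent.P032.Lt.q R0Q018.q251_3) (q_cons (Vale.Agent.P032.Lt.q R0Q018.q251_4) (q_cons (Vale.Agent.P032.Lt.q R0Q018.q251_5) (q_cons (Vale.Agent.P032.Lt.q R0Q018.q251_6) (q_cons (Vale.Agent.P032.Lt.q R0Q018.q251_7) (q_cons (Vale.Agent.P032.Lt.q R0Q018.q251_8) (q_cons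 (Vale.Agent.P032.Lt.q R0Q018.q251_9) (q_cons (Vale.Agent.P032.Lt.q R0Q018.q251_10) (q_cons (Vale.Agent.P032.Lt.q R0Q018.q251_11) (q_cons (Vale.Agent.P032.Lt.q R0Q018.q251_12) (q_cons (Vale.Agent.P032.Lt.q R0Q018.q251_13) (q_cons (Vale.Agent.P032.Lt.q R0Q018.q251_14) (q_cons (Vale.Agent.P032.Lt.q R0Q018.q251_15) (q_cons (Vale.Agent.P032.Lt.q R0Q018.q251_16) (q_cons (Vale.Agent.P032.Lt.q R0Q018.q251_17) (q_cons (Vale.Agent.P032.Lt.q R0Q018.q251_18) (q_cons (Vale.Agent.P032.Lt.q R0Q018.q251_19) q_nil)))))))))))))))))))))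

theorem p252 : Pat 73 73 TBm TCm (CB.map Fm) R0Q018.P252 R0Q018.I252 := Vale.Agent.P032.Lt.pat_eq (E' := R0Q018.E) eB (pat_step (by decide +kernel) (q_cons (Vale.Agent.P032.Lt.q R0Q018.q252_0) (q_cons (Vale.Agent.P032.Lt.q R0Q018.q252_1) (q_cons (Vale.Agent.P032.Lt.q R0Q018.q252_2) (q_cons (Vale.Agent.P032.Lt.q R0Q018.q252_3) (q_cons (Vale.Agent.P032.Lt.q R0Q018.q252_4) (q_cons (Vale.Agent.P032.Lt.q R0Q018.q252_5) (q_cons (Vale.Agent.P032.Lt.q R0Q018.q252_6) (q_cons (Vale.Agent.P032.Lt.q R0Q018.q252_7) (q_cons (Vale.Agent.P032.Lt.q R0Q018.q252_8) (q_cons (Vale.Agent.P032.Lt.q R0Q018.q252_9) (q_cons (Vale.Agent.P032.Lt.q R0Q018.q252_10) (q_cons (Vale.Agent.P032.Lt.q R0Q018.q252_11) (q_cons (Vale.Agent.P032.Lt.q R0Q018.q252_12) (q_cons (Vale.Agent.P032.Lt.q R0Q018.q252_13) (q_cons (Vale.Agent.P032.Lt.q R0Q018.q252_14) (q_cons (Vale.Agent.P032.Lt.q R0Q018.q252_15) (q_cons (Vale.Agent.P032.Lt.q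 R0Q018.q252_16) (q_cons (Vale.Agent.P032.Lt.q R0Q018.q252_17) (q_cons (Vale.Agent.P032.Lt.q R0Q018.q252_18) (q_cons (Vale.Agent.P032.Lt.q R0Q018.q252_19) (q_cons (Vale.Agent.P032.Lt.q R0Q018.q252_20) (q_cons (Vale.Agent.P032.Lt.q R0Q018.q252_21) (q_cons (Vale.Agent.P032.Lt.q R0Q018.q252_22) (q_cons (Vale.Agent.P032.Lt.q R0Q018.q252_23) (q_cons (Vale.Agent.P032.Lt.q R0Q018.q252_24) (q_cons (Vale.Agent.P032.Lt.q R0Q018.q252_25) (q_cons (Vale.Agent.P032.Lt.q R0Q018.q252_26) (q_cons (Vale.Agent.P032.Lt.q R0Q018.q252_27) (q_cons (Vale.Agent.P032.Lt.q R0Q018.q252_28) (q_cons (Vale.Agent.P032.Lt.q R0Q018.q252_29) q_nil)))))))))))))))))))))))))))))))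

theorem p253 : Pat 73 73 TBm TCm (CB.map Fm) R0Q018.P253 R0Q018.I253 := Vale.Agent.P032.Lt.pat_eq (E' := R0Q018.E) eB (pat_step (by decide +kernel) (q_cons (Vale.Agent.P032.Lt.q R0Q018.q253_0) (q_cons (Vale.Agent.P032.Lt.q R0Q018.q253_1) (q_cons (Vale.Agent.P032.Lt.q R0Q018.q253_2) (q_cons (Vale.Agent.P032.Lt.q R0Q018.q253_3) (q_cons (Vale.Agent.P032.Lt.q R0Q018.q253_4) q_nil))))))

theorem p254 : Pat 73 73 TBm TCm (CB.map Fm) R0Q018.P254 R0Q018.I254 := Vale.Agent.P032.Lt.pat_eq (E' := R0Q018.E) eB (pat_step (by decide +kernel) (q_cons (Vale.Agent.P032.Lt.q R0Q018.q254_0) (q_cons (Vale.Agent.P032.Lt.q R0Q018.q254_1) (q_cons (Vale.Agent.P032.Lt.q R0Q018.q254_2) (q_cons (Vale.Agent.P032.Lt.q R0Q018.q254_3) (q_cons (Vale.Agent.P032.Lt.q R0Q018.q254_4) (q_cons (Vale.Agent.P032.Lt.q R0Q018.q254_5) (q_cons (Vale.Agent.P032.Lt.q R0Q018.q254_6) (q_cons (Vale.Agent.P032.Lt.q R0Q018.q254_7)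 (q_cons (Vale.Agent.P032.Lt.q R0Q018.q254_8) (q_cons (Vale.Agent.P032.Lt.q R0Q018.q254_9) (q_cons (Vale.Agent.P032.Lt.q R0Q018.q254_10) (q_cons (Vale.Agent.P032.Lt.q R0Q018.q254_11) (q_cons (Vale.Agent.P032.Lt.q R0Q018.q254_12) (q_cons (Vale.Agent.P032.Lt.q R0Q018.q254_13) (q_cons (Vale.Agent.P032.Lt.q R0Q018.q254_14) (q_cons (Vale.Agent.P032.Lt.q R0Q018.q254_15) (q_cons (Vale.Agent.P032.Lt.q R0Q018.q254_16) (q_cons (Vale.Agent.P032.Lt.q R0Q018.q254_17) q_nil)))))))))))))))))))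

theorem p255 : Pat 73 73 TBm TCm (CB.map Fm) R0Q018.P255 R0Q018.I255 := Vale.Agent.P032.Lt.pat_eq (E' := R0Q018.E) eB (pat_step (by decide +kernel) (q_cons (Vale.Agent.P032.Lt.q R0Q018.q255_0) (q_cons (Vale.Agent.P032.Lt.q R0Q018.q255_1) (q_cons (Vale.Agent.P032.Lt.q R0Q018.q255_2) (q_cons (Vale.Agent.P032.Lt.q R0Q018.q255_3) q_nil)))))

def L : List (List ℕ) := [R0Q010.P128, R0Q010.P129, R0Q010.P130, R0Q010.P131, R0Q010.P132, R0Q010.P133, R0Q010.P134, R0Q010.P135, R0Q010.P136, R0Q010.P137, R0Q010.P138, R0Q010.P139, R0Q010.P140, R0Q010.P141, R0Q010.P142, R0Q010.P143, R0Q010.P144, R0Q010.P145, R0Q010.P146, R0Q011.P147, R0Q011.P148, R0Q011.P149, R0Q011.P150, R0Q011.P151, R0Q011.P152, R0Q011.P153, R0Q011.P154, R0Q011.P155, R0Q011.P156, R0Q012.P157, R0Q012.P158, R0Q012.P159, R0Q012.P160, R0Q012.P161, R0Q012.P162, R0Q012.P163, R0Q012.P164, R0Q012.P165, R0Q012.P166, R0Q012.P167, R0Q012.P168,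 R0Q012.P169, R0Q012.P170, R0Q013.P171, R0Q013.P172, R0Q013.P173, R0Q013.P174, R0Q013.P175, R0Q013.P176, R0Q013.P177, R0Q013.P178, R0Q013.P179, R0Q013.P180, R0Q013.P181, R0Q013.P182, R0Q013.P183, R0Q013.P184, R0Q013.P185, R0Q013.P186, R0Q014.P187, R0Q014.P188, R0Q014.P189, R0Q014.P190, R0Q014.P191, R0Q014.P192, R0Q014.P193, R0Q014.P194, R0Q014.P195, R0Q014.P196, R0Q014.P197, R0Q014.P198, R0Q014.P199, R0Q015.P200, R0Q015.P201, R0Q015.P202, R0Q015.P203, R0Q015.P204, R0Q015.P205, R0Q015.P206, R0Q015.P207, R0Q015.P208, R0Q015.P209, R0Q015.P210, R0Q016.P211, R0Q016.P212, R0Q016.P213, R0Q016.P214, R0Q016.P215, R0Q016.P216, R0Q016.P217, R0Q016.P218, R0Q016.P219, R0Q016.P220, R0Q016.P221, R0Q016.P222, R0Q016.P223, R0Q016.P224, R0Q016.P225, R0Q016.P226, R0Q016.P227, R0Q016.P228, R0Q016.P229, R0Q017.P230, R0Q017.P231, R0Q017.P232, R0Q017.P233, R0Q017.P234, R0Q017.P235, R0Q017.P236, R0Q017.P237,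 R0Q017.P238, R0Q017.P239, R0Q017.P240, R0Q017.P241, R0Q017.P242, R0Q017.P243, R0Q017.P244, R0Q017.P245, R0Q017.P246, R0Q017.P247, R0Q018.P248, R0Q018.P249, R0Q018.P250, R0Q018.P251, R0Q018.P252, R0Q018.P253, R0Q018.P254, R0Q018.P255]

theorem all : ∀ P ∈ L, CrtF 73 73 TBm TCm (Vale.Agent.P032.Fam.fam3 (Vale.Agent.P032.Fam.im0)) P := crtF_cons p128 (crtF_cons p129 (crtF_cons p130 (crtF_cons p131 (crtF_cons p132 (crtF_cons p133 (crtF_cons p134 (crtF_cons p135 (crtF_cons p136 (crtF_cons p137 (crtF_cons p138 (crtF_cons p139 (crtF_cons p140 (crtF_cons p141 (crtF_cons p142 (crtF_cons p143 (crtF_cons p144 (crtF_cons p145 (crtF_cons p146 (crtF_cons p147 (crtF_cons p148 (crtF_cons p149 (crtF_cons p150 (crtF_cons p151 (crtF_cons p152 (crtF_cons p153 (crtF_cons p154 (crtF_cons p155 (crtF_cons p156 (crtF_cons p157 (crtF_cons p158 (crtF_cons p159 (crtF_cons p160 (crtF_cons p161 (crtF_cons p162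 (crtF_cons p163 (crtF_cons p164 (crtF_cons p165 (crtF_cons p166 (crtF_cons p167 (crtF_cons p168 (crtF_cons p169 (crtF_cons p170 (crtF_cons p171 (crtF_cons p172 (crtF_cons p173 (crtF_cons p174 (crtF_cons p175 (crtF_cons p176 (crtF_cons p177 (crtF_cons p178 (crtF_cons p179 (crtF_cons p180 (crtF_cons p181 (crtF_cons p182 (crtF_cons p183 (crtF_cons p184 (crtF_cons p185 (crtF_cons p186 (crtF_cons p187 (crtF_cons p188 (crtF_cons p189 (crtF_cons p190 (crtF_cons p191 (crtF_cons p192 (crtF_cons p193 (crtF_cons p194 (crtF_cons p195 (crtF_cons p196 (crtF_cons p197 (crtF_cons p198 (crtF_cons p199 (crtF_cons p200 (crtF_cons p201 (crtF_cons p202 (crtF_cons p203 (crtF_cons p204 (crtF_cons p205 (crtF_cons p206 (crtF_cons p207 (crtF_cons p208 (crtF_cons p209 (crtF_cons p210 (crtF_cons p211 (crtF_cons p212 (crtF_cons p213 (crtF_cons p214 (crtF_cons p215 (crtF_cons p216 (crtF_cons p217 (crtF_cons p218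 (crtF_cons p219 (crtF_cons p220 (crtF_cons p221 (crtF_cons p222 (crtF_cons p223 (crtF_cons p224 (crtF_cons p225 (crtF_cons p226 (crtF_cons p227 (crtF_cons p228 (crtF_cons p229 (crtF_cons p230 (crtF_cons p231 (crtF_cons p232 (crtF_cons p233 (crtF_cons p234 (crtF_cons p235 (crtF_cons p236 (crtF_cons p237 (crtF_cons p238 (crtF_cons p239 (crtF_cons p240 (crtF_cons p241 (crtF_cons p242 (crtF_cons p243 (crtF_cons p244 (crtF_cons p245 (crtF_cons p246 (crtF_cons p247 (crtF_cons p248 (crtF_cons p249 (crtF_cons p250 (crtF_cons p251 (crtF_cons p252 (crtF_cons p253 (crtF_cons p254 (crtF_cons p255 crtF_nil)))))))))))))))))))))))))))))))))))))))))))))))))))))))))))))))))))))))))))))))))))))))))))))))))))))))))))))))))))))))))))))))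

theorem ch : chT 73 73 TCm s0_001 L = true := by decide +kernel

end Vale.Agent.P032X.Cert.X3.A2.R0H001
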