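import Vale.Agent.P032X.H892.LtH
import Vale.Agent.P032X.H286.W73
import Vale.Agent.P032X.Cert.X3.A2.R0T
import Vale.Agent.P032X.Cert.X3.A2.R0Q029
import Vale.Agent.P032X.Cert.X3.A2.R0Q030
import Vale.Agent.P032X.Cert.X3.A2.R0Q031
import Vale.Agent.P032X.Cert.X3.A2.R0Q032
import Vale.Agent.P032X.Cert.X3.A2.R0Q033

set_option maxRecDepth 1000000

namespace Vale.Agent.P032X.Cert.X3.A2.R0H003

open Vale.Agent.P032.H820.K Vale.Agent.P032.H357.MK Vale.Agent.P032.H286.E Vale.Agent.P032.H61 Vale.Agent.P032X.Cert.X3.A2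

noncomputable abbrev Fm : ℕ → List ℕ := Vale.Agent.P032.Fam.fam3 (Vale.Agent.P032.Fam.im0)

def CB : List ℕ := [0, 4, 8, 12, 16, 20, 24]

theorem eB : Vale.Agent.P032.Lt.eqLL (CB.map Fm) R0Q029.E = true := by decide +kernel

theorem p384 : Pat 73 73 TBm TCm (CB.map Fm) R0Q029.P384 R0Q029.I384 := Vale.Agent.P032.Lt.pat_eq (E' := R0Q029.E) eB (pat_step (by decide +kernel) (q_cons (Vale.Agent.P032.Lt.q R0Q029.q384_0) q_nil))

def C385 : List ℕ := [0, 4, 8, 12, 16, 20, 24, 216065, 475137, 9664147317778]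
theorem p385 : Pat 73 73 TBm TCm (C385.map Fm) R0Q029.P385 R0Q029.I385 := Vale.Agent.P032.Lt.pat_eq (E' := R0Q029.E385) (by decide +kernel) (pat_step (by decide +kernel) (q_cons (Vale.Agent.P032.Lt.q R0Q029.q385_0) (q_cons (Vale.Agent.P032.Lt.q R0Q029.q385_1) (q_cons (Vale.Agent.P032.Lt.q R0Q029.q385_2) q_nil))))

def C386 : List ℕ := [0, 4, 8, 12, 16, 20, 24, 216065, 347137, 478209, 9595564155922]
theorem p386 : Pat 73 73 TBm TCm (C386.map Fm) R0Q029.P386 R0Q029.I386 := Vale.Agent.P032.Lt.pat_eq (E' := R0Q029.E386) (by decide +kernel) (pat_step (by decide +kernel) (q_cons (Vale.Agent.P032.Lt.q R0Q029.q386_0) (q_cons (Vale.Agent.P032.Lt.q R0Q029.q386_1) (q_cons (Vale.Agent.P032.Lt.q R0Q029.q386_2) (q_cons (Vale.Agent.P032.Lt.q R0Q029.q386_3) (q_cons (Vale.Agent.P032.Lt.q R0Q029.q386_4) (q_cons (Vale.Agent.P032.Lt.q R0Q029.q386_5) (q_cons (Vale.Agent.P032.Lt.q R0Q029.q386_6) (q_cons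 (Vale.Agent.P032.Lt.q R0Q029.q386_7) (q_cons (Vale.Agent.P032.Lt.q R0Q029.q386_8) (q_cons (Vale.Agent.P032.Lt.q R0Q029.q386_9) (q_cons (Vale.Agent.P032.Lt.q R0Q029.q386_10) (q_cons (Vale.Agent.P032.Lt.q R0Q029.q386_11) q_nil)))))))))))))

def C387 : List ℕ := [0, 4, 8, 12, 16, 20, 24, 214017, 610305, 14062015437834, 24275565504534, 24275632613398, 24335728601110, 24335787321366]
theorem p387 : Pat 73 73 TBm TCm (C387.map Fm) R0Q029.P387 R0Q029.I387 := Vale.Agent.P032.Lt.pat_eq (E' := R0Q029.E387) (by decide +kernel) (pat_step (by decide +kernel) (q_cons (Vale.Agent.P032.Lt.q R0Q029.q387_0) (q_cons (Vale.Agent.P032.Lt.q R0Q029.q387_1) (q_cons (Vale.Agent.P032.Lt.q R0Q029.q387_2) (q_cons (Vale.Agent.P032.Lt.q R0Q029.q387_3) (q_cons (Vale.Agent.P032.Lt.q R0Q029.q387_4) (q_cons (Vale.Agent.P032.Lt.q R0Q029.q387_5) (q_cons (Vale.Agent.P032.Lt.q R0Q029.q387_6) (q_cons (Vale.Agent.P032.Lt.q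 R0Q029.q387_7) (q_cons (Vale.Agent.P032.Lt.q R0Q029.q387_8) (q_cons (Vale.Agent.P032.Lt.q R0Q029.q387_9) (q_cons (Vale.Agent.P032.Lt.q R0Q029.q387_10) (q_cons (Vale.Agent.P032.Lt.q R0Q029.q387_11) (q_cons (Vale.Agent.P032.Lt.q R0Q029.q387_12) q_nil))))))))))))))

def C388 : List ℕ := [0, 4, 8, 12, 16, 20, 24, 216065, 22840933049362]
theorem p388 : Pat 73 73 TBm TCm (C388.map Fm) R0Q029.P388 R0Q029.I388 := Vale.Agent.P032.Lt.pat_eq (E' := R0Q029.E388) (by decide +kernel) (pat_step (by decide +kernel) (q_cons (Vale.Agent.P032.Lt.q R0Q029.q388_0) (q_cons (Vale.Agent.P032.Lt.q R0Q029.q388_1) (q_cons (Vale.Agent.P032.Lt.q R0Q029.q388_2) (q_cons (Vale.Agent.P032.Lt.q R0Q029.q388_3) (q_cons (Vale.Agent.P032.Lt.q R0Q029.q388_4) (q_cons (Vale.Agent.P032.Lt.q R0Q029.q388_5) (q_cons (Vale.Agent.P032.Lt.q R0Q029.q388_6) (q_cons (Vale.Agent.P032.Lt.q R0Q029.q388_7) q_nil)))))))))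

theorem p389 : Pat 73 73 TBm TCm (CB.map Fm) R0Q029.P389 R0Q029.I389 := Vale.Agent.P032.Lt.pat_eq (E' := R0Q029.E) eB (pat_step (by decide +kernel) (q_cons (Vale.Agent.P032.Lt.q R0Q029.q389_0) (q_cons (Vale.Agent.P032.Lt.q R0Q029.q389_1) (q_cons (Vale.Agent.P032.Lt.q R0Q029.q389_2) (q_cons (Vale.Agent.P032.Lt.q R0Q029.q389_3) (q_cons (Vale.Agent.P032.Lt.q R0Q029.q389_4) (q_cons (Vale.Agent.P032.Lt.q R0Q029.q389_5) q_nil)))))))

def C390 : List ℕ := [0, 4, 8, 12, 16, 20, 24, 349185, 355329, 606209, 737281, 9169958038554, 24412755810310, 24413695989766]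
theorem p390 : Pat 73 73 TBm TCm (C390.map Fm) R0Q029.P390 R0Q029.I390 := Vale.Agent.P032.Lt.pat_eq (E' := R0Q029.E390) (by decide +kernel) (pat_step (by decide +kernel) (q_cons (Vale.Agent.P032.Lt.q R0Q029.q390_0) (q_cons (Vale.Agent.P032.Lt.q R0Q029.q390_1) (q_cons (Vale.Agent.P032.Lt.q R0Q029.q390_2) (q_cons (Vale.Agent.P032.Lt.q R0Q029.q390_3) (q_cons (Vale.Agent.P032.Lt.q R0Q029.q390_4) (q_cons (Vale.Agent.P032.Lt.q R0Q029.q390_5) (q_cons (Vale.Agent.P032.Lt.q R0Q029.q390_6) (q_cons (Vale.Agent.P032.Lt.q R0Q029.q390_7) (q_cons (Vale.Agent.P032.Lt.q R0Q029.q390_8) (q_cons (Vale.Agent.P032.Lt.q R0Q029.q390_9) (q_cons (Vale.Agent.P032.Lt.q R0Q029.q390_10) q_nil))))))))))))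

def C391 : List ℕ := [0, 4, 8, 12, 16, 20, 24, 87041, 91137, 475137, 480257, 606209, 742401, 22165501471770, 23811549654042, 23812488129562]
theorem p391 : Pat 73 73 TBm TCm (C391.map Fm) R0Q029.P391 R0Q029.I391 := Vale.Agent.P032.Lt.pat_eq (E' := R0Q029.E391) (by decide +kernel) (pat_step (by decide +kernel) (q_cons (Vale.Agent.P032.Lt.q R0Q029.q391_0) (q_cons (Vale.Agent.P032.Lt.q R0Q029.q391_1) q_nil)))

def C392 : List ℕ := [0, 4, 8, 12, 16, 20, 24, 81921, 344065, 475137, 611329, 737281, 17821073632282, 19593916804122]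
theorem p392 : Pat 73 73 TBm TCm (C392.map Fm) R0Q029.P392 R0Q029.I392 := Vale.Agent.P032.Lt.pat_eq (E' := R0Q029.E392) (by decide +kernel) (pat_step (by decide +kernel) (q_cons (Vale.Agent.P032.Lt.q R0Q029.q392_0) (q_cons (Vale.Agent.P032.Lt.q R0Q029.q392_1) (q_cons (Vale.Agent.P032.Lt.q R0Q029.q392_2) (q_cons (Vale.Agent.P032.Lt.q R0Q029.q392_3) (q_cons (Vale.Agent.P032.Lt.q R0Q029.q392_4) q_nil))))))

def C393 : List ℕ := [0, 4, 8, 12, 16, 20, 24, 84993, 212993, 216065, 222209, 349185, 355329, 478209, 606209, 615425, 737281, 4651721384978, 9169890929690, 9169895123994, 14041427698706, 14397490549810, 14402189349938, 14409729532946, 18393204476970]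
theorem p393 : Pat 73 73 TBm TCm (C393.map Fm) R0Q029.P393 R0Q029.I393 := Vale.Agent.P032.Lt.pat_eq (E' := R0Q029.E393) (by decide +kernel) (pat_step (by decide +kernel) (q_cons (Vale.Agent.P032.Lt.q R0Q029.q393_0) (q_cons (Vale.Agent.P032.Lt.q R0Q029.q393_1) (q_cons (Vale.Agent.P032.Lt.q R0Q029.q393_2) (q_cons (Vale.Agent.P032.Lt.q R0Q029.q393_3) (q_cons (Vale.Agent.P032.Lt.q R0Q029.q393_4) (q_cons (Vale.Agent.P032.Lt.q R0Q029.q393_5) (q_cons (Vale.Agent.P032.Lt.q R0Q029.q393_6) (q_cons (Vale.Agent.P032.Lt.q R0Q029.q393_7) (q_cons (Vale.Agent.P032.Lt.q R0Q029.q393_8) (q_cons (Vale.Agent.P032.Lt.q R0Q029.q393_9) (q_cons (Vale.Agent.P032.Lt.q R0Q029.q393_10) (q_cons (Vale.Agent.P032.Lt.q R0Q029.q393_11) (q_cons (Vale.Agent.P032.Lt.q R0Q029.q393_12) (q_cons (Vale.Agent.P032.Lt.q R0Q029.q393_13) (q_cons (Vale.Agent.P032.Lt.q R0Q029.q393_14) (q_cons (Vale.Agent.P032.Lt.q R0Q029.q393_15)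 (q_cons (Vale.Agent.P032.Lt.q R0Q029.q393_16) (q_cons (Vale.Agent.P032.Lt.q R0Q029.q393_17) (q_cons (Vale.Agent.P032.Lt.q R0Q029.q393_18) (q_cons (Vale.Agent.P032.Lt.q R0Q029.q393_19) (q_cons (Vale.Agent.P032.Lt.q R0Q029.q393_20) (q_cons (Vale.Agent.P032.Lt.q R0Q029.q393_21) (q_cons (Vale.Agent.P032.Lt.q R0Q029.q393_22) (q_cons (Vale.Agent.P032.Lt.q R0Q029.q393_23) (q_cons (Vale.Agent.P032.Lt.q R0Q029.q393_24) (q_cons (Vale.Agent.P032.Lt.q R0Q029.q393_25) (q_cons (Vale.Agent.P032.Lt.q R0Q029.q393_26) (q_cons (Vale.Agent.P032.Lt.q R0Q029.q393_27) (q_cons (Vale.Agent.P032.Lt.q R0Q029.q393_28) (q_cons (Vale.Agent.P032.Lt.q R0Q029.q393_29) (q_cons (Vale.Agent.P032.Lt.q R0Q029.q393_30) (q_cons (Vale.Agent.P032.Lt.q R0Q029.q393_31) (q_cons (Vale.Agent.P032.Lt.q R0Q029.q393_32) (q_cons (Vale.Agent.P032.Lt.q R0Q029.q393_33) (q_cons (Vale.Agent.P032.Lt.q R0Q029.q393_34) (q_cons (Vale.Agent.P032.Lt.q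 R0Q029.q393_35) (q_cons (Vale.Agent.P032.Lt.q R0Q029.q393_36) (q_cons (Vale.Agent.P032.Lt.q R0Q029.q393_37) (q_cons (Vale.Agent.P032.Lt.q R0Q029.q393_38) (q_cons (Vale.Agent.P032.Lt.q R0Q029.q393_39) q_nil)))))))))))))))))))))))))))))))))))))))))

def C394 : List ℕ := [0, 4, 8, 12, 16, 20, 24, 82945, 87041, 218113, 220161, 346113, 349185, 476161, 477185, 607233, 608257, 611329, 738305, 9038396091418, 9727068564506, 14577865672742, 18391358456866, 18506048826394, 19593930300426, 22163540106250, 23812401880074, 23812403977226, 24284110085130, 24284112182282]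
theorem p394 : Pat 73 73 TBm TCm (C394.map Fm) R0Q029.P394 R0Q029.I394 := Vale.Agent.P032.Lt.pat_eq (E' := R0Q029.E394) (by decide +kernel) (pat_step (by decide +kernel) (q_cons (Vale.Agent.P032.Lt.q R0Q029.q394_0) (q_cons (Vale.Agent.P032.Lt.q R0Q029.q394_1) (q_cons (Vale.Agent.P032.Lt.q R0Q029.q394_2) (q_cons (Vale.Agent.P032.Lt.q R0Q029.q394_3) (q_cons (Vale.Agent.P032.Lt.q R0Q029.q394_4) (q_cons (Vale.Agent.P032.Lt.q R0Q029.q394_5) (q_cons (Vale.Agent.P032.Lt.q R0Q029.q394_6) (q_cons (Vale.Agent.P032.Lt.q R0Q029.q394_7) (q_cons (Vale.Agent.P032.Lt.q R0Q029.q394_8) q_nil))))))))))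

def C395 : List ℕ := [0, 4, 8, 12, 16, 20, 24, 212993, 344065, 475137, 748545, 13916410566662, 14397446903814, 22155142190130, 22163577590834, 24285980742706, 24353626477618]
theorem p395 : Pat 73 73 TBm TCm (C395.map Fm) R0Q029.P395 R0Q029.I395 := Vale.Agent.P032.Lt.pat_eq (E' := R0Q029.E395) (by decide +kernel) (pat_step (by decide +kernel) (q_cons (Vale.Agent.P032.Lt.q R0Q029.q395_0) q_nil))

theorem p396 : Pat 73 73 TBm TCm (CB.map Fm) R0Q029.P396 R0Q029.I396 := Vale.Agent.P032.Lt.pat_eq (E' := R0Q029.E) eB (pat_step (by decide +kernel) (q_cons (Vale.Agent.P032.Lt.q R0Q029.q396_0) (q_cons (Vale.Agent.P032.Lt.q R0Q029.q396_1) (q_cons (Vale.Agent.P032.Lt.q R0Q029.q396_2) q_nil))))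

def C397 : List ℕ := [0, 4, 8, 12, 16, 20, 24, 212993, 220161, 344065, 475137, 13924867327010, 13924869424162, 14650140481542]
theorem p397 : Pat 73 73 TBm TCm (C397.map Fm) R0Q029.P397 R0Q029.I397 := Vale.Agent.P032.Lt.pat_eq (E' := R0Q029.E397) (by decide +kernel) (pat_step (by decide +kernel) (q_cons (Vale.Agent.P032.Lt.q R0Q029.q397_0) (q_cons (Vale.Agent.P032.Lt.q R0Q029.q397_1) (q_cons (Vale.Agent.P032.Lt.q R0Q029.q397_2) (q_cons (Vale.Agent.P032.Lt.q R0Q029.q397_3) (q_cons (Vale.Agent.P032.Lt.q R0Q029.q397_4) q_nil))))))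

def C398 : List ℕ := [0, 4, 8, 12, 16, 20, 24, 84993, 91137, 349185, 482305, 606209, 737281, 9115398267922, 9115400102930, 9169896959002, 23391508850710, 24412753975302, 24412754237446, 24412755810310, 24412756072454, 24413694023686, 24413694285830, 24413696120838, 24413696382982]
theorem p398 : Pat 73 73 TBm TCm (C398.map Fm) R0Q030.P398 R0Q030.I398 := Vale.Agent.P032.Lt.pat_eq (E' := R0Q030.E398) (by decide +kernel) (pat_step (by decide +kernel) (q_cons (Vale.Agent.P032.Lt.q R0Q030.q398_0) (q_cons (Vale.Agent.P032.Lt.q R0Q030.q398_1) (q_cons (Vale.Agent.P032.Lt.q R0Q030.q398_2) (q_cons (Vale.Agent.P032.Lt.q R0Q030.q398_3) (q_cons (Vale.Agent.P032.Lt.q R0Q030.q398_4) (q_cons (Vale.Agent.P032.Lt.q R0Q030.q398_5) (q_cons (Vale.Agent.P032.Lt.q R0Q030.q398_6) (q_cons (Vale.Agent.P032.Lt.q R0Q030.q398_7) (q_cons (Vale.Agent.P032.Lt.q R0Q030.q398_8) (q_cons (Vale.Agent.P032.Lt.q R0Q030.q398_9)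 (q_cons (Vale.Agent.P032.Lt.q R0Q030.q398_10) (q_cons (Vale.Agent.P032.Lt.q R0Q030.q398_11) (q_cons (Vale.Agent.P032.Lt.q R0Q030.q398_12) (q_cons (Vale.Agent.P032.Lt.q R0Q030.q398_13) (q_cons (Vale.Agent.P032.Lt.q R0Q030.q398_14) (q_cons (Vale.Agent.P032.Lt.q R0Q030.q398_15) (q_cons (Vale.Agent.P032.Lt.q R0Q030.q398_16) (q_cons (Vale.Agent.P032.Lt.q R0Q030.q398_17) (q_cons (Vale.Agent.P032.Lt.q R0Q030.q398_18) (q_cons (Vale.Agent.P032.Lt.q R0Q030.q398_19) (q_cons (Vale.Agent.P032.Lt.q R0Q030.q398_20) (q_cons (Vale.Agent.P032.Lt.q R0Q030.q398_21) (q_cons (Vale.Agent.P032.Lt.q R0Q030.q398_22) (q_cons (Vale.Agent.P032.Lt.q R0Q030.q398_23) q_nil)))))))))))))))))))))))))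

def C399 : List ℕ := [0, 4, 8, 12, 16, 20, 24, 82945, 216065, 347137, 478209, 609281]
theorem p399 : Pat 73 73 TBm TCm (C399.map Fm) R0Q030.P399 R0Q030.I399 := Vale.Agent.P032.Lt.pat_eq (E' := R0Q030.E399) (by decide +kernel) (pat_step (by decide +kernel) (q_cons (Vale.Agent.P032.Lt.q R0Q030.q399_0) q_nil))

def C400 : List ℕ := [0, 4, 8, 12, 16, 20, 24, 82945, 84993, 89089, 224257, 347137, 353281, 355329, 617473, 9115465376786, 9117299328034, 9177407898658, 9177475007522, 9177521144866, 17774140152842, 18506020770866, 19047119541298]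
theorem p400 : Pat 73 73 TBm TCm (C400.map Fm) R0Q030.P400 R0Q030.I400 := Vale.Agent.P032.Lt.pat_eq (E' := R0Q030.E400) (by decide +kernel) (pat_step (by decide +kernel) (q_cons (Vale.Agent.P032.Lt.q R0Q030.q400_0) (q_cons (Vale.Agent.P032.Lt.q R0Q030.q400_1) (q_cons (Vale.Agent.P032.Lt.q R0Q030.q400_2) (q_cons (Vale.Agent.P032.Lt.q R0Q030.q400_3) (q_cons (Vale.Agent.P032.Lt.q R0Q030.q400_4) (q_cons (Vale.Agent.P032.Lt.q R0Q030.q400_5) (q_cons (Vale.Agent.P032.Lt.q R0Q030.q400_6) (q_cons (Vale.Agent.P032.Lt.q R0Q030.q400_7) (q_cons (Vale.Agent.P032.Lt.q R0Q030.q400_8) (q_cons (Vale.Agent.P032.Lt.q R0Q030.q400_9) (q_cons (Vale.Agent.P032.Lt.q R0Q030.q400_10) (q_cons (Vale.Agent.P032.Lt.q R0Q030.q400_11) (q_cons (Vale.Agent.P032.Lt.q R0Q030.q400_12) (q_cons (Vale.Agent.P032.Lt.q R0Q030.q400_13) (q_cons (Vale.Agent.P032.Lt.q R0Q030.q400_14) (q_cons (Vale.Agent.P032.Lt.q R0Q030.q400_15)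 (q_cons (Vale.Agent.P032.Lt.q R0Q030.q400_16) (q_cons (Vale.Agent.P032.Lt.q R0Q030.q400_17) (q_cons (Vale.Agent.P032.Lt.q R0Q030.q400_18) q_nil))))))))))))))))))))

theorem p401 : Pat 73 73 TBm TCm (CB.map Fm) R0Q030.P401 R0Q030.I401 := Vale.Agent.P032.Lt.pat_eq (E' := R0Q030.E) eB (pat_step (by decide +kernel) (q_cons (Vale.Agent.P032.Lt.q R0Q030.q401_0) (q_cons (Vale.Agent.P032.Lt.q R0Q030.q401_1) (q_cons (Vale.Agent.P032.Lt.q R0Q030.q401_2) (q_cons (Vale.Agent.P032.Lt.q R0Q030.q401_3) (q_cons (Vale.Agent.P032.Lt.q R0Q030.q401_4) (q_cons (Vale.Agent.P032.Lt.q R0Q030.q401_5) (q_cons (Vale.Agent.P032.Lt.q R0Q030.q401_6) (q_cons (Vale.Agent.P032.Lt.q R0Q030.q401_7) (q_cons (Vale.Agent.P032.Lt.q R0Q030.q401_8) (q_cons (Vale.Agent.P032.Lt.q R0Q030.q401_9) (q_cons (Vale.Agent.P032.Lt.q R0Q030.q401_10) (q_cons (Vale.Agent.P032.Lt.q R0Q030.q401_11) (q_cons (Vale.Agent.P032.Lt.q R0Q030.q401_12)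 (q_cons (Vale.Agent.P032.Lt.q R0Q030.q401_13) (q_cons (Vale.Agent.P032.Lt.q R0Q030.q401_14) (q_cons (Vale.Agent.P032.Lt.q R0Q030.q401_15) (q_cons (Vale.Agent.P032.Lt.q R0Q030.q401_16) (q_cons (Vale.Agent.P032.Lt.q R0Q030.q401_17) (q_cons (Vale.Agent.P032.Lt.q R0Q030.q401_18) (q_cons (Vale.Agent.P032.Lt.q R0Q030.q401_19) (q_cons (Vale.Agent.P032.Lt.q R0Q030.q401_20) (q_cons (Vale.Agent.P032.Lt.q R0Q030.q401_21) (q_cons (Vale.Agent.P032.Lt.q R0Q030.q401_22) (q_cons (Vale.Agent.P032.Lt.q R0Q030.q401_23) (q_cons (Vale.Agent.P032.Lt.q R0Q030.q401_24) (q_cons (Vale.Agent.P032.Lt.q R0Q030.q401_25) (q_cons (Vale.Agent.P032.Lt.q R0Q030.q401_26) (q_cons (Vale.Agent.P032.Lt.q R0Q030.q401_27) (q_cons (Vale.Agent.P032.Lt.q R0Q030.q401_28) q_nil))))))))))))))))))))))))))))))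

theorem p402 : Pat 73 73 TBm TCm (CB.map Fm) R0Q030.P402 R0Q030.I402 := Vale.Agent.P032.Lt.pat_eq (E' := R0Q030.E) eB (pat_step (by decide +kernel) (q_cons (Vale.Agent.P032.Lt.q R0Q030.q402_0) (q_cons (Vale.Agent.P032.Lt.q R0Q030.q402_1) (q_cons (Vale.Agent.P032.Lt.q R0Q030.q402_2) (q_cons (Vale.Agent.P032.Lt.q R0Q030.q402_3) (q_cons (Vale.Agent.P032.Lt.q R0Q030.q402_4) (q_cons (Vale.Agent.P032.Lt.q R0Q030.q402_5) (q_cons (Vale.Agent.P032.Lt.q R0Q030.q402_6) (q_cons (Vale.Agent.P032.Lt.q R0Q030.q402_7) (q_cons (Vale.Agent.P032.Lt.q R0Q030.q402_8) (q_cons (Vale.Agent.P032.Lt.q R0Q030.q402_9) (q_cons (Vale.Agent.P032.Lt.q R0Q030.q402_10) (q_cons (Vale.Agent.P032.Lt.q R0Q030.q402_11) (q_cons (Vale.Agent.P032.Lt.q R0Q030.q402_12) (q_cons (Vale.Agent.P032.Lt.q R0Q030.q402_13) (q_cons (Vale.Agent.P032.Lt.q R0Q030.q402_14) (q_cons (Vale.Agent.P032.Lt.q R0Q030.q402_15) (q_cons (Vale.Agent.P032.Lt.q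 R0Q030.q402_16) (q_cons (Vale.Agent.P032.Lt.q R0Q030.q402_17) q_nil)))))))))))))))))))

theorem p403 : Pat 73 73 TBm TCm (CB.map Fm) R0Q030.P403 R0Q030.I403 := Vale.Agent.P032.Lt.pat_eq (E' := R0Q030.E) eB (pat_step (by decide +kernel) (q_cons (Vale.Agent.P032.Lt.q R0Q030.q403_0) (q_cons (Vale.Agent.P032.Lt.q R0Q030.q403_1) (q_cons (Vale.Agent.P032.Lt.q R0Q030.q403_2) q_nil))))

def C404 : List ℕ := [0, 4, 8, 12, 16, 20, 24, 91137, 93185, 224257, 344065, 353281, 355329, 486401, 606209, 617473, 737281, 4704413895722, 9647256720434, 13487966213170, 23196071319558, 23196072761350]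
theorem p404 : Pat 73 73 TBm TCm (C404.map Fm) R0Q030.P404 R0Q030.I404 := Vale.Agent.P032.Lt.pat_eq (E' := R0Q030.E404) (by decide +kernel) (pat_step (by decide +kernel) (q_cons (Vale.Agent.P032.Lt.q R0Q030.q404_0) q_nil))

def C405 : List ℕ := [0, 4, 8, 12, 16, 20, 24, 745473, 9595564149802, 19603385177138, 22157877135398, 22157910689830, 22157919078438, 22157977798694, 22157986187302, 22218023454758, 24278467434502]
theorem p405 : Pat 73 73 TBm TCm (C405.map Fm) R0Q030.P405 R0Q030.I405 := Vale.Agent.P032.Lt.pat_eq (E' := R0Q030.E405) (by decide +kernel) (pat_step (by decide +kernel) (q_cons (Vale.Agent.P032.Lt.q R0Q030.q405_0) (q_cons (Vale.Agent.P032.Lt.q R0Q030.q405_1) (q_cons (Vale.Agent.P032.Lt.q R0Q030.q405_2) (q_cons (Vale.Agent.P032.Lt.q R0Q030.q405_3) (q_cons (Vale.Agent.P032.Lt.q R0Q030.q405_4) (q_cons (Vale.Agent.P032.Lt.q R0Q030.q405_5) (q_cons (Vale.Agent.P032.Lt.q R0Q030.q405_6)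 (q_cons (Vale.Agent.P032.Lt.q R0Q030.q405_7) (q_cons (Vale.Agent.P032.Lt.q R0Q030.q405_8) q_nil))))))))))

def C406 : List ℕ := [0, 4, 8, 12, 16, 20, 24, 214017, 218113, 475137, 607233, 738305, 22707524557834, 24352630594570]
theorem p406 : Pat 73 73 TBm TCm (C406.map Fm) R0Q030.P406 R0Q030.I406 := Vale.Agent.P032.Lt.pat_eq (E' := R0Q030.E406) (by decide +kernel) (pat_step (by decide +kernel) (q_cons (Vale.Agent.P032.Lt.q R0Q030.q406_0) (q_cons (Vale.Agent.P032.Lt.q R0Q030.q406_1) (q_cons (Vale.Agent.P032.Lt.q R0Q030.q406_2) (q_cons (Vale.Agent.P032.Lt.q R0Q030.q406_3) (q_cons (Vale.Agent.P032.Lt.q R0Q030.q406_4) (q_cons (Vale.Agent.P032.Lt.q R0Q030.q406_5) (q_cons (Vale.Agent.P032.Lt.q R0Q030.q406_6) q_nil))))))))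

def C407 : List ℕ := [0, 4, 8, 12, 16, 20, 24, 347137, 475137, 611329, 737281, 18310634892314]
theorem p407 : Pat 73 73 TBm TCm (C407.map Fm) R0Q030.P407 R0Q030.I407 := Vale.Agent.P032.Lt.pat_eq (E' := R0Q030.E407) (by decide +kernel) (pat_step (by decide +kernel) (q_cons (Vale.Agent.P032.Lt.q R0Q030.q407_0) (q_cons (Vale.Agent.P032.Lt.q R0Q030.q407_1) (q_cons (Vale.Agent.P032.Lt.q R0Q030.q407_2) (q_cons (Vale.Agent.P032.Lt.q R0Q030.q407_3) (q_cons (Vale.Agent.P032.Lt.q R0Q030.q407_4) q_nil))))))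

def C408 : List ℕ := [0, 4, 8, 12, 16, 20, 24, 82945, 84993, 475137, 737281, 745473, 22782729865254, 23729709864966, 23729722447878, 23729776973830, 23729785362438]
theorem p408 : Pat 73 73 TBm TCm (C408.map Fm) R0Q030.P408 R0Q030.I408 := Vale.Agent.P032.Lt.pat_eq (E' := R0Q030.E408) (by decide +kernel) (pat_step (by decide +kernel) (q_cons (Vale.Agent.P032.Lt.q R0Q030.q408_0) (q_cons (Vale.Agent.P032.Lt.q R0Q030.q408_1) (q_cons (Vale.Agent.P032.Lt.q R0Q030.q408_2) (q_cons (Vale.Agent.P032.Lt.q R0Q030.q408_3) (q_cons (Vale.Agent.P032.Lt.q R0Q030.q408_4) (q_cons (Vale.Agent.P032.Lt.q R0Q030.q408_5) (q_cons (Vale.Agent.P032.Lt.q R0Q030.q408_6) (q_cons (Vale.Agent.P032.Lt.q R0Q030.q408_7) (q_cons (Vale.Agent.P032.Lt.q R0Q030.q408_8) (q_cons (Vale.Agent.P032.Lt.q R0Q030.q408_9) (q_cons (Vale.Agent.P032.Lt.q R0Q030.q408_10) q_nil))))))))))))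

def C409 : List ℕ := [0, 4, 8, 12, 16, 20, 24, 82945, 475137, 737281, 23729709864966, 23729776973830, 23729785362438]
theorem p409 : Pat 73 73 TBm TCm (C409.map Fm) R0Q030.P409 R0Q030.I409 := Vale.Agent.P032.Lt.pat_eq (E' := R0Q030.E409) (by decide +kernel) (pat_step (by decide +kernel) (q_cons (Vale.Agent.P032.Lt.q R0Q030.q409_0) (q_cons (Vale.Agent.P032.Lt.q R0Q030.q409_1) (q_cons (Vale.Agent.P032.Lt.q R0Q030.q409_2) (q_cons (Vale.Agent.P032.Lt.q R0Q030.q409_3) (q_cons (Vale.Agent.P032.Lt.q R0Q030.q409_4) (q_cons (Vale.Agent.P032.Lt.q R0Q030.q409_5) (q_cons (Vale.Agent.P032.Lt.q R0Q030.q409_6) (q_cons (Vale.Agent.P032.Lt.q R0Q030.q409_7) (q_cons (Vale.Agent.P032.Lt.q R0Q030.q409_8) (q_cons (Vale.Agent.P032.Lt.q R0Q030.q409_9) (q_cons (Vale.Agent.P032.Lt.q R0Q030.q409_10) (q_cons (Vale.Agent.P032.Lt.q R0Q030.q409_11) (q_cons (Vale.Agent.P032.Lt.q R0Q030.q409_12) (q_cons (Vale.Agent.P032.Lt.q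 R0Q030.q409_13) (q_cons (Vale.Agent.P032.Lt.q R0Q030.q409_14) (q_cons (Vale.Agent.P032.Lt.q R0Q030.q409_15) q_nil)))))))))))))))))

def C410 : List ℕ := [0, 4, 8, 12, 16, 20, 24, 89089, 224257, 344065, 482305, 738305, 9719540700210, 13379005793314, 13513310297098, 13573460810762, 14405945612294, 22232093907978, 23184796112902, 23188556568582, 24278408846346]
theorem p410 : Pat 73 73 TBm TCm (C410.map Fm) R0Q031.P410 R0Q031.I410 := Vale.Agent.P032.Lt.pat_eq (E' := R0Q031.E410) (by decide +kernel) (pat_step (by decide +kernel) (q_cons (Vale.Agent.P032.Lt.q R0Q031.q410_0) (q_cons (Vale.Agent.P032.Lt.q R0Q031.q410_1) (q_cons (Vale.Agent.P032.Lt.q R0Q031.q410_2) (q_cons (Vale.Agent.P032.Lt.q R0Q031.q410_3) (q_cons (Vale.Agent.P032.Lt.q R0Q031.q410_4) (q_cons (Vale.Agent.P032.Lt.q R0Q031.q410_5) (q_cons (Vale.Agent.P032.Lt.q R0Q031.q410_6) (q_cons (Vale.Agent.P032.Lt.q R0Q031.q410_7) (q_cons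 (Vale.Agent.P032.Lt.q R0Q031.q410_8) (q_cons (Vale.Agent.P032.Lt.q R0Q031.q410_9) (q_cons (Vale.Agent.P032.Lt.q R0Q031.q410_10) (q_cons (Vale.Agent.P032.Lt.q R0Q031.q410_11) (q_cons (Vale.Agent.P032.Lt.q R0Q031.q410_12) (q_cons (Vale.Agent.P032.Lt.q R0Q031.q410_13) (q_cons (Vale.Agent.P032.Lt.q R0Q031.q410_14) q_nil))))))))))))))))

theorem p411 : Pat 73 73 TBm TCm (CB.map Fm) R0Q031.P411 R0Q031.I411 := Vale.Agent.P032.Lt.pat_eq (E' := R0Q031.E) eB (pat_step (by decide +kernel) (q_cons (Vale.Agent.P032.Lt.q R0Q031.q411_0) (q_cons (Vale.Agent.P032.Lt.q R0Q031.q411_1) (q_cons (Vale.Agent.P032.Lt.q R0Q031.q411_2) (q_cons (Vale.Agent.P032.Lt.q R0Q031.q411_3) (q_cons (Vale.Agent.P032.Lt.q R0Q031.q411_4) (q_cons (Vale.Agent.P032.Lt.q R0Q031.q411_5) (q_cons (Vale.Agent.P032.Lt.q R0Q031.q411_6) (q_cons (Vale.Agent.P032.Lt.q R0Q031.q411_7) (q_cons (Vale.Agent.P032.Lt.q R0Q031.q411_8) (q_cons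 (Vale.Agent.P032.Lt.q R0Q031.q411_9) (q_cons (Vale.Agent.P032.Lt.q R0Q031.q411_10) (q_cons (Vale.Agent.P032.Lt.q R0Q031.q411_11) (q_cons (Vale.Agent.P032.Lt.q R0Q031.q411_12) q_nil))))))))))))))

def C412 : List ℕ := [0, 4, 8, 12, 16, 20, 24, 349185, 355329, 9169895123994, 14397490549810]
theorem p412 : Pat 73 73 TBm TCm (C412.map Fm) R0Q031.P412 R0Q031.I412 := Vale.Agent.P032.Lt.pat_eq (E' := R0Q031.E412) (by decide +kernel) (pat_step (by decide +kernel) (q_cons (Vale.Agent.P032.Lt.q R0Q031.q412_0) (q_cons (Vale.Agent.P032.Lt.q R0Q031.q412_1) q_nil)))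

def C413 : List ℕ := [0, 4, 8, 12, 16, 20, 24, 220161, 353281, 486401, 737281, 744449, 9115466681386, 13488024933426, 24278391937030, 24278404519942, 24278459045894, 24278467434502, 24338546644998, 24338555033606, 24338613753862, 24338622142470]
theorem p413 : Pat 73 73 TBm TCm (C413.map Fm) R0Q031.P413 R0Q031.I413 := Vale.Agent.P032.Lt.pat_eq (E' := R0Q031.E413) (by decide +kernel) (pat_step (by decide +kernel) (q_cons (Vale.Agent.P032.Lt.q R0Q031.q413_0) (q_cons (Vale.Agent.P032.Lt.q R0Q031.q413_1) (q_cons (Vale.Agent.P032.Lt.q R0Q031.q413_2) (q_cons (Vale.Agent.P032.Lt.q R0Q031.q413_3) (q_cons (Vale.Agent.P032.Lt.q R0Q031.q413_4) (q_cons (Vale.Agent.P032.Lt.q R0Q031.q413_5) (q_cons (Vale.Agent.P032.Lt.q R0Q031.q413_6) (q_cons (Vale.Agent.P032.Lt.q R0Q031.q413_7) (q_cons (Vale.Agent.P032.Lt.q R0Q031.q413_8) (q_cons (Vale.Agent.P032.Lt.q R0Q031.q413_9) (q_cons (Vale.Agent.P032.Lt.q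 R0Q031.q413_10) (q_cons (Vale.Agent.P032.Lt.q R0Q031.q413_11) q_nil)))))))))))))

theorem p414 : Pat 73 73 TBm TCm (CB.map Fm) R0Q031.P414 R0Q031.I414 := Vale.Agent.P032.Lt.pat_eq (E' := R0Q031.E) eB (pat_step (by decide +kernel) (q_cons (Vale.Agent.P032.Lt.q R0Q031.q414_0) q_nil))

def C415 : List ℕ := [0, 4, 8, 12, 16, 20, 24, 82945, 216065, 347137, 475137, 737281, 4718424842254, 9595562058770, 9595608196114, 23931717376006, 23932657686534]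
theorem p415 : Pat 73 73 TBm TCm (C415.map Fm) R0Q031.P415 R0Q031.I415 := Vale.Agent.P032.Lt.pat_eq (E' := R0Q031.E415) (by decide +kernel) (pat_step (by decide +kernel) (q_cons (Vale.Agent.P032.Lt.q R0Q031.q415_0) (q_cons (Vale.Agent.P032.Lt.q R0Q031.q415_1) (q_cons (Vale.Agent.P032.Lt.q R0Q031.q415_2) (q_cons (Vale.Agent.P032.Lt.q R0Q031.q415_3) (q_cons (Vale.Agent.P032.Lt.q R0Q031.q415_4) (q_cons (Vale.Agent.P032.Lt.q R0Q031.q415_5) (q_cons (Vale.Agent.P032.Lt.q R0Q031.q415_6) (q_cons (Vale.Agent.P032.Lt.q R0Q031.q415_7) (q_cons (Vale.Agent.P032.Lt.q R0Q031.q415_8) (q_cons (Vale.Agent.P032.Lt.q R0Q031.q415_9) (q_cons (Vale.Agent.P032.Lt.q R0Q031.q415_10) (q_cons (Vale.Agent.P032.Lt.q R0Q031.q415_11) q_nil)))))))))))))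

theorem p416 : Pat 73 73 TBm TCm (CB.map Fm) R0Q031.P416 R0Q031.I416 := Vale.Agent.P032.Lt.pat_eq (E' := R0Q031.E) eB (pat_step (by decide +kernel) (q_cons (Vale.Agent.P032.Lt.q R0Q031.q416_0) (q_cons (Vale.Agent.P032.Lt.q R0Q031.q416_1) (q_cons (Vale.Agent.P032.Lt.q R0Q031.q416_2) q_nil))))

def C417 : List ℕ := [0, 4, 8, 12, 16, 20, 24, 216065]
theorem p417 : Pat 73 73 TBm TCm (C417.map Fm) R0Q031.P417 R0Q031.I417 := Vale.Agent.P032.Lt.pat_eq (E' := R0Q031.E417) (by decide +kernel) (pat_step (by decide +kernel) (q_cons (Vale.Agent.P032.Lt.q R0Q031.q417_0) (q_cons (Vale.Agent.P032.Lt.q R0Q031.q417_1) (q_cons (Vale.Agent.P032.Lt.q R0Q031.q417_2) (q_cons (Vale.Agent.P032.Lt.q R0Q031.q417_3) (q_cons (Vale.Agent.P032.Lt.q R0Q031.q417_4) (q_cons (Vale.Agent.P032.Lt.q R0Q031.q417_5) (q_cons (Vale.Agent.P032.Lt.q R0Q031.q417_6) (q_cons (Vale.Agent.P032.Lt.q R0Q031.q417_7) (q_cons (Vale.Agent.P032.Lt.q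 R0Q031.q417_8) q_nil))))))))))

def C418 : List ℕ := [0, 4, 8, 12, 16, 20, 24, 84993, 347137, 478209, 480257, 606209, 737281, 740353, 13371490395154, 22165492818962, 24278404519942, 24278459045894, 24278467434502]
theorem p418 : Pat 73 73 TBm TCm (C418.map Fm) R0Q031.P418 R0Q031.I418 := Vale.Agent.P032.Lt.pat_eq (E' := R0Q031.E418) (by decide +kernel) (pat_step (by decide +kernel) (q_cons (Vale.Agent.P032.Lt.q R0Q031.q418_0) (q_cons (Vale.Agent.P032.Lt.q R0Q031.q418_1) (q_cons (Vale.Agent.P032.Lt.q R0Q031.q418_2) (q_cons (Vale.Agent.P032.Lt.q R0Q031.q418_3) (q_cons (Vale.Agent.P032.Lt.q R0Q031.q418_4) (q_cons (Vale.Agent.P032.Lt.q R0Q031.q418_5) (q_cons (Vale.Agent.P032.Lt.q R0Q031.q418_6) q_nil))))))))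

def C419 : List ℕ := [0, 4, 8, 12, 16, 20, 24, 347137, 349185, 611329, 9102290021402, 14646475187218, 17760944090138, 23305070535698]
theorem p419 : Pat 73 73 TBm TCm (C419.map Fm) R0Q031.P419 R0Q031.I419 := Vale.Agent.P032.Lt.pat_eq (E' := R0Q031.E419) (by decide +kernel) (pat_step (by decide +kernel) (q_cons (Vale.Agent.P032.Lt.q R0Q031.q419_0) q_nil))

def C420 : List ℕ := [0, 4, 8, 12, 16, 20, 24, 84993, 87041, 347137, 349185, 611329, 9115400102930, 9169958038554, 9647235886106, 19061267328026]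
theorem p420 : Pat 73 73 TBm TCm (C420.map Fm) R0Q031.P420 R0Q031.I420 := Vale.Agent.P032.Lt.pat_eq (E' := R0Q031.E420) (by decide +kernel) (pat_step (by decide +kernel) (q_cons (Vale.Agent.P032.Lt.q R0Q031.q420_0) (q_cons (Vale.Agent.P032.Lt.q R0Q031.q420_1) (q_cons (Vale.Agent.P032.Lt.q R0Q031.q420_2) (q_cons (Vale.Agent.P032.Lt.q R0Q031.q420_3) (q_cons (Vale.Agent.P032.Lt.q R0Q031.q420_4) (q_cons (Vale.Agent.P032.Lt.q R0Q031.q420_5) (q_cons (Vale.Agent.P032.Lt.q R0Q031.q420_6) q_nil))))))))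

def C421 : List ℕ := [0, 4, 8, 12, 16, 20, 24, 91137, 347137, 349185, 353281, 355329, 476161, 606209, 737281, 9046814313514, 9046881422378, 9049728314394, 9169895123994, 14036721425418, 14397490549810]
theorem p421 : Pat 73 73 TBm TCm (C421.map Fm) R0Q031.P421 R0Q031.I421 := Vale.Agent.P032.Lt.pat_eq (E' := R0Q031.E421) (by decide +kernel) (pat_step (by decide +kernel) (q_cons (Vale.Agent.P032.Lt.q R0Q031.q421_0) (q_cons (Vale.Agent.P032.Lt.q R0Q031.q421_1) (q_cons (Vale.Agent.P032.Lt.q R0Q031.q421_2) (q_cons (Vale.Agent.P032.Lt.q R0Q031.q421_3) (q_cons (Vale.Agent.P032.Lt.q R0Q031.q421_4) (q_cons (Vale.Agent.P032.Lt.q R0Q031.q421_5) q_nil)))))))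

theorem p422 : Pat 73 73 TBm TCm (CB.map Fm) R0Q031.P422 R0Q031.I422 := Vale.Agent.P032.Lt.pat_eq (E' := R0Q031.E) eB (pat_step (by decide +kernel) (q_cons (Vale.Agent.P032.Lt.q R0Q031.q422_0) (q_cons (Vale.Agent.P032.Lt.q R0Q031.q422_1) (q_cons (Vale.Agent.P032.Lt.q R0Q031.q422_2) (q_cons (Vale.Agent.P032.Lt.q R0Q031.q422_3) q_nil)))))

def C423 : List ℕ := [0, 4, 8, 12, 16, 20, 24, 91137, 353281, 617473, 9046881422378, 17817351967794, 23811470874630, 23812413151238, 23812488648710, 23931704793094]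
theorem p423 : Pat 73 73 TBm TCm (C423.map Fm) R0Q031.P423 R0Q031.I423 := Vale.Agent.P032.Lt.pat_eq (E' := R0Q031.E423) (by decide +kernel) (pat_step (by decide +kernel) (q_cons (Vale.Agent.P032.Lt.q R0Q031.q423_0) (q_cons (Vale.Agent.P032.Lt.q R0Q031.q423_1) (q_cons (Vale.Agent.P032.Lt.q R0Q031.q423_2) (q_cons (Vale.Agent.P032.Lt.q R0Q031.q423_3) (q_cons (Vale.Agent.P032.Lt.q R0Q031.q423_4) (q_cons (Vale.Agent.P032.Lt.q R0Q031.q423_5) (q_cons (Vale.Agent.P032.Lt.q R0Q031.q423_6) (q_cons (Vale.Agent.P032.Lt.q R0Q031.q423_7) (q_cons (Vale.Agent.P032.Lt.q R0Q031.q423_8) (q_cons (Vale.Agent.P032.Lt.q R0Q031.q423_9) (q_cons (Vale.Agent.P032.Lt.q R0Q031.q423_10) (q_cons (Vale.Agent.P032.Lt.q R0Q031.q423_11) (q_cons (Vale.Agent.P032.Lt.q R0Q031.q423_12) (q_cons (Vale.Agent.P032.Lt.q R0Q031.q423_13) (q_cons (Vale.Agent.P032.Lt.q R0Q031.q423_14) q_nil))))))))))))))))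

def C424 : List ℕ := [0, 4, 8, 12, 16, 20, 24, 82945, 84993, 214017, 216065, 347137, 476161, 478209, 609281, 9595564286994, 9715823107082, 13371490395154, 13376227859466, 13924870349842, 14646475187218, 18391432651794]
theorem p424 : Pat 73 73 TBm TCm (C424.map Fm) R0Q031.P424 R0Q031.I424 := Vale.Agent.P032.Lt.pat_eq (E' := R0Q031.E424) (by decide +kernel) (pat_step (by decide +kernel) (q_cons (Vale.Agent.P032.Lt.q R0Q031.q424_0) q_nil))

def C425 : List ℕ := [0, 4, 8, 12, 16, 20, 24, 84993, 87041, 218113, 349185, 742401, 4771982830618, 9724283546650, 22832498568218, 23373710584858]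
theorem p425 : Pat 73 73 TBm TCm (C425.map Fm) R0Q031.P425 R0Q031.I425 := Vale.Agent.P032.Lt.pat_eq (E' := R0Q031.E425) (by decide +kernel) (pat_step (by decide +kernel) (q_cons (Vale.Agent.P032.Lt.q R0Q031.q425_0) (q_cons (Vale.Agent.P032.Lt.q R0Q031.q425_1) q_nil)))

def C426 : List ℕ := [0, 4, 8, 12, 16, 20, 24, 82945, 475137, 737281]
theorem p426 : Pat 73 73 TBm TCm (C426.map Fm) R0Q032.P426 R0Q032.I426 := Vale.Agent.P032.Lt.pat_eq (E' := R0Q032.E426) (by decide +kernel) (pat_step (by decide +kernel) (q_cons (Vale.Agent.P032.Lt.q R0Q032.q426_0) (q_cons (Vale.Agent.P032.Lt.q R0Q032.q426_1) (q_cons (Vale.Agent.P032.Lt.q R0Q032.q426_2) (q_cons (Vale.Agent.P032.Lt.q R0Q032.q426_3) (q_cons (Vale.Agent.P032.Lt.q R0Q032.q426_4) (q_cons (Vale.Agent.P032.Lt.q R0Q032.q426_5) (q_cons (Vale.Agent.P032.Lt.q R0Q032.q426_6) (q_cons (Vale.Agent.P032.Lt.q R0Q032.q426_7) (q_cons (Vale.Agent.P032.Lt.q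 R0Q032.q426_8) (q_cons (Vale.Agent.P032.Lt.q R0Q032.q426_9) (q_cons (Vale.Agent.P032.Lt.q R0Q032.q426_10) (q_cons (Vale.Agent.P032.Lt.q R0Q032.q426_11) (q_cons (Vale.Agent.P032.Lt.q R0Q032.q426_12) (q_cons (Vale.Agent.P032.Lt.q R0Q032.q426_13) (q_cons (Vale.Agent.P032.Lt.q R0Q032.q426_14) (q_cons (Vale.Agent.P032.Lt.q R0Q032.q426_15) (q_cons (Vale.Agent.P032.Lt.q R0Q032.q426_16) (q_cons (Vale.Agent.P032.Lt.q R0Q032.q426_17) (q_cons (Vale.Agent.P032.Lt.q R0Q032.q426_18) (q_cons (Vale.Agent.P032.Lt.q R0Q032.q426_19) (q_cons (Vale.Agent.P032.Lt.q R0Q032.q426_20) (q_cons (Vale.Agent.P032.Lt.q R0Q032.q426_21) (q_cons (Vale.Agent.P032.Lt.q R0Q032.q426_22) (q_cons (Vale.Agent.P032.Lt.q R0Q032.q426_23) (q_cons (Vale.Agent.P032.Lt.q R0Q032.q426_24) (q_cons (Vale.Agent.P032.Lt.q R0Q032.q426_25) q_nil)))))))))))))))))))))))))))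

def C427 : List ℕ := [0, 4, 8, 12, 16, 20, 24, 214017, 223233, 344065, 476161, 607233, 738305, 9595536103430, 9651882383366, 9651884480518, 18325621922826, 18393273552942, 22835299834890, 23931723799562]
theorem p427 : Pat 73 73 TBm TCm (C427.map Fm) R0Q032.P427 R0Q032.I427 := Vale.Agent.P032.Lt.pat_eq (E' := R0Q032.E427) (by decide +kernel) (pat_step (by decide +kernel) (q_cons (Vale.Agent.P032.Lt.q R0Q032.q427_0) (q_cons (Vale.Agent.P032.Lt.q R0Q032.q427_1) q_nil)))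

def C428 : List ℕ := [0, 4, 8, 12, 16, 20, 24, 84993, 212993, 347137, 475137, 609281, 9115398267922]
theorem p428 : Pat 73 73 TBm TCm (C428.map Fm) R0Q032.P428 R0Q032.I428 := Vale.Agent.P032.Lt.pat_eq (E' := R0Q032.E428) (by decide +kernel) (pat_step (by decide +kernel) (q_cons (Vale.Agent.P032.Lt.q R0Q032.q428_0) (q_cons (Vale.Agent.P032.Lt.q R0Q032.q428_1) (q_cons (Vale.Agent.P032.Lt.q R0Q032.q428_2) (q_cons (Vale.Agent.P032.Lt.q R0Q032.q428_3) q_nil)))))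

def C429 : List ℕ := [0, 4, 8, 12, 16, 20, 24, 91137, 347137, 353281, 9115466681386]
theorem p429 : Pat 73 73 TBm TCm (C429.map Fm) R0Q032.P429 R0Q032.I429 := Vale.Agent.P032.Lt.pat_eq (E' := R0Q032.E429) (by decide +kernel) (pat_step (by decide +kernel) (q_cons (Vale.Agent.P032.Lt.q R0Q032.q429_0) (q_cons (Vale.Agent.P032.Lt.q R0Q032.q429_1) (q_cons (Vale.Agent.P032.Lt.q R0Q032.q429_2) (q_cons (Vale.Agent.P032.Lt.q R0Q032.q429_3) (q_cons (Vale.Agent.P032.Lt.q R0Q032.q429_4) (q_cons (Vale.Agent.P032.Lt.q R0Q032.q429_5) q_nil)))))))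

theorem p430 : Pat 73 73 TBm TCm (CB.map Fm) R0Q032.P430 R0Q032.I430 := Vale.Agent.P032.Lt.pat_eq (E' := R0Q032.E) eB (pat_step (by decide +kernel) (q_cons (Vale.Agent.P032.Lt.q R0Q032.q430_0) (q_cons (Vale.Agent.P032.Lt.q R0Q032.q430_1) q_nil)))

def C431 : List ℕ := [0, 4, 8, 12, 16, 20, 24, 216065, 17842660662282]
theorem p431 : Pat 73 73 TBm TCm (C431.map Fm) R0Q032.P431 R0Q032.I431 := Vale.Agent.P032.Lt.pat_eq (E' := R0Q032.E431) (by decide +kernel) (pat_step (by decide +kernel) (q_cons (Vale.Agent.P032.Lt.q R0Q032.q431_0) (q_cons (Vale.Agent.P032.Lt.q R0Q032.q431_1) q_nil)))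

def C432 : List ℕ := [0, 4, 8, 12, 16, 20, 24, 82945, 347137, 606209, 737281]
theorem p432 : Pat 73 73 TBm TCm (C432.map Fm) R0Q032.P432 R0Q032.I432 := Vale.Agent.P032.Lt.pat_eq (E' := R0Q032.E432) (by decide +kernel) (pat_step (by decide +kernel) (q_cons (Vale.Agent.P032.Lt.q R0Q032.q432_0) (q_cons (Vale.Agent.P032.Lt.q R0Q032.q432_1) (q_cons (Vale.Agent.P032.Lt.q R0Q032.q432_2) (q_cons (Vale.Agent.P032.Lt.q R0Q032.q432_3) q_nil)))))

theorem p433 : Pat 73 73 TBm TCm (CB.map Fm) R0Q032.P433 R0Q032.I433 := Vale.Agent.P032.Lt.pat_eq (E' := R0Q032.E) eB (pat_step (by decide +kernel) (q_cons (Vale.Agent.P032.Lt.q R0Q032.q433_0) (q_cons (Vale.Agent.P032.Lt.q R0Q032.q433_1) (q_cons (Vale.Agent.P032.Lt.q R0Q032.q433_2) (q_cons (Vale.Agent.P032.Lt.q R0Q032.q433_3) (q_cons (Vale.Agent.P032.Lt.q R0Q032.q433_4) (q_cons (Vale.Agent.P032.Lt.q R0Q032.q433_5) q_nil)))))))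

def C434 : List ℕ := [0, 4, 8, 12, 16, 20, 24, 82945, 212993, 214017, 476161, 606209, 607233, 737281, 4701513407498, 18391342472202]
theorem p434 : Pat 73 73 TBm TCm (C434.map Fm) R0Q032.P434 R0Q032.I434 := Vale.Agent.P032.Lt.pat_eq (E' := R0Q032.E434) (by decide +kernel) (pat_step (by decide +kernel) (q_cons (Vale.Agent.P032.Lt.q R0Q032.q434_0) (q_cons (Vale.Agent.P032.Lt.q R0Q032.q434_1) (q_cons (Vale.Agent.P032.Lt.q R0Q032.q434_2) (q_cons (Vale.Agent.P032.Lt.q R0Q032.q434_3) (q_cons (Vale.Agent.P032.Lt.q R0Q032.q434_4) q_nil))))))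

theorem p435 : Pat 73 73 TBm TCm (CB.map Fm) R0Q032.P435 R0Q032.I435 := Vale.Agent.P032.Lt.pat_eq (E' := R0Q032.E) eB (pat_step (by decide +kernel) (q_cons (Vale.Agent.P032.Lt.q R0Q032.q435_0) (q_cons (Vale.Agent.P032.Lt.q R0Q032.q435_1) (q_cons (Vale.Agent.P032.Lt.q R0Q032.q435_2) (q_cons (Vale.Agent.P032.Lt.q R0Q032.q435_3) (q_cons (Vale.Agent.P032.Lt.q R0Q032.q435_4) (q_cons (Vale.Agent.P032.Lt.q R0Q032.q435_5) (q_cons (Vale.Agent.P032.Lt.q R0Q032.q435_6) (q_cons (Vale.Agent.P032.Lt.q R0Q032.q435_7) (q_cons (Vale.Agent.P032.Lt.q R0Q032.q435_8) (q_cons (Vale.Agent.P032.Lt.q R0Q032.q435_9) (q_cons (Vale.Agent.P032.Lt.q R0Q032.q435_10) (q_cons (Vale.Agent.P032.Lt.q R0Q032.q435_11) (q_cons (Vale.Agent.P032.Lt.q R0Q032.q435_12) (q_cons (Vale.Agent.P032.Lt.q R0Q032.q435_13) (q_cons (Vale.Agent.P032.Lt.q R0Q032.q435_14) (q_cons (Vale.Agent.P032.Lt.q R0Q032.q435_15) (q_cons (Vale.Agent.P032.Lt.q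 R0Q032.q435_16) (q_cons (Vale.Agent.P032.Lt.q R0Q032.q435_17) (q_cons (Vale.Agent.P032.Lt.q R0Q032.q435_18) (q_cons (Vale.Agent.P032.Lt.q R0Q032.q435_19) (q_cons (Vale.Agent.P032.Lt.q R0Q032.q435_20) (q_cons (Vale.Agent.P032.Lt.q R0Q032.q435_21) (q_cons (Vale.Agent.P032.Lt.q R0Q032.q435_22) (q_cons (Vale.Agent.P032.Lt.q R0Q032.q435_23) (q_cons (Vale.Agent.P032.Lt.q R0Q032.q435_24) (q_cons (Vale.Agent.P032.Lt.q R0Q032.q435_25) (q_cons (Vale.Agent.P032.Lt.q R0Q032.q435_26) q_nil))))))))))))))))))))))))))))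

theorem p436 : Pat 73 73 TBm TCm (CB.map Fm) R0Q032.P436 R0Q032.I436 := Vale.Agent.P032.Lt.pat_eq (E' := R0Q032.E) eB (pat_step (by decide +kernel) (q_cons (Vale.Agent.P032.Lt.q R0Q032.q436_0) (q_cons (Vale.Agent.P032.Lt.q R0Q032.q436_1) (q_cons (Vale.Agent.P032.Lt.q R0Q032.q436_2) (q_cons (Vale.Agent.P032.Lt.q R0Q032.q436_3) (q_cons (Vale.Agent.P032.Lt.q R0Q032.q436_4) (q_cons (Vale.Agent.P032.Lt.q R0Q032.q436_5) (q_cons (Vale.Agent.P032.Lt.q R0Q032.q436_6) (q_cons (Vale.Agent.P032.Lt.q R0Q032.q436_7) q_nil)))))))))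

theorem p437 : Pat 73 73 TBm TCm (CB.map Fm) R0Q032.P437 R0Q032.I437 := Vale.Agent.P032.Lt.pat_eq (E' := R0Q032.E) eB (pat_step (by decide +kernel) (q_cons (Vale.Agent.P032.Lt.q R0Q032.q437_0) (q_cons (Vale.Agent.P032.Lt.q R0Q032.q437_1) (q_cons (Vale.Agent.P032.Lt.q R0Q032.q437_2) (q_cons (Vale.Agent.P032.Lt.q R0Q032.q437_3) (q_cons (Vale.Agent.P032.Lt.q R0Q032.q437_4) (q_cons (Vale.Agent.P032.Lt.q R0Q032.q437_5) (q_cons (Vale.Agent.P032.Lt.q R0Q032.q437_6) q_nil))))))))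

def C438 : List ℕ := [0, 4, 8, 12, 16, 20, 24, 214017, 347137, 353281, 606209, 607233, 737281, 9115466681386, 18511580584970, 24278383548422, 24278391937030, 24278404519942, 24278459045894, 24338546644998, 24338555033606, 24338605365254, 24338613753862]
theorem p438 : Pat 73 73 TBm TCm (C438.map Fm) R0Q032.P438 R0Q032.I438 := Vale.Agent.P032.Lt.pat_eq (E' := R0Q032.E438) (by decide +kernel) (pat_step (by decide +kernel) (q_cons (Vale.Agent.P032.Lt.q R0Q032.q438_0) (q_cons (Vale.Agent.P032.Lt.q R0Q032.q438_1) (q_cons (Vale.Agent.P032.Lt.q R0Q032.q438_2) (q_cons (Vale.Agent.P032.Lt.q R0Q032.q438_3) (q_cons (Vale.Agent.P032.Lt.q R0Q032.q438_4) (q_cons (Vale.Agent.P032.Lt.q R0Q032.q438_5) (q_cons (Vale.Agent.P032.Lt.q R0Q032.q438_6) (q_cons (Vale.Agent.P032.Lt.q R0Q032.q438_7) (q_cons (Vale.Agent.P032.Lt.q R0Q032.q438_8) (q_cons (Vale.Agent.P032.Lt.q R0Q032.q438_9) (q_cons (Vale.Agent.P032.Lt.q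 R0Q032.q438_10) (q_cons (Vale.Agent.P032.Lt.q R0Q032.q438_11) (q_cons (Vale.Agent.P032.Lt.q R0Q032.q438_12) (q_cons (Vale.Agent.P032.Lt.q R0Q032.q438_13) (q_cons (Vale.Agent.P032.Lt.q R0Q032.q438_14) (q_cons (Vale.Agent.P032.Lt.q R0Q032.q438_15) (q_cons (Vale.Agent.P032.Lt.q R0Q032.q438_16) (q_cons (Vale.Agent.P032.Lt.q R0Q032.q438_17) (q_cons (Vale.Agent.P032.Lt.q R0Q032.q438_18) (q_cons (Vale.Agent.P032.Lt.q R0Q032.q438_19) (q_cons (Vale.Agent.P032.Lt.q R0Q032.q438_20) (q_cons (Vale.Agent.P032.Lt.q R0Q032.q438_21) (q_cons (Vale.Agent.P032.Lt.q R0Q032.q438_22) (q_cons (Vale.Agent.P032.Lt.q R0Q032.q438_23) (q_cons (Vale.Agent.P032.Lt.q R0Q032.q438_24) (q_cons (Vale.Agent.P032.Lt.q R0Q032.q438_25) (q_cons (Vale.Agent.P032.Lt.q R0Q032.q438_26) (q_cons (Vale.Agent.P032.Lt.q R0Q032.q438_27) q_nil)))))))))))))))))))))))))))))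

def C439 : List ℕ := [0, 4, 8, 12, 16, 20, 24, 81921, 212993, 214017, 345089, 476161, 482305, 606209, 617473, 738305, 9719549746186, 13916437955618, 13928668027914, 17760907121714, 23188625906698, 23729695317002]
theorem p439 : Pat 73 73 TBm TCm (C439.map Fm) R0Q032.P439 R0Q032.I439 := Vale.Agent.P032.Lt.pat_eq (E' := R0Q032.E439) (by decide +kernel) (pat_step (by decide +kernel) (q_cons (Vale.Agent.P032.Lt.q R0Q032.q439_0) (q_cons (Vale.Agent.P032.Lt.q R0Q032.q439_1) (q_cons (Vale.Agent.P032.Lt.q R0Q032.q439_2) (q_cons (Vale.Agent.P032.Lt.q R0Q032.q439_3) (q_cons (Vale.Agent.P032.Lt.q R0Q032.q439_4) (q_cons (Vale.Agent.P032.Lt.q R0Q032.q439_5) (q_cons (Vale.Agent.P032.Lt.q R0Q032.q439_6) (q_cons (Vale.Agent.P032.Lt.q R0Q032.q439_7) (q_cons (Vale.Agent.P032.Lt.q R0Q032.q439_8) (q_cons (Vale.Agent.P032.Lt.q R0Q032.q439_9) (q_cons (Vale.Agent.P032.Lt.q R0Q032.q439_10) (q_cons (Vale.Agent.P032.Lt.q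 R0Q032.q439_11) (q_cons (Vale.Agent.P032.Lt.q R0Q032.q439_12) (q_cons (Vale.Agent.P032.Lt.q R0Q032.q439_13) (q_cons (Vale.Agent.P032.Lt.q R0Q032.q439_14) (q_cons (Vale.Agent.P032.Lt.q R0Q032.q439_15) (q_cons (Vale.Agent.P032.Lt.q R0Q032.q439_16) (q_cons (Vale.Agent.P032.Lt.q R0Q032.q439_17) (q_cons (Vale.Agent.P032.Lt.q R0Q032.q439_18) (q_cons (Vale.Agent.P032.Lt.q R0Q032.q439_19) (q_cons (Vale.Agent.P032.Lt.q R0Q032.q439_20) (q_cons (Vale.Agent.P032.Lt.q R0Q032.q439_21) (q_cons (Vale.Agent.P032.Lt.q R0Q032.q439_22) q_nil))))))))))))))))))))))))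

def C440 : List ℕ := [0, 4, 8, 12, 16, 20, 24, 23308857728010]
theorem p440 : Pat 73 73 TBm TCm (C440.map Fm) R0Q032.P440 R0Q032.I440 := Vale.Agent.P032.Lt.pat_eq (E' := R0Q032.E440) (by decide +kernel) (pat_step (by decide +kernel) (q_cons (Vale.Agent.P032.Lt.q R0Q032.q440_0) (q_cons (Vale.Agent.P032.Lt.q R0Q032.q440_1) (q_cons (Vale.Agent.P032.Lt.q R0Q032.q440_2) (q_cons (Vale.Agent.P032.Lt.q R0Q032.q440_3) (q_cons (Vale.Agent.P032.Lt.q R0Q032.q440_4) (q_cons (Vale.Agent.P032.Lt.q R0Q032.q440_5) (q_cons (Vale.Agent.P032.Lt.q R0Q032.q440_6) (q_cons (Vale.Agent.P032.Lt.q R0Q032.q440_7) q_nil)))))))))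

theorem p441 : Pat 73 73 TBm TCm (CB.map Fm) R0Q032.P441 R0Q032.I441 := Vale.Agent.P032.Lt.pat_eq (E' := R0Q032.E) eB (pat_step (by decide +kernel) (q_cons (Vale.Agent.P032.Lt.q R0Q032.q441_0) (q_cons (Vale.Agent.P032.Lt.q R0Q032.q441_1) (q_cons (Vale.Agent.P032.Lt.q R0Q032.q441_2) (q_cons (Vale.Agent.P032.Lt.q R0Q032.q441_3) (q_cons (Vale.Agent.P032.Lt.q R0Q032.q441_4) (q_cons (Vale.Agent.P032.Lt.q R0Q032.q441_5) q_nil)))))))

theorem p442 : Pat 73 73 TBm TCm (CB.map Fm) R0Q033.P442 R0Q033.I442 := Vale.Agent.P032.Lt.pat_eq (E' := R0Q033.E) eB (pat_step (by decide +kernel) (q_cons (Vale.Agent.P032.Lt.q R0Q033.q442_0) (q_cons (Vale.Agent.P032.Lt.q R0Q033.q442_1) q_nil)))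

theorem p443 : Pat 73 73 TBm TCm (CB.map Fm) R0Q033.P443 R0Q033.I443 := Vale.Agent.P032.Lt.pat_eq (E' := R0Q033.E) eB (pat_step (by decide +kernel) (q_cons (Vale.Agent.P032.Lt.q R0Q033.q443_0) (q_cons (Vale.Agent.P032.Lt.q R0Q033.q443_1) q_nil)))

theorem p444 : Pat 73 73 TBm TCm (CB.map Fm) R0Q033.P444 R0Q033.I444 := Vale.Agent.P032.Lt.pat_eq (E' := R0Q033.E) eB (pat_step (by decide +kernel) (q_cons (Vale.Agent.P032.Lt.q R0Q033.q444_0) q_nil))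

theorem p445 : Pat 73 73 TBm TCm (CB.map Fm) R0Q033.P445 R0Q033.I445 := Vale.Agent.P032.Lt.pat_eq (E' := R0Q033.E) eB (pat_step (by decide +kernel) (q_cons (Vale.Agent.P032.Lt.q R0Q033.q445_0) q_nil))

theorem p446 : Pat 73 73 TBm TCm (CB.map Fm) R0Q033.P446 R0Q033.I446 := Vale.Agent.P032.Lt.pat_eq (E' := R0Q033.E) eB (pat_step (by decide +kernel) (q_cons (Vale.Agent.P032.Lt.q R0Q033.q446_0) q_nil))

theorem p447 : Pat 73 73 TBm TCm (CB.map Fm) R0Q033.P447 R0Q033.I447 := Vale.Agent.P032.Lt.pat_eq (E' := R0Q033.E) eB (pat_step (by decide +kernel) (q_cons (Vale.Agent.P032.Lt.q R0Q033.q447_0) (q_cons (Vale.Agent.P032.Lt.q R0Q033.q447_1) q_nil)))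

theorem p448 : Pat 73 73 TBm TCm (CB.map Fm) R0Q033.P448 R0Q033.I448 := Vale.Agent.P032.Lt.pat_eq (E' := R0Q033.E) eB (pat_step (by decide +kernel) (q_cons (Vale.Agent.P032.Lt.q R0Q033.q448_0) q_nil))

theorem p449 : Pat 73 73 TBm TCm (CB.map Fm) R0Q033.P449 [] := Vale.Agent.P032.Lt.pat_eq (E' := R0Q033.E) eB (pat_end (by decide +kernel) (Vale.Agent.P032.Lt.q R0Q033.q449))

theorem p450 : Pat 73 73 TBm TCm (CB.map Fm) R0Q033.P450 R0Q033.I450 := Vale.Agent.P032.Lt.pat_eq (E' := R0Q033.E) eB (pat_step (by decide +kernel) (q_cons (Vale.Agent.P032.Lt.q R0Q033.q450_0) q_nil))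

theorem p451 : Pat 73 73 TBm TCm (CB.map Fm) R0Q033.P451 R0Q033.I451 := Vale.Agent.P032.Lt.pat_eq (E' := R0Q033.E) eB (pat_step (by decide +kernel) (q_cons (Vale.Agent.P032.Lt.q R0Q033.q451_0) q_nil))

theorem p452 : Pat 73 73 TBm TCm (CB.map Fm) R0Q033.P452 R0Q033.I452 := Vale.Agent.P032.Lt.pat_eq (E' := R0Q033.E) eB (pat_step (by decide +kernel) (q_cons (Vale.Agent.P032.Lt.q R0Q033.q452_0) q_nil))

def L : List (List ℕ) := [R0Q029.P384, R0Q029.P385, R0Q029.P386, R0Q029.P387, R0Q029.P388, R0Q029.P389, R0Q029.P390, R0Q029.P391, R0Q029.P392, R0Q029.P393, R0Q029.P394, R0Q029.P395, R0Q029.P396, R0Q029.P397, R0Q030.P398, R0Q030.P399, R0Q030.P400, R0Q030.P401, R0Q030.P402, R0Q030.P403, R0Q030.P404, R0Q030.P405, R0Q030.P406, R0Q030.P407, R0Q030.P408, R0Q030.P409, R0Q031.P410, R0Q031.P411, R0Q031.P412, R0Q031.P413, R0Q031.P414, R0Q031.P415, R0Q031.P416, R0Q031.P417, R0Q031.P418, R0Q031.P419,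 R0Q031.P420, R0Q031.P421, R0Q031.P422, R0Q031.P423, R0Q031.P424, R0Q031.P425, R0Q032.P426, R0Q032.P427, R0Q032.P428, R0Q032.P429, R0Q032.P430, R0Q032.P431, R0Q032.P432, R0Q032.P433, R0Q032.P434, R0Q032.P435, R0Q032.P436, R0Q032.P437, R0Q032.P438, R0Q032.P439, R0Q032.P440, R0Q032.P441, R0Q033.P442, R0Q033.P443, R0Q033.P444, R0Q033.P445, R0Q033.P446, R0Q033.P447, R0Q033.P448, R0Q033.P449, R0Q033.P450, R0Q033.P451, R0Q033.P452]

theorem all : ∀ P ∈ L, CrtF 73 73 TBm TCm (Vale.Agent.P032.Fam.fam3 (Vale.Agent.P032.Fam.im0)) P := crtF_cons p384 (crtF_cons p385 (crtF_cons p386 (crtF_cons p387 (crtF_cons p388 (crtF_cons p389 (crtF_cons p390 (crtF_cons p391 (crtF_cons p392 (crtF_cons p393 (crtF_cons p394 (crtF_cons p395 (crtF_cons p396 (crtF_cons p397 (crtF_cons p398 (crtF_cons p399 (crtF_cons p400 (crtF_cons p401 (crtF_cons p402 (crtF_cons p403 (crtF_cons p404 (crtF_cons p405 (crtF_cons p406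 (crtF_cons p407 (crtF_cons p408 (crtF_cons p409 (crtF_cons p410 (crtF_cons p411 (crtF_cons p412 (crtF_cons p413 (crtF_cons p414 (crtF_cons p415 (crtF_cons p416 (crtF_cons p417 (crtF_cons p418 (crtF_cons p419 (crtF_cons p420 (crtF_cons p421 (crtF_cons p422 (crtF_cons p423 (crtF_cons p424 (crtF_cons p425 (crtF_cons p426 (crtF_cons p427 (crtF_cons p428 (crtF_cons p429 (crtF_cons p430 (crtF_cons p431 (crtF_cons p432 (crtF_cons p433 (crtF_cons p434 (crtF_cons p435 (crtF_cons p436 (crtF_cons p437 (crtF_cons p438 (crtF_cons p439 (crtF_cons p440 (crtF_cons p441 (crtF_cons p442 (crtF_cons p443 (crtF_cons p444 (crtF_cons p445 (crtF_cons p446 (crtF_cons p447 (crtF_cons p448 (crtF_cons p449 (crtF_cons p450 (crtF_cons p451 (crtF_cons p452 crtF_nil))))))))))))))))))))))))))))))))))))))))))))))))))))))))))))))))))))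

theorem ch : chT 73 73 TCm s0_003 L = true := by decide +kernel

end Vale.Agent.P032X.Cert.X3.A2.R0H003
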